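import Vale.Agent.Lib.P361.Trial3

namespace Vale.Agent.Lib.P361

open Matrix

variable {V : Type} [Fintype V] [DecidableEq V]

theorem sum_W_pos (adj : V → V → Prop) [DecidableRel adj] (β : ℝ) :
    0 < ∑ s : V → Fin 2, W adj β s := by
  classical
  have h := sum_W_ge (ι := Unit) adj β (fun _ s => if s = (fun _ => 0) then 1 else 0) (by
    intro i j
    simp)
  have hpos : 0 < ∑ i : Unit, Real.exp (-(β * Q adj
      ((fun _ s => if s = (fun _ => 0) then 1 else 0 : Unit → (V → Fin 2) → ℝ) i))) :=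
    Finset.sum_pos (fun i _ => Real.exp_pos _) Finset.univ_nonempty
  exact lt_of_lt_of_le hpos h

theorem partG_pos (adj : V → V → Prop) [DecidableRel adj] (hirr : ∀ x, ¬ adj x x) (β h : ℝ)
    (hβ : 0 ≤ β) : 0 < partG adj β h := by
  rw [partG_sum adj hirr]
  have hnn : ∀ s ∈ (Finset.univ : Finset (V → Fin 2)),
      0 ≤ W adj β s * Real.exp (β * (nadj adj / 8) + β * h * magv s) :=
    fun s _ => mul_nonneg (W_nonneg adj β hβ s) (Real.exp_pos _).le
  have hex : ∃ s : V → Fin 2, 0 < W adj β s := by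
    by_contra hcon
    have : ∑ s : V → Fin 2, W adj β s ≤ 0 :=
      Finset.sum_nonpos fun s _ => not_lt.1 (fun h => hcon ⟨s, h⟩)
    exact absurd (sum_W_pos adj β) (not_lt.2 this)
  obtain ⟨s0, hs0⟩ := hex
  exact lt_of_lt_of_le (mul_pos hs0 (Real.exp_pos _)) (Finset.single_le_sum hnn (Finset.mem_univ s0))

theorem sum_exp_magv (c : ℝ) :
    ∑ s : V → Fin 2, Real.exp (c * magv s) =
      (Real.exp (c / 2) + Real.exp (-(c / 2))) ^ (Fintype.card V) := by
  have h1 : ∀ s : V → Fin 2, Real.exp (c * magv s) =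
      ∏ x : V, Real.exp (c * (1 / 2 - (((s x : Fin 2) : ℕ) : ℝ))) := by
    intro s
    rw [← Real.exp_sum, magv, Finset.mul_sum]
  simp only [h1]
  rw [← Fintype.prod_sum (fun (_ : V) (k : Fin 2) => Real.exp (c * (1 / 2 - ((k : ℕ) : ℝ))))]
  rw [Finset.prod_const, Finset.card_univ]
  congr 1
  rw [Fin.sum_univ_two]
  simp only [Fin.val_zero, Fin.val_one, Nat.cast_zero, Nat.cast_one]
  congr 2 <;> ring

/-- Upper bound on the partition function. -/
theorem partG_upper (adj : V → V → Prop) [DecidableRel adj] (hirr : ∀ x, ¬ adj x x) (β h : ℝ)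
    (hβ : 0 ≤ β) :
    partG adj β h ≤ Real.exp (β * (nadj adj / 8)) *
      (Real.exp (β * h / 2) + Real.exp (-(β * h / 2))) ^ (Fintype.card V) := by
  rw [partG_sum adj hirr, ← sum_exp_magv (β * h), Finset.mul_sum]
  refine Finset.sum_le_sum fun s _ => ?_
  rw [Real.exp_add]
  have h1 := W_le_one adj β hβ s
  have h2 : 0 ≤ Real.exp (β * (nadj adj / 8)) * Real.exp (β * h * magv s) :=
    mul_nonneg (Real.exp_pos _).le (Real.exp_pos _).le
  calc W adj β s * (Real.exp (β * (nadj adj / 8)) * Real.exp (β * h * magv s))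
      ≤ 1 * (Real.exp (β * (nadj adj / 8)) * Real.exp (β * h * magv s)) :=
        mul_le_mul_of_nonneg_right h1 h2
    _ = _ := by rw [one_mul]

theorem partG_zero (adj : V → V → Prop) [DecidableRel adj] (hirr : ∀ x, ¬ adj x x) (β : ℝ) :
    partG adj β 0 = Real.exp (β * (nadj adj / 8)) * ∑ s : V → Fin 2, W adj β s := by
  rw [partG_sum adj hirr, Finset.mul_sum]
  refine Finset.sum_congr rfl fun s _ => ?_
  simp only [mul_zero, zero_mul, add_zero]
  ring

/-- Lower bound on the zero-field partition function from separated one-magnon trial functions. -/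
theorem partG_lower {I : Type} [Fintype I] [DecidableEq I] (adj : V → V → Prop) [DecidableRel adj]
    (hirr : ∀ x, ¬ adj x x) (φ : I → V → ℝ) (hsep : Separated adj φ)
    (hnorm : ∀ i, ∑ v : V, (φ i v) ^ 2 = 1) (β ε : ℝ) (hβ : 0 ≤ β)
    (hε : ∀ i, cellEnergy adj φ i ≤ ε) :
    Real.exp (β * (nadj adj / 8)) * (1 + Real.exp (-(β * ε))) ^ (Fintype.card I) ≤
      partG adj β 0 := by
  rw [partG_zero adj hirr]
  refine mul_le_mul_of_nonneg_left ?_ (Real.exp_pos _).le
  have horth : ∀ T T' : Finset I, ∑ s : V → Fin 2, psi φ T s * psi φ T' s =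
      if T = T' then 1 else 0 := by
    intro T T'
    by_cases hTT : T = T'
    · subst hTT
      rw [if_pos rfl, ← psi_norm adj φ hsep hnorm T]
      exact Finset.sum_congr rfl fun s _ => by ring
    · rw [if_neg hTT]
      exact Finset.sum_eq_zero fun s _ => psi_orth adj φ hsep T T' hTT s
  have h1 := sum_W_ge adj β (fun T : Finset I => psi φ T) horth
  refine le_trans ?_ h1
  have h2 : (1 + Real.exp (-(β * ε))) ^ (Fintype.card I) =
      ∑ T : Finset I, ∏ _i ∈ T, Real.exp (-(β * ε)) := by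
    rw [← Finset.card_univ, ← Finset.prod_const, Finset.prod_one_add, Finset.powerset_univ]
  rw [h2]
  refine Finset.sum_le_sum fun T _ => ?_
  rw [← Real.exp_sum]
  apply Real.exp_le_exp.2
  have h3 := Q_psi_le adj hirr φ hsep hnorm T
  have h4 : ∑ i ∈ T, cellEnergy adj φ i ≤ ∑ _i ∈ T, ε := Finset.sum_le_sum fun i _ => hε i
  have h5 : β * Q adj (psi φ T) ≤ β * ∑ _i ∈ T, ε := mul_le_mul_of_nonneg_left (h3.trans h4) hβ
  rw [Finset.sum_neg_distrib, neg_le_neg_iff]
  calc β * Q adj (psi φ T) ≤ β * ∑ _i ∈ T, ε := h5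
    _ = ∑ _i ∈ T, β * ε := by rw [Finset.mul_sum]

end Vale.Agent.Lib.P361
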