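import Vale.Agent.Lib.P361.Convex

namespace Vale.Agent.Lib.P361

open Matrix

/-- Nearest-neighbour relation on the cube `Λ_N`, as used in the Hamiltonian. -/
def adjB (N : ℕ) (x y : box N) : Prop :=
  |x.1.1 - y.1.1| + |x.1.2.1 - y.1.2.1| + |x.1.2.2 - y.1.2.2| = 1

instance adjB_decidable (N : ℕ) : DecidableRel (adjB N) := fun x y =>
  inferInstanceAs (Decidable (|x.1.1 - y.1.1| + |x.1.2.1 - y.1.2.1| + |x.1.2.2 - y.1.2.2| = 1))

theorem hamiltonian_eq (N : ℕ) : hamiltonian N = hamG (adjB N) := rfl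

theorem magnetization_eq (N : ℕ) : magnetization N = magG := rfl

theorem partitionFn_eq (N : ℕ) (β h : ℝ) : partitionFn N β h = partG (adjB N) β h := rfl

theorem adjB_irrefl (N : ℕ) (x : box N) : ¬ adjB N x x := by
  unfold adjB
  simp

theorem adjB_symm (N : ℕ) (x y : box N) : adjB N x y ↔ adjB N y x := by
  unfold adjB
  rw [abs_sub_comm x.1.1, abs_sub_comm x.1.2.1, abs_sub_comm x.1.2.2]

/-- The six lattice neighbours of a point. -/
def nbrs (x : ℤ × ℤ × ℤ) : Finset (ℤ × ℤ × ℤ) :=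
  {(x.1 + 1, x.2.1, x.2.2), (x.1 - 1, x.2.1, x.2.2), (x.1, x.2.1 + 1, x.2.2),
   (x.1, x.2.1 - 1, x.2.2), (x.1, x.2.1, x.2.2 + 1), (x.1, x.2.1, x.2.2 - 1)}

theorem adj_cases (a b c : ℤ) (h : |a| + |b| + |c| = 1) :
    (a = 1 ∨ a = -1) ∧ b = 0 ∧ c = 0 ∨ a = 0 ∧ (b = 1 ∨ b = -1) ∧ c = 0 ∨
      a = 0 ∧ b = 0 ∧ (c = 1 ∨ c = -1) := by
  rcases abs_cases a with ⟨h1, h1'⟩ | ⟨h1, h1'⟩ <;> rcases abs_cases b with ⟨h2, h2'⟩ | ⟨h2, h2'⟩ <;>
    rcases abs_cases c with ⟨h3, h3'⟩ | ⟨h3, h3'⟩ <;> omega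

theorem mem_nbrs_of_adj (N : ℕ) (x y : box N) (h : adjB N x y) : y.1 ∈ nbrs x.1 := by
  unfold adjB at h
  have hc := adj_cases _ _ _ h
  have e : y.1 = (y.1.1, y.1.2.1, y.1.2.2) := rfl
  rw [e]
  simp only [nbrs, Finset.mem_insert, Finset.mem_singleton, Prod.mk.injEq]
  rcases hc with ⟨h1 | h1, h2, h3⟩ | ⟨h1, h2 | h2, h3⟩ | ⟨h1, h2, h3 | h3⟩
  · exact Or.inr (Or.inl ⟨by omega, by omega, by omega⟩)
  · exact Or.inl ⟨by omega, by omega, by omega⟩
  · exact Or.inr (Or.inr (Or.inr (Or.inl ⟨by omega, by omega, by omega⟩)))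
  · exact Or.inr (Or.inr (Or.inl ⟨by omega, by omega, by omega⟩))
  · exact Or.inr (Or.inr (Or.inr (Or.inr (Or.inr ⟨by omega, by omega, by omega⟩))))
  · exact Or.inr (Or.inr (Or.inr (Or.inr (Or.inl ⟨by omega, by omega, by omega⟩))))

theorem degree_le (N : ℕ) (x : box N) :
    ∑ y : box N, (if adjB N x y then (1 : ℝ) else 0) ≤ 6 := by
  rw [Finset.sum_boole]
  have h1 : (Finset.univ.filter (fun y : box N => adjB N x y)).card ≤ (nbrs x.1).card := by
    apply Finset.card_le_card_of_injOn (fun y : box N => y.1)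
    · intro y hy
      have hy' : adjB N x y := (Finset.mem_filter.1 hy).2
      exact mem_nbrs_of_adj N x y hy'
    · intro a _ b _ hab
      exact Subtype.ext hab
  have h2 : (nbrs x.1).card ≤ 6 := Finset.card_le_six
  exact_mod_cast h1.trans h2

theorem degree_le' (N : ℕ) (y : box N) :
    ∑ x : box N, (if adjB N x y then (1 : ℝ) else 0) ≤ 6 := by
  have := degree_le N y
  simp only [adjB_symm N y] at this
  exact this

theorem card_box (N : ℕ) : Fintype.card (box N) = (2 * N + 1) ^ 3 := by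
  rw [Fintype.card_coe]
  unfold box
  rw [Finset.card_product, Finset.card_product, Int.card_Icc]
  have : ((N : ℤ) + 1 - (-(N : ℤ))).toNat = 2 * N + 1 := by omega
  rw [this]
  ring

theorem nadj_le (N : ℕ) : nadj (adjB N) ≤ 6 * (Fintype.card (box N) : ℝ) := by
  unfold nadj
  calc ∑ x : box N, ∑ y : box N, (if adjB N x y then (1 : ℝ) else 0)
      ≤ ∑ _x : box N, (6 : ℝ) := Finset.sum_le_sum fun x _ => degree_le N x
    _ = 6 * (Fintype.card (box N) : ℝ) := by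
      rw [Finset.sum_const, Finset.card_univ, nsmul_eq_mul]
      ring

end Vale.Agent.Lib.P361
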