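import Vale.Agent.Lib.P361.Box

namespace Vale.Agent.Lib.P361

/-- One-dimensional tent profile on `[0, L]`, zero outside. -/
def tau (L t : ℤ) : ℤ := max 0 (min t (L - t))

theorem tau_nonneg (L t : ℤ) : 0 ≤ tau L t := le_max_left _ _

theorem tau_pos_iff (L t : ℤ) (h : tau L t ≠ 0) : 0 < t ∧ t < L := by
  unfold tau at h
  simp only [max_def, min_def] at h
  split_ifs at h <;> omega

theorem tau_ge (q t : ℤ) (h1 : q ≤ t) (h2 : t ≤ 3 * q) : q ≤ tau (4 * q) t := by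
  unfold tau
  simp only [max_def, min_def]
  split_ifs <;> omega

theorem tau_lip (L t t' : ℤ) (h : |t - t'| ≤ 1) : |tau L t - tau L t'| ≤ 1 := by
  unfold tau
  rw [abs_le] at h ⊢
  simp only [max_def, min_def]
  split_ifs <;> omega

theorem min_lip (a b a' b' : ℤ) (h1 : |a - a'| ≤ 1) (h2 : |b - b'| ≤ 1) :
    |min a b - min a' b'| ≤ 1 := by
  rw [abs_le] at h1 h2 ⊢
  simp only [min_def]
  split_ifs <;> omega

/-- The pyramid function of the cube with lower corner `c` and side `L`. -/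
def phi0 (L : ℤ) (c x : ℤ × ℤ × ℤ) : ℤ :=
  min (tau L (x.1 - c.1)) (min (tau L (x.2.1 - c.2.1)) (tau L (x.2.2 - c.2.2)))

theorem phi0_nonneg (L : ℤ) (c x : ℤ × ℤ × ℤ) : 0 ≤ phi0 L c x :=
  le_min (tau_nonneg _ _) (le_min (tau_nonneg _ _) (tau_nonneg _ _))

theorem phi0_supp (L : ℤ) (c x : ℤ × ℤ × ℤ) (h : phi0 L c x ≠ 0) :
    (c.1 < x.1 ∧ x.1 < c.1 + L) ∧ (c.2.1 < x.2.1 ∧ x.2.1 < c.2.1 + L) ∧
      (c.2.2 < x.2.2 ∧ x.2.2 < c.2.2 + L) := by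
  have h0 := phi0_nonneg L c x
  have hpos : 0 < phi0 L c x := lt_of_le_of_ne h0 (Ne.symm h)
  unfold phi0 at hpos
  have h1 : 0 < tau L (x.1 - c.1) := lt_of_lt_of_le hpos (min_le_left _ _)
  have h2 : 0 < tau L (x.2.1 - c.2.1) :=
    lt_of_lt_of_le hpos ((min_le_right _ _).trans (min_le_left _ _))
  have h3 : 0 < tau L (x.2.2 - c.2.2) :=
    lt_of_lt_of_le hpos ((min_le_right _ _).trans (min_le_right _ _))
  have t1 := tau_pos_iff L _ h1.ne'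
  have t2 := tau_pos_iff L _ h2.ne'
  have t3 := tau_pos_iff L _ h3.ne'
  omega

theorem phi0_ge (q : ℤ) (c x : ℤ × ℤ × ℤ)
    (h1 : c.1 + q ≤ x.1 ∧ x.1 ≤ c.1 + 3 * q) (h2 : c.2.1 + q ≤ x.2.1 ∧ x.2.1 ≤ c.2.1 + 3 * q)
    (h3 : c.2.2 + q ≤ x.2.2 ∧ x.2.2 ≤ c.2.2 + 3 * q) : q ≤ phi0 (4 * q) c x := by
  unfold phi0
  exact le_min (tau_ge q _ (by omega) (by omega))
    (le_min (tau_ge q _ (by omega) (by omega)) (tau_ge q _ (by omega) (by omega)))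

theorem phi0_lip (L : ℤ) (c x y : ℤ × ℤ × ℤ)
    (h : |x.1 - y.1| + |x.2.1 - y.2.1| + |x.2.2 - y.2.2| = 1) :
    |phi0 L c x - phi0 L c y| ≤ 1 := by
  have hc := adj_cases _ _ _ h
  unfold phi0
  refine min_lip _ _ _ _ (tau_lip _ _ _ ?_) (min_lip _ _ _ _ (tau_lip _ _ _ ?_) (tau_lip _ _ _ ?_))
  · rw [abs_le]; omega
  · rw [abs_le]; omega
  · rw [abs_le]; omega

theorem sq_le_indicators (a b : ℤ) (h : |a - b| ≤ 1) :
    ((a : ℝ) - (b : ℝ)) ^ 2 ≤ (if (a : ℝ) ≠ 0 then (1 : ℝ) else 0) + (if (b : ℝ) ≠ 0 then 1 else 0) := by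
  rw [abs_le] at h
  by_cases ha : a = 0
  · by_cases hb : b = 0
    · subst ha; subst hb; simp
    · have hb' : (b : ℝ) ≠ 0 := by exact_mod_cast hb
      subst ha
      rw [if_pos hb']
      have : b = 1 ∨ b = -1 := by omega
      rcases this with rfl | rfl <;> simp
  · have ha' : (a : ℝ) ≠ 0 := by exact_mod_cast ha
    rw [if_pos ha']
    have h1 : a - b = 0 ∨ a - b = 1 ∨ a - b = -1 := by omega
    have h2 : (0 : ℝ) ≤ if (b : ℝ) ≠ 0 then (1 : ℝ) else 0 := by split_ifs <;> norm_num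
    have h3 : ((a : ℝ) - (b : ℝ)) ^ 2 ≤ 1 := by
      have : ((a : ℝ) - (b : ℝ)) = ((a - b : ℤ) : ℝ) := by push_cast; ring
      rw [this]
      rcases h1 with h | h | h <;> rw [h] <;> norm_num
    linarith

end Vale.Agent.Lib.P361
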