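import Vale.Agent.Lib.P361.Cells

namespace Vale.Agent.Lib.P361

/-- The lower corner of the cell with index `k`. -/
def cornerOf (N q : ℕ) {K : ℕ} (k : Fin K × Fin K × Fin K) : ℤ × ℤ × ℤ :=
  (-(N : ℤ) + ((k.1 : ℕ) : ℤ) * (4 * (q : ℤ)), -(N : ℤ) + ((k.2.1 : ℕ) : ℤ) * (4 * (q : ℤ)),
   -(N : ℤ) + ((k.2.2 : ℕ) : ℤ) * (4 * (q : ℤ)))

/-- The (unnormalised) pyramid function of cell `k`, restricted to the cube. -/
noncomputable def pcell (N q : ℕ) {K : ℕ} (k : Fin K × Fin K × Fin K) (x : box N) : ℝ :=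
  ((phi0 (4 * (q : ℤ)) (cornerOf N q k) x.1 : ℤ) : ℝ)

noncomputable def nrm (N q : ℕ) {K : ℕ} (k : Fin K × Fin K × Fin K) : ℝ :=
  ∑ x : box N, (pcell N q k x) ^ 2

/-- The normalised one-magnon wave function of cell `k`. -/
noncomputable def phiCell (N q : ℕ) {K : ℕ} (k : Fin K × Fin K × Fin K) (x : box N) : ℝ :=
  pcell N q k x / Real.sqrt (nrm N q k)

theorem mul_step (a b q : ℕ) (h : a < b) :
    (a : ℤ) * (4 * (q : ℤ)) + 4 * (q : ℤ) ≤ (b : ℤ) * (4 * (q : ℤ)) := by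
  have h1 : (a + 1) * (4 * q) ≤ b * (4 * q) := Nat.mul_le_mul_right (4 * q) h
  have h2 : (((a + 1) * (4 * q) : ℕ) : ℤ) ≤ ((b * (4 * q) : ℕ) : ℤ) := by exact_mod_cast h1
  push_cast at h2
  linarith

theorem corner_bounds (N q K : ℕ) (hK : K * (4 * q) ≤ 2 * N) (a : Fin K) :
    0 ≤ ((a : ℕ) : ℤ) * (4 * (q : ℤ)) ∧ ((a : ℕ) : ℤ) * (4 * (q : ℤ)) + 4 * (q : ℤ) ≤ 2 * (N : ℤ) := by
  refine ⟨by positivity, ?_⟩
  have h1 := mul_step (a : ℕ) K q a.isLt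
  have h2 : ((K * (4 * q) : ℕ) : ℤ) ≤ ((2 * N : ℕ) : ℤ) := by exact_mod_cast hK
  push_cast at h2
  linarith

theorem nrm_ge (N q K : ℕ) (hK : K * (4 * q) ≤ 2 * N) (k : Fin K × Fin K × Fin K) :
    8 * (q : ℝ) ^ 5 ≤ nrm N q k := by
  set c := cornerOf N q k with hc
  set Qk : Finset (ℤ × ℤ × ℤ) :=
    Finset.Icc (c.1 + q) (c.1 + 3 * q) ×ˢ Finset.Icc (c.2.1 + q) (c.2.1 + 3 * q) ×ˢ
      Finset.Icc (c.2.2 + q) (c.2.2 + 3 * q) with hQ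
  obtain ⟨b1, b1'⟩ := corner_bounds N q K hK k.1
  obtain ⟨b2, b2'⟩ := corner_bounds N q K hK k.2.1
  obtain ⟨b3, b3'⟩ := corner_bounds N q K hK k.2.2
  have hc1 : c.1 = -(N : ℤ) + ((k.1 : ℕ) : ℤ) * (4 * (q : ℤ)) := rfl
  have hc2 : c.2.1 = -(N : ℤ) + ((k.2.1 : ℕ) : ℤ) * (4 * (q : ℤ)) := rfl
  have hc3 : c.2.2 = -(N : ℤ) + ((k.2.2 : ℕ) : ℤ) * (4 * (q : ℤ)) := rfl
  have hq0 : (0 : ℤ) ≤ q := Int.natCast_nonneg q
  have hsub : Qk ⊆ box N := by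
    intro x hx
    simp only [hQ, Finset.mem_product, Finset.mem_Icc] at hx
    simp only [box, Finset.mem_product, Finset.mem_Icc]
    omega
  have hcard : Qk.card = (2 * q + 1) ^ 3 := by
    simp only [hQ, Finset.card_product, Int.card_Icc]
    have e1 : (c.1 + 3 * (q : ℤ) + 1 - (c.1 + q)).toNat = 2 * q + 1 := by omega
    have e2 : (c.2.1 + 3 * (q : ℤ) + 1 - (c.2.1 + q)).toNat = 2 * q + 1 := by omega
    have e3 : (c.2.2 + 3 * (q : ℤ) + 1 - (c.2.2 + q)).toNat = 2 * q + 1 := by omega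
    rw [e1, e2, e3]
    ring
  have h1 : nrm N q k = ∑ x ∈ box N, ((phi0 (4 * (q : ℤ)) c x : ℤ) : ℝ) ^ 2 := by
    unfold nrm pcell
    exact Finset.sum_coe_sort (box N) (fun x => ((phi0 (4 * (q : ℤ)) c x : ℤ) : ℝ) ^ 2)
  have h2 : ∑ x ∈ Qk, ((phi0 (4 * (q : ℤ)) c x : ℤ) : ℝ) ^ 2 ≤
      ∑ x ∈ box N, ((phi0 (4 * (q : ℤ)) c x : ℤ) : ℝ) ^ 2 :=
    Finset.sum_le_sum_of_subset_of_nonneg hsub fun x _ _ => sq_nonneg _
  have h3 : ∑ _x ∈ Qk, ((q : ℝ)) ^ 2 ≤ ∑ x ∈ Qk, ((phi0 (4 * (q : ℤ)) c x : ℤ) : ℝ) ^ 2 := by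
    refine Finset.sum_le_sum fun x hx => ?_
    simp only [hQ, Finset.mem_product, Finset.mem_Icc] at hx
    have hge : (q : ℤ) ≤ phi0 (4 * (q : ℤ)) c x := phi0_ge (q : ℤ) c x hx.1 hx.2.1 hx.2.2
    have hge' : (q : ℝ) ≤ ((phi0 (4 * (q : ℤ)) c x : ℤ) : ℝ) := by exact_mod_cast hge
    have hq' : (0 : ℝ) ≤ q := Nat.cast_nonneg q
    exact pow_le_pow_left₀ hq' hge' 2
  rw [Finset.sum_const, hcard, nsmul_eq_mul] at h3
  rw [h1]
  refine le_trans ?_ (h3.trans h2)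
  push_cast
  have hq' : (0 : ℝ) ≤ q := Nat.cast_nonneg q
  have e : (2 * (q : ℝ) + 1) ^ 3 * (q : ℝ) ^ 2 - 8 * (q : ℝ) ^ 5 =
      (12 * (q : ℝ) ^ 2 + 6 * q + 1) * (q : ℝ) ^ 2 := by ring
  have : 0 ≤ (12 * (q : ℝ) ^ 2 + 6 * q + 1) * (q : ℝ) ^ 2 := by positivity
  linarith

theorem nrm_pos (N q K : ℕ) (hq : 1 ≤ q) (hK : K * (4 * q) ≤ 2 * N) (k : Fin K × Fin K × Fin K) :
    0 < nrm N q k := by
  have h := nrm_ge N q K hK k
  have hq' : (1 : ℝ) ≤ q := by exact_mod_cast hq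
  have : (0 : ℝ) < 8 * (q : ℝ) ^ 5 := by positivity
  linarith

theorem phiCell_norm (N q K : ℕ) (hq : 1 ≤ q) (hK : K * (4 * q) ≤ 2 * N)
    (k : Fin K × Fin K × Fin K) : ∑ x : box N, (phiCell N q k x) ^ 2 = 1 := by
  have hpos := nrm_pos N q K hq hK k
  unfold phiCell
  simp only [div_pow, Real.sq_sqrt hpos.le]
  rw [← Finset.sum_div]
  exact div_self hpos.ne'

theorem phiCell_supp (N q K : ℕ) (k : Fin K × Fin K × Fin K) (x : box N)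
    (h : phiCell N q k x ≠ 0) : phi0 (4 * (q : ℤ)) (cornerOf N q k) x.1 ≠ 0 := by
  intro h0
  apply h
  unfold phiCell pcell
  rw [h0]
  simp

theorem phiCell_sep (N q K : ℕ) : Separated (adjB N) (phiCell N q (K := K)) := by
  intro k k' hkk x y hx hy
  have sx := phi0_supp _ _ _ (phiCell_supp N q K k x hx)
  have sy := phi0_supp _ _ _ (phiCell_supp N q K k' y hy)
  have hc1 : (cornerOf N q k).1 = -(N : ℤ) + ((k.1 : ℕ) : ℤ) * (4 * (q : ℤ)) := rfl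
  have hc2 : (cornerOf N q k).2.1 = -(N : ℤ) + ((k.2.1 : ℕ) : ℤ) * (4 * (q : ℤ)) := rfl
  have hc3 : (cornerOf N q k).2.2 = -(N : ℤ) + ((k.2.2 : ℕ) : ℤ) * (4 * (q : ℤ)) := rfl
  have hc1' : (cornerOf N q k').1 = -(N : ℤ) + ((k'.1 : ℕ) : ℤ) * (4 * (q : ℤ)) := rfl
  have hc2' : (cornerOf N q k').2.1 = -(N : ℤ) + ((k'.2.1 : ℕ) : ℤ) * (4 * (q : ℤ)) := rfl
  have hc3' : (cornerOf N q k').2.2 = -(N : ℤ) + ((k'.2.2 : ℕ) : ℤ) * (4 * (q : ℤ)) := rfl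
  have key : (2 ≤ |x.1.1 - y.1.1|) ∨ (2 ≤ |x.1.2.1 - y.1.2.1|) ∨ (2 ≤ |x.1.2.2 - y.1.2.2|) := by
    have hne : (k.1 : ℕ) ≠ (k'.1 : ℕ) ∨ (k.2.1 : ℕ) ≠ (k'.2.1 : ℕ) ∨ (k.2.2 : ℕ) ≠ (k'.2.2 : ℕ) := by
      by_contra hcon
      simp only [not_or, not_not] at hcon
      apply hkk
      exact Prod.ext (Fin.ext hcon.1) (Prod.ext (Fin.ext hcon.2.1) (Fin.ext hcon.2.2))
    rcases hne with h | h | h
    · left
      rcases Nat.lt_or_gt_of_ne h with h' | h'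
      · have := mul_step _ _ q h'
        rw [le_abs]; right; omega
      · have := mul_step _ _ q h'
        rw [le_abs]; left; omega
    · right; left
      rcases Nat.lt_or_gt_of_ne h with h' | h'
      · have := mul_step _ _ q h'
        rw [le_abs]; right; omega
      · have := mul_step _ _ q h'
        rw [le_abs]; left; omega
    · right; right
      rcases Nat.lt_or_gt_of_ne h with h' | h'
      · have := mul_step _ _ q h'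
        rw [le_abs]; right; omega
      · have := mul_step _ _ q h'
        rw [le_abs]; left; omega
  have a1 := abs_nonneg (x.1.1 - y.1.1)
  have a2 := abs_nonneg (x.1.2.1 - y.1.2.1)
  have a3 := abs_nonneg (x.1.2.2 - y.1.2.2)
  refine ⟨?_, ?_⟩
  · rintro rfl
    simp only [sub_self, abs_zero] at key
    omega
  · unfold adjB
    omega

end Vale.Agent.Lib.P361
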