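import Vale.Agent.Lib.P361.Cells2

namespace Vale.Agent.Lib.P361

theorem supp_count (N q K : ℕ) (k : Fin K × Fin K × Fin K) :
    ∑ x : box N, (if pcell N q k x ≠ 0 then (1 : ℝ) else 0) ≤ 64 * (q : ℝ) ^ 3 := by
  rw [Finset.sum_boole]
  set c := cornerOf N q k with hc
  set R : Finset (ℤ × ℤ × ℤ) :=
    Finset.Ioo c.1 (c.1 + 4 * (q : ℤ)) ×ˢ Finset.Ioo c.2.1 (c.2.1 + 4 * (q : ℤ)) ×ˢ
      Finset.Ioo c.2.2 (c.2.2 + 4 * (q : ℤ)) with hR
  have h1 : (Finset.univ.filter (fun x : box N => pcell N q k x ≠ 0)).card ≤ R.card := by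
    apply Finset.card_le_card_of_injOn (fun x : box N => x.1)
    · intro x hx
      have hx' : pcell N q k x ≠ 0 := (Finset.mem_filter.1 hx).2
      have hx'' : phi0 (4 * (q : ℤ)) c x.1 ≠ 0 := by
        intro h0
        apply hx'
        unfold pcell
        rw [← hc, h0]
        simp
      have s := phi0_supp _ _ _ hx''
      have e : x.1 = (x.1.1, x.1.2.1, x.1.2.2) := rfl
      show x.1 ∈ R
      rw [e]
      simp only [hR, Finset.mem_product, Finset.mem_Ioo]
      exact s
    · intro a _ b _ hab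
      exact Subtype.ext hab
  have h2 : R.card ≤ (4 * q) ^ 3 := by
    simp only [hR, Finset.card_product, Int.card_Ioo]
    have e1 : (c.1 + 4 * (q : ℤ) - c.1 - 1).toNat ≤ 4 * q := by omega
    have e2 : (c.2.1 + 4 * (q : ℤ) - c.2.1 - 1).toNat ≤ 4 * q := by omega
    have e3 : (c.2.2 + 4 * (q : ℤ) - c.2.2 - 1).toNat ≤ 4 * q := by omega
    calc _ ≤ (4 * q) * ((4 * q) * (4 * q)) := Nat.mul_le_mul e1 (Nat.mul_le_mul e2 e3)
      _ = (4 * q) ^ 3 := by ring
  have h3 : ((Finset.univ.filter (fun x : box N => pcell N q k x ≠ 0)).card : ℝ) ≤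
      (((4 * q) ^ 3 : ℕ) : ℝ) := by exact_mod_cast h1.trans h2
  refine h3.trans (le_of_eq ?_)
  push_cast
  ring

theorem phiCell_energy (N q K : ℕ) (hq : 1 ≤ q) (hK : K * (4 * q) ≤ 2 * N)
    (k : Fin K × Fin K × Fin K) :
    cellEnergy (adjB N) (phiCell N q) k ≤ 24 / (q : ℝ) ^ 2 := by
  have hpos := nrm_pos N q K hq hK k
  have hge := nrm_ge N q K hK k
  have hq' : (1 : ℝ) ≤ q := by exact_mod_cast hq
  unfold cellEnergy
  set ind : box N → ℝ := fun x => if pcell N q k x ≠ 0 then (1 : ℝ) else 0 with hind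
  have hind0 : ∀ x, 0 ≤ ind x := by
    intro x
    simp only [hind]
    split_ifs <;> norm_num
  have step1 : ∀ x y : box N, (if adjB N x y then (phiCell N q k x - phiCell N q k y) ^ 2 else 0) ≤
      (1 / nrm N q k) * (ind x * (if adjB N x y then (1 : ℝ) else 0) +
        ind y * (if adjB N x y then (1 : ℝ) else 0)) := by
    intro x y
    by_cases hxy : adjB N x y
    · simp only [if_pos hxy, mul_one]
      have hl := phi0_lip (4 * (q : ℤ)) (cornerOf N q k) x.1 y.1 hxy
      have hs := sq_le_indicators _ _ hl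
      have e : (phiCell N q k x - phiCell N q k y) ^ 2 =
          (1 / nrm N q k) * (pcell N q k x - pcell N q k y) ^ 2 := by
        unfold phiCell
        rw [← sub_div, div_pow, Real.sq_sqrt hpos.le]
        ring
      rw [e]
      exact mul_le_mul_of_nonneg_left hs (by positivity)
    · simp only [if_neg hxy, mul_zero, add_zero]
      exact le_refl _
  have step2 : ∑ x : box N, ∑ y : box N, (ind x * (if adjB N x y then (1 : ℝ) else 0) +
      ind y * (if adjB N x y then (1 : ℝ) else 0)) ≤ 12 * ∑ x : box N, ind x := by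
    have h1 : ∑ x : box N, ∑ y : box N, ind x * (if adjB N x y then (1 : ℝ) else 0) ≤
        6 * ∑ x : box N, ind x := by
      rw [Finset.mul_sum]
      refine Finset.sum_le_sum fun x _ => ?_
      rw [← Finset.mul_sum]
      have := mul_le_mul_of_nonneg_left (degree_le N x) (hind0 x)
      linarith
    have h2 : ∑ x : box N, ∑ y : box N, ind y * (if adjB N x y then (1 : ℝ) else 0) ≤
        6 * ∑ x : box N, ind x := by
      rw [Finset.sum_comm, Finset.mul_sum]
      refine Finset.sum_le_sum fun y _ => ?_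
      rw [← Finset.mul_sum]
      have := mul_le_mul_of_nonneg_left (degree_le' N y) (hind0 y)
      linarith
    simp only [Finset.sum_add_distrib]
    linarith
  have hS := supp_count N q K k
  have hsum : ∑ x : box N, ∑ y : box N,
      (if adjB N x y then (phiCell N q k x - phiCell N q k y) ^ 2 else 0) ≤
      (1 / nrm N q k) * (12 * (64 * (q : ℝ) ^ 3)) := by
    calc ∑ x : box N, ∑ y : box N,
          (if adjB N x y then (phiCell N q k x - phiCell N q k y) ^ 2 else 0)
        ≤ ∑ x : box N, ∑ y : box N, (1 / nrm N q k) *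
            (ind x * (if adjB N x y then (1 : ℝ) else 0) +
              ind y * (if adjB N x y then (1 : ℝ) else 0)) :=
          Finset.sum_le_sum fun x _ => Finset.sum_le_sum fun y _ => step1 x y
      _ = (1 / nrm N q k) * ∑ x : box N, ∑ y : box N,
            (ind x * (if adjB N x y then (1 : ℝ) else 0) +
              ind y * (if adjB N x y then (1 : ℝ) else 0)) := by
          rw [Finset.mul_sum]
          exact Finset.sum_congr rfl fun x _ => (Finset.mul_sum _ _ _).symm
      _ ≤ (1 / nrm N q k) * (12 * (64 * (q : ℝ) ^ 3)) := by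
          refine mul_le_mul_of_nonneg_left ?_ (by positivity)
          have : (12 : ℝ) * ∑ x : box N, ind x ≤ 12 * (64 * (q : ℝ) ^ 3) :=
            mul_le_mul_of_nonneg_left hS (by norm_num)
          exact step2.trans this
  have hq3 : (0 : ℝ) < (q : ℝ) ^ 3 := by positivity
  have hq2 : (0 : ℝ) < (q : ℝ) ^ 2 := by positivity
  have hfin : (1 / 4 : ℝ) * ((1 / nrm N q k) * (12 * (64 * (q : ℝ) ^ 3))) ≤ 24 / (q : ℝ) ^ 2 := by
    rw [le_div_iff₀ hq2]
    have e : (1 / 4 : ℝ) * ((1 / nrm N q k) * (12 * (64 * (q : ℝ) ^ 3))) * (q : ℝ) ^ 2 =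
        (192 * (q : ℝ) ^ 5) / nrm N q k := by
      field_simp
      ring
    rw [e, div_le_iff₀ hpos]
    linarith
  calc (1 / 4 : ℝ) * ∑ x : box N, ∑ y : box N,
        (if adjB N x y then (phiCell N q k x - phiCell N q k y) ^ 2 else 0)
      ≤ (1 / 4 : ℝ) * ((1 / nrm N q k) * (12 * (64 * (q : ℝ) ^ 3))) :=
        mul_le_mul_of_nonneg_left hsum (by norm_num)
    _ ≤ 24 / (q : ℝ) ^ 2 := hfin

end Vale.Agent.Lib.P361
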