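import Vale.Agent.Lib.P361.Bounds

namespace Vale.Agent.Lib.P361

open Matrix

variable {V : Type} [Fintype V] [DecidableEq V]

theorem partG_ratio (adj : V → V → Prop) [DecidableRel adj] (hirr : ∀ x, ¬ adj x x) (β h : ℝ) :
    partG adj β h / partG adj β 0 =
      ∑ s : V → Fin 2, (W adj β s / ∑ t : V → Fin 2, W adj β t) * Real.exp (β * h * magv s) := by
  have hS := sum_W_pos adj β
  rw [partG_zero adj hirr, partG_sum adj hirr]
  have h1 : ∀ s : V → Fin 2, W adj β s * Real.exp (β * (nadj adj / 8) + β * h * magv s) =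
      Real.exp (β * (nadj adj / 8)) * (W adj β s * Real.exp (β * h * magv s)) := by
    intro s
    rw [Real.exp_add]
    ring
  simp only [h1]
  rw [← Finset.mul_sum, mul_div_mul_left _ _ (Real.exp_pos _).ne', Finset.sum_div]
  refine Finset.sum_congr rfl fun s _ => ?_
  ring

/-- Convexity of `h ↦ log Z(h)` in the form of a chord inequality from `h = 0`. -/
theorem partG_convex (adj : V → V → Prop) [DecidableRel adj] (hirr : ∀ x, ¬ adj x x) (β h h₀ : ℝ)
    (hβ : 0 ≤ β) (hh : 0 < h) (hh₀ : h ≤ h₀) :
    Real.log (partG adj β h) - Real.log (partG adj β 0) ≤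
      (h / h₀) * (Real.log (partG adj β h₀) - Real.log (partG adj β 0)) := by
  have hS := sum_W_pos adj β
  have hh₀pos : 0 < h₀ := lt_of_lt_of_le hh hh₀
  have hp : 1 ≤ h₀ / h := by
    rw [le_div_iff₀ hh]
    linarith
  have hmean := Real.rpow_arith_mean_le_arith_mean_rpow (Finset.univ : Finset (V → Fin 2))
    (fun s => W adj β s / ∑ t : V → Fin 2, W adj β t) (fun s => Real.exp (β * h * magv s))
    (fun s _ => div_nonneg (W_nonneg adj β hβ s) hS.le)
    (by rw [← Finset.sum_div]; exact div_self hS.ne')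
    (fun s _ => (Real.exp_pos _).le) hp
  have hz : ∀ s : V → Fin 2, Real.exp (β * h * magv s) ^ (h₀ / h) = Real.exp (β * h₀ * magv s) := by
    intro s
    rw [← Real.exp_mul]
    congr 1
    field_simp
  simp only [hz] at hmean
  rw [← partG_ratio adj hirr, ← partG_ratio adj hirr] at hmean
  have hZ0 := partG_pos adj hirr β 0 hβ
  have hZh := partG_pos adj hirr β h hβ
  have hZh₀ := partG_pos adj hirr β h₀ hβ
  have hR : 0 < partG adj β h / partG adj β 0 := div_pos hZh hZ0
  have hlog := Real.log_le_log (Real.rpow_pos_of_pos hR _) hmean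
  rw [Real.log_rpow hR, Real.log_div hZh.ne' hZ0.ne', Real.log_div hZh₀.ne' hZ0.ne'] at hlog
  have hpos : 0 < h / h₀ := div_pos hh hh₀pos
  have := mul_le_mul_of_nonneg_left hlog hpos.le
  have e : h / h₀ * (h₀ / h * (Real.log (partG adj β h) - Real.log (partG adj β 0))) =
      Real.log (partG adj β h) - Real.log (partG adj β 0) := by
    field_simp
  rw [e] at this
  exact this

/-- The sum of the weights is at least one (Peierls with the all-up state). -/
theorem sum_W_ge_one (adj : V → V → Prop) [DecidableRel adj] (β : ℝ) :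
    1 ≤ ∑ s : V → Fin 2, W adj β s := by
  classical
  have h := sum_W_ge (ι := Unit) adj β (fun _ s => if s = (fun _ => 0) then 1 else 0) (by
    intro i j
    simp)
  have hQ : Q adj (fun s : V → Fin 2 => if s = (fun _ => 0) then (1 : ℝ) else 0) = 0 := by
    unfold Q
    have : ∀ x y : V, ∀ s : V → Fin 2, ((if s = (fun _ => 0) then (1 : ℝ) else 0) -
        (if s ∘ Equiv.swap x y = (fun _ => 0) then (1 : ℝ) else 0)) ^ 2 = 0 := by
      intro x y s
      have e : (s ∘ Equiv.swap x y = (fun _ => 0)) ↔ (s = (fun _ => 0)) := by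
        constructor
        · intro h
          funext z
          have := congrFun h (Equiv.swap x y z)
          simpa using this
        · intro h
          rw [h]
          rfl
      simp only [e]
      simp
    simp only [this]
    simp
  simp only [hQ, mul_zero, neg_zero, Real.exp_zero, Finset.sum_const, Finset.card_univ,
    Fintype.card_unit, one_smul] at h
  exact h

theorem magv_ge (s : V → Fin 2) : -((Fintype.card V : ℝ) / 2) ≤ magv s := by
  unfold magv
  have : ∀ x ∈ (Finset.univ : Finset V), -(1 / 2 : ℝ) ≤ 1 / 2 - (((s x : Fin 2) : ℕ) : ℝ) := by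
    intro x _
    have : (((s x : Fin 2) : ℕ) : ℝ) ≤ 1 := by
      have := (s x).isLt
      have h2 : ((s x : Fin 2) : ℕ) ≤ 1 := by omega
      exact_mod_cast h2
    linarith
  have h2 := Finset.sum_le_sum this
  simp only [Finset.sum_const, Finset.card_univ, nsmul_eq_mul] at h2
  linarith

theorem nadj_nonneg (adj : V → V → Prop) [DecidableRel adj] : 0 ≤ nadj adj := by
  unfold nadj
  refine Finset.sum_nonneg fun x _ => Finset.sum_nonneg fun y _ => ?_
  split_ifs <;> norm_num

/-- A crude lower bound, used for boundedness. -/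
theorem partG_ge (adj : V → V → Prop) [DecidableRel adj] (hirr : ∀ x, ¬ adj x x) (β h : ℝ)
    (hβ : 0 ≤ β) (hh : 0 ≤ h) :
    Real.exp (-(β * h * ((Fintype.card V : ℝ) / 2))) ≤ partG adj β h := by
  rw [partG_sum adj hirr]
  have h1 : ∀ s : V → Fin 2, W adj β s * Real.exp (-(β * h * ((Fintype.card V : ℝ) / 2))) ≤
      W adj β s * Real.exp (β * (nadj adj / 8) + β * h * magv s) := by
    intro s
    refine mul_le_mul_of_nonneg_left ?_ (W_nonneg adj β hβ s)
    apply Real.exp_le_exp.2
    have h2 := magv_ge s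
    have h3 : 0 ≤ β * (nadj adj / 8) := mul_nonneg hβ (div_nonneg (nadj_nonneg adj) (by norm_num))
    have h4 : β * h * (-((Fintype.card V : ℝ) / 2)) ≤ β * h * magv s :=
      mul_le_mul_of_nonneg_left h2 (mul_nonneg hβ hh)
    linarith
  refine le_trans ?_ (Finset.sum_le_sum fun s _ => h1 s)
  rw [← Finset.sum_mul]
  have h5 := sum_W_ge_one adj β
  have h6 : 0 < Real.exp (-(β * h * ((Fintype.card V : ℝ) / 2))) := Real.exp_pos _
  nlinarith

end Vale.Agent.Lib.P361
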