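import Mathlib

namespace Vale.Agent.Lib.P361

noncomputable section

/-- The spin-1/2 matrices `S^1, S^2, S^3` (half the Pauli matrices). -/
def spinX : Matrix (Fin 2) (Fin 2) ℂ := !![0, 1 / 2; 1 / 2, 0]

def spinY : Matrix (Fin 2) (Fin 2) ℂ := !![0, -(Complex.I / 2); Complex.I / 2, 0]

def spinZ : Matrix (Fin 2) (Fin 2) ℂ := !![1 / 2, 0; 0, -(1 / 2)]

/-- `siteOp x A`: the operator on the tensor product of copies of `ℂ²` indexed by `V` (with basis the
configurations `V → Fin 2`) which acts as `A` on the factor at site `x` and as the identity elsewhere. -/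
def siteOp {V : Type} [Fintype V] [DecidableEq V] (x : V) (A : Matrix (Fin 2) (Fin 2) ℂ) :
    Matrix (V → Fin 2) (V → Fin 2) ℂ :=
  Matrix.of fun s t => if ∀ z, z ≠ x → s z = t z then A (s x) (t x) else 0

/-- The Heisenberg interaction `S_x · S_y = ∑ₐ Sᵃ_x Sᵃ_y`. -/
def heisDot {V : Type} [Fintype V] [DecidableEq V] (x y : V) : Matrix (V → Fin 2) (V → Fin 2) ℂ :=
  siteOp x spinX * siteOp y spinX + siteOp x spinY * siteOp y spinY + siteOp x spinZ * siteOp y spinZ

/-- The cube `Λ_N = {-N, …, N}³`. -/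
def box (N : ℕ) : Finset (ℤ × ℤ × ℤ) :=
  Finset.Icc (-(N : ℤ)) N ×ˢ Finset.Icc (-(N : ℤ)) N ×ˢ Finset.Icc (-(N : ℤ)) N

/-- The spin-1/2 ferromagnetic Heisenberg Hamiltonian on `Λ_N` with free boundary conditions:
`H_N = -∑ S_x · S_y` over nearest-neighbour edges, each edge counted once (half the sum over
ordered pairs `(x, y)` with `|x - y|₁ = 1`). -/
def hamiltonian (N : ℕ) : Matrix (box N → Fin 2) (box N → Fin 2) ℂ :=
  -(1 / 2 : ℂ) • ∑ x : box N, ∑ y : box N,
    if |x.1.1 - y.1.1| + |x.1.2.1 - y.1.2.1| + |x.1.2.2 - y.1.2.2| = 1 then heisDot x y else 0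

/-- The total third spin component `M_N = ∑ S^3_x`. -/
def magnetization (N : ℕ) : Matrix (box N → Fin 2) (box N → Fin 2) ℂ :=
  ∑ x : box N, siteOp x spinZ

/-- The partition function `Tr exp(-β (H_N - h M_N))`. -/
def partitionFn (N : ℕ) (β h : ℝ) : ℝ :=
  (Matrix.trace (NormedSpace.exp (-(β : ℂ) • (hamiltonian N - (h : ℂ) • magnetization N)))).re

/-- The pressure `p_β(h)`: the limit (here: limit superior, which equals the limit when it exists)
of `log Tr exp(-β (H_N - h M_N)) / (β |Λ_N|)`. -/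
def pressure (β h : ℝ) : ℝ :=
  Filter.limsup (fun N : ℕ => Real.log (partitionFn N β h) / (β * ((box N).card : ℝ))) Filter.atTop

end

end Vale.Agent.Lib.P361
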