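import Vale.Agent.Lib.P361.Limit

namespace Vale.Agent.Lib.P361

theorem log_one_add_ge (x : ℝ) (hx : Real.exp (-1) ≤ x) : (1 / 4 : ℝ) ≤ Real.log (1 + x) := by
  have h3 : (1 / 3 : ℝ) ≤ Real.exp (-1) := by
    rw [Real.exp_neg, one_div]
    have := Real.exp_one_lt_three
    have hpos := Real.exp_pos 1
    rw [inv_le_inv₀ (by norm_num) hpos]
    exact this.le
  have h4 : (4 / 3 : ℝ) ≤ 1 + x := by linarith
  have h5 : Real.log (4 / 3) ≤ Real.log (1 + x) := Real.log_le_log (by norm_num) h4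
  have h6 := Real.one_sub_inv_le_log_of_pos (show (0 : ℝ) < 4 / 3 by norm_num)
  have h7 : (1 : ℝ) - (4 / 3)⁻¹ = 1 / 4 := by norm_num
  linarith

theorem Cc_bound (β : ℝ) (hβ : 3700 ≤ β) :
    ∃ (q : ℕ) (h₀ : ℝ), 1 ≤ q ∧ 0 < h₀ ∧
      Cc β q h₀ ≤ 1 / 2 - 1 / (663552 * (β * Real.sqrt β) * Real.log β) := by
  have hβpos : 0 < β := by linarith
  set r := Real.sqrt β with hr
  have hr2 : r * r = β := Real.mul_self_sqrt hβpos.le
  have hr60 : 60 ≤ r := by
    rw [hr]
    have : Real.sqrt (60 ^ 2) ≤ Real.sqrt β := Real.sqrt_le_sqrt (by norm_num; linarith)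
    rw [Real.sqrt_sq (by norm_num)] at this
    exact this
  set q := ⌈5 * r⌉₊ with hq
  have hq1 : 5 * r ≤ (q : ℝ) := Nat.le_ceil _
  have hq2 : (q : ℝ) < 5 * r + 1 := Nat.ceil_lt_add_one (by linarith)
  have hq3 : (q : ℝ) ≤ 6 * r := by linarith
  have hqpos : (0 : ℝ) < q := by linarith
  have hq1' : 1 ≤ q := by
    have : (0 : ℝ) < (q : ℝ) := hqpos
    have h0 : 0 < q := by exact_mod_cast this
    exact h0
  set D : ℝ := 16 * (4 * (q : ℝ)) ^ 3 with hD
  have hDpos : 0 < D := by positivity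
  have hD1 : 1 < D := by
    have : (300 : ℝ) ≤ q := by linarith
    have h4 : (1200 : ℝ) ≤ 4 * (q : ℝ) := by linarith
    have h5 : (1 : ℝ) ≤ (4 * (q : ℝ)) ^ 3 := one_le_pow₀ (by linarith)
    rw [hD]
    linarith
  set a := Real.log D with ha
  have hapos : 0 < a := Real.log_pos hD1
  refine ⟨q, a / β, hq1', div_pos hapos hβpos, ?_⟩
  unfold Cc
  have e1 : β * (a / β) = a := by field_simp
  rw [e1]
  -- the first logarithm
  have hA : Real.log (Real.exp (a / 2) + Real.exp (-(a / 2))) ≤ a / 2 + 1 / D := by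
    have e2 : Real.exp (a / 2) + Real.exp (-(a / 2)) = Real.exp (a / 2) * (1 + Real.exp (-a)) := by
      rw [mul_add, mul_one, ← Real.exp_add]
      congr 2
      ring
    rw [e2, Real.log_mul (Real.exp_pos _).ne' (by positivity), Real.log_exp]
    have e3 : Real.exp (-a) = 1 / D := by
      rw [Real.exp_neg, ha, Real.exp_log hDpos, one_div]
    have h1 := Real.log_le_sub_one_of_pos (show 0 < 1 + Real.exp (-a) by positivity)
    rw [e3] at h1 ⊢
    linarith
  -- the second logarithm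
  have hB : (1 / 4 : ℝ) ≤ Real.log (1 + Real.exp (-(β * (24 / (q : ℝ) ^ 2)))) := by
    apply log_one_add_ge
    apply Real.exp_le_exp.2
    have hq25 : 25 * β ≤ (q : ℝ) ^ 2 := by nlinarith
    have hq2pos : (0 : ℝ) < (q : ℝ) ^ 2 := by positivity
    have : β * (24 / (q : ℝ) ^ 2) ≤ 1 := by
      rw [mul_div_assoc', div_le_one hq2pos]
      linarith
    linarith
  have hL3 : (0 : ℝ) < (4 * (q : ℝ)) ^ 3 := by positivity
  have hcore : Real.log (Real.exp (a / 2) + Real.exp (-(a / 2))) -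
      1 / (2 * (4 * (q : ℝ)) ^ 3) * Real.log (1 + Real.exp (-(β * (24 / (q : ℝ) ^ 2)))) ≤
      a / 2 - 1 / D := by
    have h2 : 1 / (2 * (4 * (q : ℝ)) ^ 3) * (1 / 4) ≤
        1 / (2 * (4 * (q : ℝ)) ^ 3) * Real.log (1 + Real.exp (-(β * (24 / (q : ℝ) ^ 2)))) :=
      mul_le_mul_of_nonneg_left hB (by positivity)
    have e4 : 1 / (2 * (4 * (q : ℝ)) ^ 3) * (1 / 4) = 2 * (1 / D) := by
      rw [hD]
      field_simp
      ring
    rw [e4] at h2
    linarith
  have hmain : 1 / a * (Real.log (Real.exp (a / 2) + Real.exp (-(a / 2))) -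
      1 / (2 * (4 * (q : ℝ)) ^ 3) * Real.log (1 + Real.exp (-(β * (24 / (q : ℝ) ^ 2))))) ≤
      1 / 2 - 1 / (a * D) := by
    have := mul_le_mul_of_nonneg_left hcore (show (0 : ℝ) ≤ 1 / a by positivity)
    have e5 : 1 / a * (a / 2 - 1 / D) = 1 / 2 - 1 / (a * D) := by
      field_simp
    linarith
  refine hmain.trans ?_
  -- a * D ≤ 663552 * (β * r) * log β
  have hβr : 222000 ≤ β * r := by nlinarith
  have hDle : D ≤ 221184 * (β * r) := by
    rw [hD]
    have h1 : (4 * (q : ℝ)) ^ 3 ≤ (24 * r) ^ 3 := pow_le_pow_left₀ (by positivity) (by linarith) 3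
    have e6 : (24 * r) ^ 3 = 13824 * (β * r) := by
      rw [← hr2]
      ring
    linarith
  have hDle2 : D ≤ β ^ 3 := by
    have e7 : β ^ 3 = (β * r) * (β * r) := by
      have : β ^ 3 = β * β * (r * r) := by rw [hr2]; ring
      rw [this]; ring
    rw [e7]
    nlinarith
  have hlogβ : 0 < Real.log β := Real.log_pos (by linarith)
  have hale : a ≤ 3 * Real.log β := by
    have := Real.log_le_log hDpos hDle2
    rw [Real.log_pow] at this
    push_cast at this
    exact this
  have hβrpos : 0 < β * r := by linarith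
  have haD : a * D ≤ 663552 * (β * r) * Real.log β := by
    calc a * D ≤ (3 * Real.log β) * (221184 * (β * r)) :=
          mul_le_mul hale hDle hDpos.le (by positivity)
      _ = 663552 * (β * r) * Real.log β := by ring
  have haDpos : 0 < a * D := mul_pos hapos hDpos
  have : 1 / (663552 * (β * r) * Real.log β) ≤ 1 / (a * D) :=
    one_div_le_one_div_of_le haDpos haD
  linarith

/-- Main theorem: Bloch-type upper bound for the spontaneous magnetization (spin 1/2). -/
theorem magnetization_bound (β : ℝ) (hβ : 3700 ≤ β) (m : ℝ)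
    (hm : HasDerivWithinAt (pressure β) m (Set.Ioi 0) 0) :
    m ≤ 1 / 2 - 1 / (663552 * (β * Real.sqrt β) * Real.log β) := by
  obtain ⟨q, h₀, hq, hh₀, hC⟩ := Cc_bound β hβ
  exact (deriv_le q hq β h₀ (by linarith) hh₀ m hm).trans hC

end Vale.Agent.Lib.P361
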