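import Vale.Agent.Lib.P361.Cells3

namespace Vale.Agent.Lib.P361

theorem finite_main (N q K : ℕ) (hq : 1 ≤ q) (hK : K * (4 * q) ≤ 2 * N) (β h h₀ : ℝ)
    (hβ : 0 < β) (hh : 0 < h) (hh₀ : h ≤ h₀) :
    Real.log (partitionFn N β h) - Real.log (partitionFn N β 0) ≤
      (h / h₀) * ((Fintype.card (box N) : ℝ) *
          Real.log (Real.exp (β * h₀ / 2) + Real.exp (-(β * h₀ / 2))) -
        ((K : ℝ) ^ 3) * Real.log (1 + Real.exp (-(β * (24 / (q : ℝ) ^ 2))))) := by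
  simp only [partitionFn_eq]
  have hirr := adjB_irrefl N
  have hconv := partG_convex (adjB N) hirr β h h₀ hβ.le hh hh₀
  have hup := partG_upper (adjB N) hirr β h₀ hβ.le
  have hlow := partG_lower (adjB N) hirr (phiCell N q (K := K)) (phiCell_sep N q K)
    (phiCell_norm N q K hq hK) β (24 / (q : ℝ) ^ 2) hβ.le (phiCell_energy N q K hq hK)
  have hcardI : Fintype.card (Fin K × Fin K × Fin K) = K ^ 3 := by
    simp only [Fintype.card_prod, Fintype.card_fin]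
    ring
  rw [hcardI] at hlow
  have hZ0 := partG_pos (adjB N) hirr β 0 hβ.le
  have hZh₀ := partG_pos (adjB N) hirr β h₀ hβ.le
  have hA : 0 < Real.exp (β * h₀ / 2) + Real.exp (-(β * h₀ / 2)) :=
    add_pos (Real.exp_pos _) (Real.exp_pos _)
  have hB : 0 < 1 + Real.exp (-(β * (24 / (q : ℝ) ^ 2))) := add_pos one_pos (Real.exp_pos _)
  have hlogup : Real.log (partG (adjB N) β h₀) ≤ β * (nadj (adjB N) / 8) +
      (Fintype.card (box N) : ℝ) * Real.log (Real.exp (β * h₀ / 2) + Real.exp (-(β * h₀ / 2))) := by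
    have := Real.log_le_log hZh₀ hup
    rw [Real.log_mul (Real.exp_pos _).ne' (pow_pos hA _).ne', Real.log_exp, Real.log_pow] at this
    exact this
  have hloglow : β * (nadj (adjB N) / 8) +
      ((K : ℝ) ^ 3) * Real.log (1 + Real.exp (-(β * (24 / (q : ℝ) ^ 2)))) ≤
      Real.log (partG (adjB N) β 0) := by
    have := Real.log_le_log (mul_pos (Real.exp_pos _) (pow_pos hB _)) hlow
    rw [Real.log_mul (Real.exp_pos _).ne' (pow_pos hB _).ne', Real.log_exp, Real.log_pow] at this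
    push_cast at this
    exact this
  have hpos : 0 ≤ h / h₀ := div_nonneg hh.le (hh.le.trans hh₀)
  refine hconv.trans (mul_le_mul_of_nonneg_left ?_ hpos)
  linarith

/-- The finite-volume pressure. -/
noncomputable def PN (N : ℕ) (β h : ℝ) : ℝ :=
  Real.log (partitionFn N β h) / (β * ((box N).card : ℝ))

theorem card_box' (N : ℕ) : ((box N).card : ℝ) = (2 * (N : ℝ) + 1) ^ 3 := by
  have := card_box N
  rw [Fintype.card_coe] at this
  rw [this]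
  push_cast
  ring

/-- The constant in the chord bound. -/
noncomputable def Cc (β : ℝ) (q : ℕ) (h₀ : ℝ) : ℝ :=
  (1 / (β * h₀)) * (Real.log (Real.exp (β * h₀ / 2) + Real.exp (-(β * h₀ / 2))) -
    (1 / (2 * (4 * (q : ℝ)) ^ 3)) * Real.log (1 + Real.exp (-(β * (24 / (q : ℝ) ^ 2)))))

theorem cube_count (N q : ℕ) (hq : 1 ≤ q) (hN : 12 * q ≤ N) :
    (2 * (N : ℝ) + 1) ^ 3 ≤ 2 * (4 * (q : ℝ)) ^ 3 * (((2 * N / (4 * q) : ℕ) : ℝ)) ^ 3 := by
  set K := 2 * N / (4 * q) with hKdef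
  have h4q : 0 < 4 * q := by omega
  have h1 : 2 * N < K * (4 * q) + 4 * q := by
    have := Nat.lt_div_mul_add (a := 2 * N) h4q
    rw [hKdef]
    linarith
  have h2 : 4 * (2 * N + 1) ≤ 5 * (4 * q * K) := by
    have : 4 * q * K = K * (4 * q) := by ring
    omega
  have h3 : (4 * (2 * (N : ℝ) + 1)) ≤ 5 * (4 * (q : ℝ) * (K : ℝ)) := by exact_mod_cast h2
  have h4 : (4 * (2 * (N : ℝ) + 1)) ^ 3 ≤ (5 * (4 * (q : ℝ) * (K : ℝ))) ^ 3 :=
    pow_le_pow_left₀ (by positivity) h3 3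
  have h5 : (0 : ℝ) ≤ (4 * (q : ℝ) * (K : ℝ)) ^ 3 := by positivity
  nlinarith [h4, h5]

theorem pressure_step (q : ℕ) (hq : 1 ≤ q) (β h h₀ : ℝ) (hβ : 0 < β) (hh : 0 < h) (hh₀ : h ≤ h₀)
    (N : ℕ) (hN : 12 * q ≤ N) : PN N β h ≤ PN N β 0 + h * Cc β q h₀ := by
  set K := 2 * N / (4 * q) with hKdef
  have hK : K * (4 * q) ≤ 2 * N := Nat.div_mul_le_self _ _
  have hmain := finite_main N q K hq hK β h h₀ hβ hh hh₀
  have hcount := cube_count N q hq hN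
  rw [← hKdef] at hcount
  have hcard : (Fintype.card (box N) : ℝ) = (2 * (N : ℝ) + 1) ^ 3 := by
    rw [Fintype.card_coe]
    exact card_box' N
  rw [hcard] at hmain
  have hh₀pos : 0 < h₀ := lt_of_lt_of_le hh hh₀
  have hc3 : (0 : ℝ) < (2 * (N : ℝ) + 1) ^ 3 := by positivity
  have hq' : (1 : ℝ) ≤ q := by exact_mod_cast hq
  have hq3 : (0 : ℝ) < 2 * (4 * (q : ℝ)) ^ 3 := by positivity
  set A := Real.log (Real.exp (β * h₀ / 2) + Real.exp (-(β * h₀ / 2))) with hA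
  set B := Real.log (1 + Real.exp (-(β * (24 / (q : ℝ) ^ 2)))) with hB
  have hB0 : 0 ≤ B := by
    rw [hB]
    apply Real.log_nonneg
    have := Real.exp_pos (-(β * (24 / (q : ℝ) ^ 2)))
    linarith
  -- K^3 * B ≥ (2N+1)^3 / (2 (4q)^3) * B
  have hKB : (2 * (N : ℝ) + 1) ^ 3 * ((1 / (2 * (4 * (q : ℝ)) ^ 3)) * B) ≤ (K : ℝ) ^ 3 * B := by
    have : (2 * (N : ℝ) + 1) ^ 3 * (1 / (2 * (4 * (q : ℝ)) ^ 3)) ≤ (K : ℝ) ^ 3 := by
      rw [mul_one_div, div_le_iff₀ hq3]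
      linarith
    calc (2 * (N : ℝ) + 1) ^ 3 * ((1 / (2 * (4 * (q : ℝ)) ^ 3)) * B)
        = ((2 * (N : ℝ) + 1) ^ 3 * (1 / (2 * (4 * (q : ℝ)) ^ 3))) * B := by ring
      _ ≤ (K : ℝ) ^ 3 * B := mul_le_mul_of_nonneg_right this hB0
  have hhh : 0 ≤ h / h₀ := div_nonneg hh.le hh₀pos.le
  have hmain2 : Real.log (partitionFn N β h) - Real.log (partitionFn N β 0) ≤
      (h / h₀) * ((2 * (N : ℝ) + 1) ^ 3 * (A - (1 / (2 * (4 * (q : ℝ)) ^ 3)) * B)) := by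
    refine hmain.trans (mul_le_mul_of_nonneg_left ?_ hhh)
    linarith
  unfold PN Cc
  rw [card_box' N, ← hA, ← hB]
  have hden : 0 < β * (2 * (N : ℝ) + 1) ^ 3 := mul_pos hβ hc3
  rw [div_le_iff₀ hden]
  have e : (Real.log (partitionFn N β 0) / (β * (2 * (N : ℝ) + 1) ^ 3) +
      h * (1 / (β * h₀) * (A - 1 / (2 * (4 * (q : ℝ)) ^ 3) * B))) * (β * (2 * (N : ℝ) + 1) ^ 3) =
      Real.log (partitionFn N β 0) +
        (h / h₀) * ((2 * (N : ℝ) + 1) ^ 3 * (A - (1 / (2 * (4 * (q : ℝ)) ^ 3)) * B)) := by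
    field_simp
  rw [e]
  linarith

end Vale.Agent.Lib.P361
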