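import Mathlib

namespace Vale.Agent.Lib.P361.Gen

/-- The Bose function `1 / (exp x - 1)`. -/
noncomputable def bose (x : ℝ) : ℝ := 1 / (Real.exp x - 1)

/-- Minus the derivative of the Bose function. -/
noncomputable def boseD (x : ℝ) : ℝ := Real.exp (-x) / (1 - Real.exp (-x)) ^ 2

theorem bose_pos {x : ℝ} (hx : 0 < x) : 0 < bose x := by
  unfold bose
  have : 1 < Real.exp x := Real.one_lt_exp_iff.2 hx
  exact div_pos one_pos (by linarith)

theorem exp_neg_lt_one {x : ℝ} (hx : 0 < x) : Real.exp (-x) < 1 := by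
  have h := Real.exp_lt_exp.2 (show -x < 0 by linarith)
  rwa [Real.exp_zero] at h

theorem boseD_pos {x : ℝ} (hx : 0 < x) : 0 < boseD x := by
  unfold boseD
  have h1 := exp_neg_lt_one hx
  have h2 : 0 < 1 - Real.exp (-x) := by linarith
  have h3 := Real.exp_pos (-x)
  positivity

theorem bose_anti {x y : ℝ} (hx : 0 < x) (hxy : x ≤ y) : bose y ≤ bose x := by
  unfold bose
  have h1 : 1 < Real.exp x := Real.one_lt_exp_iff.2 hx
  have h2 : Real.exp x ≤ Real.exp y := Real.exp_le_exp.2 hxy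
  exact one_div_le_one_div_of_le (by linarith) (by linarith)

theorem bose_eq {y : ℝ} (hy : 0 < y) : bose y = Real.exp (-y) / (1 - Real.exp (-y)) := by
  unfold bose
  have hy1 : 1 < Real.exp y := Real.one_lt_exp_iff.2 hy
  rw [Real.exp_neg]
  have hne : Real.exp y ≠ 0 := (Real.exp_pos y).ne'
  field_simp

/-- Tangent line inequality for the (convex) Bose function. -/
theorem bose_tangent {x x₀ : ℝ} (hx : 0 < x) (hx₀ : 0 < x₀) :
    bose x₀ - boseD x₀ * (x - x₀) ≤ bose x := by
  unfold boseD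
  set r := Real.exp (-x) with hr
  set r₀ := Real.exp (-x₀) with hr₀
  have hrpos : 0 < r := Real.exp_pos _
  have hr₀pos : 0 < r₀ := Real.exp_pos _
  have hr1 : r < 1 := exp_neg_lt_one hx
  have hr₀1 : r₀ < 1 := exp_neg_lt_one hx₀
  rw [bose_eq hx, bose_eq hx₀, ← hr, ← hr₀]
  have h1 : r₀ * (1 - (x - x₀)) ≤ r := by
    have := Real.add_one_le_exp (-(x - x₀))
    have e : r = r₀ * Real.exp (-(x - x₀)) := by
      rw [hr, hr₀, ← Real.exp_add]
      congr 1
      ring
    rw [e]
    have : 1 - (x - x₀) ≤ Real.exp (-(x - x₀)) := by linarith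
    exact mul_le_mul_of_nonneg_left this hr₀pos.le
  have h2 : r₀ / (1 - r₀) + (r - r₀) / (1 - r₀) ^ 2 ≤ r / (1 - r) := by
    have hd1 : 0 < 1 - r := by linarith
    have hd2 : 0 < 1 - r₀ := by linarith
    have e : r / (1 - r) - (r₀ / (1 - r₀) + (r - r₀) / (1 - r₀) ^ 2) =
        (r - r₀) ^ 2 / ((1 - r) * (1 - r₀) ^ 2) := by
      field_simp
      ring
    have : 0 ≤ (r - r₀) ^ 2 / ((1 - r) * (1 - r₀) ^ 2) := by positivity
    linarith
  have hd2 : 0 < (1 - r₀) ^ 2 := by
    have : 0 < 1 - r₀ := by linarith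
    positivity
  have h3 : -(r₀ * (x - x₀)) / (1 - r₀) ^ 2 ≤ (r - r₀) / (1 - r₀) ^ 2 := by
    apply div_le_div_of_nonneg_right _ hd2.le
    linarith
  have e2 : r₀ / (1 - r₀) ^ 2 * (x - x₀) = -(-(r₀ * (x - x₀)) / (1 - r₀) ^ 2) := by ring
  rw [e2]
  linarith

/-- The tangent inequality in a form valid for all real `x`. -/
theorem bose_tangent_all (x : ℝ) {x₀ : ℝ} (hx₀ : 0 < x₀) :
    (Real.exp x - 1) * (bose x₀ - boseD x₀ * (x - x₀)) ≤ 1 := by
  rcases lt_or_ge 0 x with hx | hx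
  · have h1 := bose_tangent hx hx₀
    have h2 : 0 < Real.exp x - 1 := by
      have : 1 < Real.exp x := Real.one_lt_exp_iff.2 hx
      linarith
    calc (Real.exp x - 1) * (bose x₀ - boseD x₀ * (x - x₀)) ≤ (Real.exp x - 1) * bose x :=
          mul_le_mul_of_nonneg_left h1 h2.le
      _ = 1 := by
          unfold bose
          field_simp
  · have h2 : Real.exp x - 1 ≤ 0 := by
      have : Real.exp x ≤ 1 := Real.exp_le_one_iff.2 hx
      linarith
    have h3 : 0 ≤ bose x₀ - boseD x₀ * (x - x₀) := by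
      have := bose_pos hx₀
      have hD := boseD_pos hx₀
      have : boseD x₀ * (x - x₀) ≤ 0 := mul_nonpos_of_nonneg_of_nonpos hD.le (by linarith)
      linarith
    have := mul_nonpos_of_nonpos_of_nonneg h2 h3
    linarith

/-- The basic sum inequality behind Roepstorff's bound. -/
theorem roep_sum {α : Type} (S : Finset α) (p s t : α → ℝ) (hp : ∀ a ∈ S, 0 ≤ p a) (β x₀ : ℝ)
    (hx₀ : 0 < x₀)
    (hC : ∑ a ∈ S, p a * (β * (t a - s a)) * (Real.exp (-(β * s a)) - Real.exp (-(β * t a))) ≤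
      x₀ * ∑ a ∈ S, p a * (Real.exp (-(β * s a)) - Real.exp (-(β * t a)))) :
    bose x₀ * ∑ a ∈ S, p a * (Real.exp (-(β * s a)) - Real.exp (-(β * t a))) ≤
      ∑ a ∈ S, p a * Real.exp (-(β * t a)) := by
  have hD := boseD_pos hx₀
  have hterm : ∀ a ∈ S, p a * (Real.exp (-(β * s a)) - Real.exp (-(β * t a))) *
      (bose x₀ - boseD x₀ * (β * (t a - s a) - x₀)) ≤ p a * Real.exp (-(β * t a)) := by
    intro a ha
    have h1 := bose_tangent_all (β * (t a - s a)) hx₀
    have e : Real.exp (-(β * s a)) - Real.exp (-(β * t a)) =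
        Real.exp (-(β * t a)) * (Real.exp (β * (t a - s a)) - 1) := by
      rw [mul_sub, ← Real.exp_add, mul_one]
      congr 2
      ring
    rw [e]
    have h2 : 0 ≤ p a * Real.exp (-(β * t a)) := mul_nonneg (hp a ha) (Real.exp_pos _).le
    calc p a * (Real.exp (-(β * t a)) * (Real.exp (β * (t a - s a)) - 1)) *
          (bose x₀ - boseD x₀ * (β * (t a - s a) - x₀))
        = (p a * Real.exp (-(β * t a))) * ((Real.exp (β * (t a - s a)) - 1) *
          (bose x₀ - boseD x₀ * (β * (t a - s a) - x₀))) := by ring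
      _ ≤ (p a * Real.exp (-(β * t a))) * 1 := mul_le_mul_of_nonneg_left h1 h2
      _ = _ := by ring
  have hsum := Finset.sum_le_sum hterm
  have e2 : ∑ a ∈ S, p a * (Real.exp (-(β * s a)) - Real.exp (-(β * t a))) *
      (bose x₀ - boseD x₀ * (β * (t a - s a) - x₀)) =
      (bose x₀ + boseD x₀ * x₀) * ∑ a ∈ S, p a * (Real.exp (-(β * s a)) - Real.exp (-(β * t a))) -
        boseD x₀ * ∑ a ∈ S, p a * (β * (t a - s a)) *
          (Real.exp (-(β * s a)) - Real.exp (-(β * t a))) := by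
    rw [Finset.mul_sum, Finset.mul_sum, ← Finset.sum_sub_distrib]
    refine Finset.sum_congr rfl fun a _ => ?_
    ring
  rw [e2] at hsum
  have h3 := mul_le_mul_of_nonneg_left hC hD.le
  nlinarith

/-- Truncated geometric expansion of the Bose function. -/
theorem bose_ge_sum {x : ℝ} (hx : 0 < x) (n₀ : ℕ) :
    ∑ n ∈ Finset.range n₀, Real.exp (-x) ^ (n + 1) ≤ bose x := by
  rw [bose_eq hx]
  set r := Real.exp (-x) with hr
  have hrpos : 0 < r := Real.exp_pos _
  have hr1 : r < 1 := exp_neg_lt_one hx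
  have hd : 0 < 1 - r := by linarith
  rw [le_div_iff₀ hd]
  have key : ∀ m : ℕ, (∑ n ∈ Finset.range m, r ^ (n + 1)) * (1 - r) = r - r ^ (m + 1) := by
    intro m
    induction m with
    | zero => simp
    | succ m ih =>
      rw [Finset.sum_range_succ, add_mul, ih]
      ring
  rw [key]
  have : 0 < r ^ (n₀ + 1) := pow_pos hrpos _
  linarith

end Vale.Agent.Lib.P361.Gen
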