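import Vale.Agent.Lib.P361.MatrixAux
import Vale.Agent.Lib.P361.GBose

namespace Vale.Agent.Lib.P361.Gen

open Matrix

set_option linter.unusedSectionVars false
set_option linter.unusedVariables false

variable {n : Type} [Fintype n] [DecidableEq n]

/-- The (unnormalised) state `X ↦ ∑ₖ wₖ ⟨uₖ, X uₖ⟩` where `uₖ` are the columns of `U`. -/
noncomputable def gibbs (U : Matrix n n ℝ) (w : n → ℝ) (X : Matrix n n ℝ) : ℝ :=
  ∑ k, w k * (Uᵀ * X * U) k k

theorem gibbs_add (U : Matrix n n ℝ) (w : n → ℝ) (X Y : Matrix n n ℝ) :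
    gibbs U w (X + Y) = gibbs U w X + gibbs U w Y := by
  unfold gibbs
  rw [← Finset.sum_add_distrib]
  refine Finset.sum_congr rfl fun k _ => ?_
  rw [Matrix.mul_add, Matrix.add_mul, Matrix.add_apply]
  ring

theorem gibbs_smul (U : Matrix n n ℝ) (w : n → ℝ) (c : ℝ) (X : Matrix n n ℝ) :
    gibbs U w (c • X) = c * gibbs U w X := by
  unfold gibbs
  rw [Finset.mul_sum]
  refine Finset.sum_congr rfl fun k _ => ?_
  rw [Matrix.mul_smul, Matrix.smul_mul, Matrix.smul_apply, smul_eq_mul]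
  ring

theorem gibbs_neg (U : Matrix n n ℝ) (w : n → ℝ) (X : Matrix n n ℝ) :
    gibbs U w (-X) = -gibbs U w X := by
  have := gibbs_smul U w (-1) X
  simpa using this

theorem gibbs_sub (U : Matrix n n ℝ) (w : n → ℝ) (X Y : Matrix n n ℝ) :
    gibbs U w (X - Y) = gibbs U w X - gibbs U w Y := by
  rw [sub_eq_add_neg, gibbs_add, gibbs_neg]
  ring

theorem gibbs_zero (U : Matrix n n ℝ) (w : n → ℝ) : gibbs U w 0 = 0 := by
  unfold gibbs
  simp

theorem gibbs_sum {ι : Type} (U : Matrix n n ℝ) (w : n → ℝ) (S : Finset ι) (X : ι → Matrix n n ℝ) :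
    gibbs U w (∑ c ∈ S, X c) = ∑ c ∈ S, gibbs U w (X c) := by
  classical
  induction S using Finset.induction_on with
  | empty => simp [gibbs_zero]
  | insert a S ha ih => rw [Finset.sum_insert ha, Finset.sum_insert ha, gibbs_add, ih]

theorem gibbs_transpose (U : Matrix n n ℝ) (w : n → ℝ) (X : Matrix n n ℝ) :
    gibbs U w Xᵀ = gibbs U w X := by
  unfold gibbs
  refine Finset.sum_congr rfl fun k _ => ?_
  have : Uᵀ * Xᵀ * U = (Uᵀ * X * U)ᵀ := by
    simp [Matrix.transpose_mul, Matrix.mul_assoc]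
  rw [this, Matrix.transpose_apply]

theorem gibbs_pos (U : Matrix n n ℝ) (w : n → ℝ) (hw : ∀ k, 0 ≤ w k) (X : Matrix n n ℝ) :
    0 ≤ gibbs U w (Xᵀ * X) := by
  unfold gibbs
  refine Finset.sum_nonneg fun k _ => mul_nonneg (hw k) ?_
  have : Uᵀ * (Xᵀ * X) * U = (X * U)ᵀ * (X * U) := by
    simp [Matrix.transpose_mul, Matrix.mul_assoc]
  rw [this, Matrix.mul_apply]
  refine Finset.sum_nonneg fun s _ => ?_
  rw [Matrix.transpose_apply]
  exact mul_self_nonneg _

theorem gibbs_one (U : Matrix n n ℝ) (w : n → ℝ) (hU2 : Uᵀ * U = 1) :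
    gibbs U w 1 = ∑ k, w k := by
  unfold gibbs
  refine Finset.sum_congr rfl fun k _ => ?_
  rw [Matrix.mul_one, hU2, Matrix.one_apply_eq, mul_one]

theorem cj_mul (U : Matrix n n ℝ) (hU1 : U * Uᵀ = 1) (X Y : Matrix n n ℝ) :
    Uᵀ * (X * Y) * U = (Uᵀ * X * U) * (Uᵀ * Y * U) := by
  calc Uᵀ * (X * Y) * U = Uᵀ * X * 1 * Y * U := by simp only [Matrix.mul_assoc, Matrix.one_mul]
    _ = Uᵀ * X * (U * Uᵀ) * Y * U := by rw [hU1]
    _ = _ := by simp only [Matrix.mul_assoc]

theorem cj_sub (U : Matrix n n ℝ) (X Y : Matrix n n ℝ) :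
    Uᵀ * (X - Y) * U = (Uᵀ * X * U) - (Uᵀ * Y * U) := by
  rw [Matrix.mul_sub, Matrix.sub_mul]

theorem cj_transpose (U : Matrix n n ℝ) (X : Matrix n n ℝ) :
    Uᵀ * Xᵀ * U = (Uᵀ * X * U)ᵀ := by
  simp [Matrix.transpose_mul, Matrix.mul_assoc]

theorem cj_diag (U : Matrix n n ℝ) (hU2 : Uᵀ * U = 1) (D : Matrix n n ℝ) :
    Uᵀ * (U * D * Uᵀ) * U = D := by
  calc Uᵀ * (U * D * Uᵀ) * U = (Uᵀ * U) * D * (Uᵀ * U) := by simp only [Matrix.mul_assoc]
    _ = D := by rw [hU2, Matrix.one_mul, Matrix.mul_one]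

theorem diag_form1 (a : Matrix n n ℝ) (k : n) : (aᵀ * a) k k = ∑ i, a i k ^ 2 := by
  rw [Matrix.mul_apply]
  refine Finset.sum_congr rfl fun i _ => ?_
  rw [Matrix.transpose_apply]
  ring

theorem diag_form2 (a : Matrix n n ℝ) (k : n) : (a * aᵀ) k k = ∑ j, a k j ^ 2 := by
  rw [Matrix.mul_apply]
  refine Finset.sum_congr rfl fun i _ => ?_
  rw [Matrix.transpose_apply]
  ring

theorem diag_form3 (a : Matrix n n ℝ) (E : n → ℝ) (k : n) :
    (aᵀ * (Matrix.diagonal E * a - a * Matrix.diagonal E)) k k = ∑ i, a i k ^ 2 * (E i - E k) := by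
  rw [Matrix.mul_apply]
  refine Finset.sum_congr rfl fun i _ => ?_
  rw [Matrix.transpose_apply, Matrix.sub_apply, Matrix.diagonal_mul, Matrix.mul_diagonal]
  ring

theorem diag_form4 (a : Matrix n n ℝ) (E : n → ℝ) (k : n) :
    (a * (Matrix.diagonal E * aᵀ - aᵀ * Matrix.diagonal E)) k k = ∑ j, a k j ^ 2 * (E j - E k) := by
  rw [Matrix.mul_apply]
  refine Finset.sum_congr rfl fun i _ => ?_
  rw [Matrix.sub_apply, Matrix.diagonal_mul, Matrix.mul_diagonal, Matrix.transpose_apply]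
  ring

/-- Roepstorff's inequality (tangent form), for a finite family of operators `A c`. -/
theorem roepstorff {ι : Type} [Fintype ι] (U : Matrix n n ℝ) (E : n → ℝ) (hU1 : U * Uᵀ = 1)
    (hU2 : Uᵀ * U = 1) (H : Matrix n n ℝ) (hH : H = U * Matrix.diagonal E * Uᵀ) (β : ℝ)
    (A : ι → Matrix n n ℝ) (x₀ : ℝ) (hx₀ : 0 < x₀)
    (hC : β * ∑ c, gibbs U (fun k => Real.exp (-(β * E k)))
        ((A c)ᵀ * (H * A c - A c * H) + A c * (H * (A c)ᵀ - (A c)ᵀ * H)) ≤
      x₀ * ∑ c, gibbs U (fun k => Real.exp (-(β * E k))) (A c * (A c)ᵀ - (A c)ᵀ * A c)) :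
    bose x₀ * ∑ c, gibbs U (fun k => Real.exp (-(β * E k))) (A c * (A c)ᵀ - (A c)ᵀ * A c) ≤
      ∑ c, gibbs U (fun k => Real.exp (-(β * E k))) ((A c)ᵀ * A c) := by
  set w : n → ℝ := fun k => Real.exp (-(β * E k)) with hw
  set a : ι → Matrix n n ℝ := fun c => Uᵀ * A c * U with ha
  have hHc : Uᵀ * H * U = Matrix.diagonal E := by
    rw [hH]
    exact cj_diag U hU2 _
  have G1 : ∀ c, gibbs U w ((A c)ᵀ * A c) = ∑ i, ∑ j, a c i j ^ 2 * w j := by
    intro c
    unfold gibbs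
    rw [Finset.sum_comm]
    refine Finset.sum_congr rfl fun k _ => ?_
    rw [cj_mul U hU1, cj_transpose, diag_form1, Finset.mul_sum]
    exact Finset.sum_congr rfl fun i _ => by ring
  have G2 : ∀ c, gibbs U w (A c * (A c)ᵀ) = ∑ i, ∑ j, a c i j ^ 2 * w i := by
    intro c
    unfold gibbs
    refine Finset.sum_congr rfl fun k _ => ?_
    rw [cj_mul U hU1, cj_transpose, diag_form2, Finset.mul_sum]
    exact Finset.sum_congr rfl fun i _ => by ring
  have G3 : ∀ c, gibbs U w ((A c)ᵀ * (H * A c - A c * H)) =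
      ∑ i, ∑ j, a c i j ^ 2 * (w j * (E i - E j)) := by
    intro c
    unfold gibbs
    rw [Finset.sum_comm]
    refine Finset.sum_congr rfl fun k _ => ?_
    rw [cj_mul U hU1, cj_transpose, cj_sub, cj_mul U hU1, cj_mul U hU1, hHc, diag_form3,
      Finset.mul_sum]
    exact Finset.sum_congr rfl fun i _ => by ring
  have G4 : ∀ c, gibbs U w (A c * (H * (A c)ᵀ - (A c)ᵀ * H)) =
      ∑ i, ∑ j, a c i j ^ 2 * (w i * (E j - E i)) := by
    intro c
    unfold gibbs
    refine Finset.sum_congr rfl fun k _ => ?_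
    rw [cj_mul U hU1, cj_sub, cj_mul U hU1, cj_mul U hU1, cj_transpose, hHc, diag_form4,
      Finset.mul_sum]
    exact Finset.sum_congr rfl fun i _ => by ring
  have key := roep_sum (Finset.univ : Finset (ι × n × n)) (fun q => a q.1 q.2.1 q.2.2 ^ 2)
    (fun q => E q.2.1) (fun q => E q.2.2) (fun q _ => sq_nonneg _) β x₀ hx₀
  have eB : ∑ q : ι × n × n, a q.1 q.2.1 q.2.2 ^ 2 *
      (Real.exp (-(β * E q.2.1)) - Real.exp (-(β * E q.2.2))) =
      ∑ c, gibbs U w (A c * (A c)ᵀ - (A c)ᵀ * A c) := by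
    rw [Fintype.sum_prod_type]
    refine Finset.sum_congr rfl fun c _ => ?_
    rw [gibbs_sub, G1, G2, Fintype.sum_prod_type, ← Finset.sum_sub_distrib]
    refine Finset.sum_congr rfl fun i _ => ?_
    rw [← Finset.sum_sub_distrib]
    exact Finset.sum_congr rfl fun j _ => by simp only [hw]; ring
  have eN : ∑ q : ι × n × n, a q.1 q.2.1 q.2.2 ^ 2 * Real.exp (-(β * E q.2.2)) =
      ∑ c, gibbs U w ((A c)ᵀ * A c) := by
    rw [Fintype.sum_prod_type]
    refine Finset.sum_congr rfl fun c _ => ?_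
    rw [G1, Fintype.sum_prod_type]
  have eC : ∑ q : ι × n × n, a q.1 q.2.1 q.2.2 ^ 2 * (β * (E q.2.2 - E q.2.1)) *
      (Real.exp (-(β * E q.2.1)) - Real.exp (-(β * E q.2.2))) =
      β * ∑ c, gibbs U w ((A c)ᵀ * (H * A c - A c * H) + A c * (H * (A c)ᵀ - (A c)ᵀ * H)) := by
    rw [Fintype.sum_prod_type, Finset.mul_sum]
    refine Finset.sum_congr rfl fun c _ => ?_
    rw [gibbs_add, G3, G4, Fintype.sum_prod_type, ← Finset.sum_add_distrib, Finset.mul_sum]
    refine Finset.sum_congr rfl fun i _ => ?_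
    rw [← Finset.sum_add_distrib, Finset.mul_sum]
    exact Finset.sum_congr rfl fun j _ => by simp only [hw]; ring
  rw [eB, eN, eC] at key
  exact key hC

theorem trace_exp_conj (U : Matrix n n ℝ) (E : n → ℝ) (hU1 : U * Uᵀ = 1) (hU2 : Uᵀ * U = 1) :
    Matrix.trace (NormedSpace.exp (U * Matrix.diagonal E * Uᵀ)) = ∑ k, Real.exp (E k) := by
  rw [exp_conj_orth U E hU1, Matrix.trace_mul_cycle, hU2, Matrix.one_mul, Matrix.trace_diagonal]

/-- Gibbs variational (Peierls–Bogoliubov) inequality. -/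
theorem gibbs_variational (U : Matrix n n ℝ) (E : n → ℝ) (hU1 : U * Uᵀ = 1) (hU2 : Uᵀ * U = 1)
    (H : Matrix n n ℝ) (hH : H = U * Matrix.diagonal E * Uᵀ) (hHs : H.IsHermitian)
    (B : Matrix n n ℝ) (hB : B.IsHermitian) :
    (∑ k, Real.exp (E k)) *
      Real.exp (gibbs U (fun k => Real.exp (E k)) B / ∑ k, Real.exp (E k)) ≤
        Matrix.trace (NormedSpace.exp (H + B)) := by
  have hP := peierls (H + B) (hHs.add hB) Uᵀ (by rw [Matrix.transpose_transpose]; exact hU2)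
  rw [Matrix.transpose_transpose] at hP
  refine le_trans ?_ hP
  have hHc : Uᵀ * H * U = Matrix.diagonal E := by
    rw [hH]
    exact cj_diag U hU2 _
  have e1 : ∀ k, (Uᵀ * (H + B) * U) k k = E k + (Uᵀ * B * U) k k := by
    intro k
    rw [Matrix.mul_add, Matrix.add_mul, Matrix.add_apply, hHc, Matrix.diagonal_apply_eq]
  simp only [e1]
  set Z : ℝ := ∑ k, Real.exp (E k) with hZ
  have hcard : Nonempty n ∨ IsEmpty n := (isEmpty_or_nonempty n).symm
  rcases hcard with hne | hem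
  · have hZpos : 0 < Z := by
      apply Finset.sum_pos
      · intro k _
        exact Real.exp_pos _
      · exact Finset.univ_nonempty
    have hJ := convexOn_exp.map_sum_le (t := Finset.univ) (w := fun k => Real.exp (E k) / Z)
      (p := fun k => (Uᵀ * B * U) k k) (fun k _ => div_nonneg (Real.exp_pos _).le hZpos.le)
      (by rw [← Finset.sum_div, ← hZ]; exact div_self hZpos.ne') (fun k _ => Set.mem_univ _)
    simp only [smul_eq_mul] at hJ
    have e2 : gibbs U (fun k => Real.exp (E k)) B / Z =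
        ∑ k, Real.exp (E k) / Z * (Uᵀ * B * U) k k := by
      unfold gibbs
      rw [Finset.sum_div]
      exact Finset.sum_congr rfl fun k _ => by ring
    rw [e2]
    calc Z * Real.exp (∑ k, Real.exp (E k) / Z * (Uᵀ * B * U) k k)
        ≤ Z * ∑ k, Real.exp (E k) / Z * Real.exp ((Uᵀ * B * U) k k) :=
          mul_le_mul_of_nonneg_left hJ hZpos.le
      _ = ∑ k, Real.exp (E k + (Uᵀ * B * U) k k) := by
          rw [Finset.mul_sum]
          refine Finset.sum_congr rfl fun k _ => ?_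
          rw [Real.exp_add]
          field_simp
  · have : Z = 0 := by
      rw [hZ]
      exact Finset.sum_of_isEmpty _
    rw [this, zero_mul]
    exact Finset.sum_nonneg fun k _ => (Real.exp_pos _).le

end Vale.Agent.Lib.P361.Gen
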