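import Vale.Agent.Lib.P361.GLocal
import Vale.Agent.Lib.P361.GState

namespace Vale.Agent.Lib.P361.Gen

open Matrix

set_option linter.unusedSectionVars false
set_option linter.unusedVariables false

noncomputable section

theorem alg_I1 {R : Type} [Ring R] (z1 p1 m1 z2 p2 m2 : R)
    (hzp : z2 * p1 = p1 * z2) (hmp : m2 * p1 = p1 * m2) (hpp : p2 * p1 = p1 * p2)
    (r1 : z1 * p1 - p1 * z1 = p1) (r3 : p1 * m1 - m1 * p1 = z1 + z1) :
    (z1 * z2 + z1 * z2 + p1 * m2 + m1 * p2) * p1 - p1 * (z1 * z2 + z1 * z2 + p1 * m2 + m1 * p2) =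
      (p1 * z2 - z1 * p2) + (p1 * z2 - z1 * p2) := by
  linear_combination (norm := noncomm_ring) 2 * z1 * hzp + p1 * hmp + m1 * hpp + 2 * r1 * z2 - r3 * p2

theorem alg_I3 {R : Type} [Ring R] (z1 p1 m1 z2 p2 : R)
    (hzm : z2 * m1 = m1 * z2) (hpm : p2 * m1 = m1 * p2)
    (r2 : m1 * z1 - z1 * m1 = m1) (r3 : p1 * m1 - m1 * p1 = z1 + z1) :
    m1 * (p1 * z2 - z1 * p2) - (p1 * z2 - z1 * p2) * m1 = -(z1 * z2 + z1 * z2) - m1 * p2 := by
  linear_combination (norm := noncomm_ring) (-p1) * hzm + z1 * hpm - r3 * z2 - r2 * p2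

theorem alg_I4 {R : Type} [Ring R] (z1 p1 z2 p2 m2 : R)
    (hmp : m2 * p1 = p1 * m2) (hmz : m2 * z1 = z1 * m2)
    (r2 : m2 * z2 - z2 * m2 = m2) (r3 : p2 * m2 - m2 * p2 = z2 + z2) :
    m2 * (p1 * z2 - z1 * p2) - (p1 * z2 - z1 * p2) * m2 = p1 * m2 + (z1 * z2 + z1 * z2) := by
  linear_combination (norm := noncomm_ring) hmp * z2 - hmz * p2 + p1 * r2 + z1 * r3

theorem alg_mono {R : Type} [Ring R] (ex ux kx ky uy ey : R) (c1 : ky * ex = ex * ky)
    (c2 : ky * ux = ux * ky) (c3 : uy * kx = kx * uy) (c4 : ky * kx = kx * ky) :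
    ky * ex * ux * (uy * (kx * ey)) = ex * ux * kx * (ky * uy * ey) := by
  linear_combination (norm := noncomm_ring) c1 * ux * uy * kx * ey + ex * c2 * uy * kx * ey +
    ex * ux * ky * c3 * ey + ex * ux * c4 * uy * ey

variable {V : Type} [Fintype V] [DecidableEq V] (d : ℕ)

def Sz (x : V) : Matrix (V → Fin (d + 1)) (V → Fin (d + 1)) ℝ := siteOp x (szR d)

def Sp (x : V) : Matrix (V → Fin (d + 1)) (V → Fin (d + 1)) ℝ := siteOp x (spR d)

def Sm (x : V) : Matrix (V → Fin (d + 1)) (V → Fin (d + 1)) ℝ := siteOp x (spR d)ᵀ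

theorem Sp_transpose (x : V) : (Sp d x)ᵀ = Sm d x := by
  unfold Sp Sm
  rw [siteOp_transpose]

theorem Sm_transpose (x : V) : (Sm d x)ᵀ = Sp d x := by
  unfold Sp Sm
  rw [siteOp_transpose, Matrix.transpose_transpose]

theorem Sz_transpose (x : V) : (Sz d x)ᵀ = Sz d x := by
  unfold Sz
  rw [siteOp_transpose, szR_transpose]

theorem rel1 (x : V) : Sz d x * Sp d x - Sp d x * Sz d x = Sp d x := by
  unfold Sz Sp
  rw [← siteOp_mul, ← siteOp_mul, ← siteOp_sub, local_comm_zp]

theorem rel2 (x : V) : Sm d x * Sz d x - Sz d x * Sm d x = Sm d x := by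
  have h := congrArg Matrix.transpose (rel1 d x)
  rw [Matrix.transpose_sub, Matrix.transpose_mul, Matrix.transpose_mul, Sp_transpose,
    Sz_transpose] at h
  exact h

theorem rel3 (x : V) : Sp d x * Sm d x - Sm d x * Sp d x = Sz d x + Sz d x := by
  unfold Sz Sp Sm
  rw [← siteOp_mul, ← siteOp_mul, ← siteOp_sub, local_comm_pm, ← siteOp_add, two_smul]

/-- Twice the Heisenberg interaction. -/
def hb2 (x y : V) : Matrix (V → Fin (d + 1)) (V → Fin (d + 1)) ℝ :=
  Sz d x * Sz d y + Sz d x * Sz d y + Sp d x * Sm d y + Sm d x * Sp d y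

def hbond (x y : V) : Matrix (V → Fin (d + 1)) (V → Fin (d + 1)) ℝ := (1 / 2 : ℝ) • hb2 d x y

def Top (x y : V) : Matrix (V → Fin (d + 1)) (V → Fin (d + 1)) ℝ :=
  Sp d x * Sz d y - Sz d x * Sp d y

theorem hb2_symm (x y : V) (hxy : x ≠ y) : hb2 d x y = hb2 d y x := by
  unfold hb2 Sz Sp Sm
  rw [siteOp_comm x y hxy (szR d) (szR d), siteOp_comm x y hxy (spR d) (spR d)ᵀ,
    siteOp_comm x y hxy (spR d)ᵀ (spR d)]
  abel

theorem hb2_transpose (x y : V) (hxy : x ≠ y) : (hb2 d x y)ᵀ = hb2 d x y := by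
  unfold hb2
  rw [Matrix.transpose_add, Matrix.transpose_add, Matrix.transpose_add, Matrix.transpose_mul,
    Matrix.transpose_mul, Matrix.transpose_mul, Sz_transpose, Sz_transpose, Sp_transpose,
    Sp_transpose, Sm_transpose, Sm_transpose]
  unfold Sz Sp Sm
  rw [siteOp_comm y x hxy.symm (szR d) (szR d), siteOp_comm y x hxy.symm (spR d) (spR d)ᵀ,
    siteOp_comm y x hxy.symm (spR d)ᵀ (spR d)]
  abel

theorem hbond_transpose (x y : V) (hxy : x ≠ y) : (hbond d x y)ᵀ = hbond d x y := by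
  unfold hbond
  rw [Matrix.transpose_smul, hb2_transpose d x y hxy]

theorem half_two (X : Matrix (V → Fin (d + 1)) (V → Fin (d + 1)) ℝ) : (1 / 2 : ℝ) • (X + X) = X := by
  rw [← two_smul ℝ X, smul_smul]
  norm_num

theorem comm_hbond_self (x y : V) (hxy : x ≠ y) :
    hbond d x y * Sp d x - Sp d x * hbond d x y = Top d x y := by
  unfold hbond
  rw [Matrix.smul_mul, Matrix.mul_smul, ← smul_sub]
  have h := alg_I1 (Sz d x) (Sp d x) (Sm d x) (Sz d y) (Sp d y) (Sm d y)
    (siteOp_comm y x hxy.symm _ _) (siteOp_comm y x hxy.symm _ _) (siteOp_comm y x hxy.symm _ _)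
    (rel1 d x) (rel3 d x)
  unfold hb2
  rw [h]
  exact half_two d _

theorem comm_hbond_other (x y : V) (hxy : x ≠ y) :
    hbond d x y * Sp d y - Sp d y * hbond d x y = Top d y x := by
  have h := comm_hbond_self d y x hxy.symm
  unfold hbond at h ⊢
  rw [hb2_symm d x y hxy]
  exact h

theorem comm_hbond_third (x y z : V) (hzx : z ≠ x) (hzy : z ≠ y) :
    hbond d x y * Sp d z - Sp d z * hbond d x y = 0 := by
  have c1 : ∀ A : Matrix (Fin (d + 1)) (Fin (d + 1)) ℝ, Commute (siteOp x A) (Sp d z) :=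
    fun A => siteOp_commute x z hzx.symm A _
  have c2 : ∀ A : Matrix (Fin (d + 1)) (Fin (d + 1)) ℝ, Commute (siteOp y A) (Sp d z) :=
    fun A => siteOp_commute y z hzy.symm A _
  have hc : Commute (hbond d x y) (Sp d z) := by
    unfold hbond hb2 Sz Sp Sm
    apply Commute.smul_left
    exact (((c1 _).mul_left (c2 _)).add_left ((c1 _).mul_left (c2 _))).add_left
      ((c1 _).mul_left (c2 _)) |>.add_left ((c1 _).mul_left (c2 _))
  exact sub_eq_zero.2 hc.eq

theorem comm_hbond_Sp (x y z : V) (hxy : x ≠ y) :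
    hbond d x y * Sp d z - Sp d z * hbond d x y =
      (if z = x then Top d x y else 0) + (if z = y then Top d y x else 0) := by
  by_cases hzx : z = x
  · subst hzx
    rw [if_pos rfl, if_neg hxy, add_zero]
    exact comm_hbond_self d z y hxy
  · by_cases hzy : z = y
    · subst hzy
      rw [if_neg hzx, if_pos rfl, zero_add]
      exact comm_hbond_other d x z hxy
    · rw [if_neg hzx, if_neg hzy, add_zero]
      exact comm_hbond_third d x y z hzx hzy

/-- The real Hamiltonian for a general finite graph given by a relation `adj` (ordered pairs). -/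
def hamR (adj : V → V → Prop) [DecidableRel adj] : Matrix (V → Fin (d + 1)) (V → Fin (d + 1)) ℝ :=
  -(1 / 2 : ℝ) • ∑ x : V, ∑ y : V, if adj x y then hbond d x y else 0

def magR : Matrix (V → Fin (d + 1)) (V → Fin (d + 1)) ℝ := ∑ x : V, Sz d x

/-- `H - h M`. -/
def hamH (adj : V → V → Prop) [DecidableRel adj] (h : ℝ) :
    Matrix (V → Fin (d + 1)) (V → Fin (d + 1)) ℝ := hamR d adj - h • magR d

/-- The operator `∑ φ(x) S^+_x`. -/
def Aop (φ : V → ℝ) : Matrix (V → Fin (d + 1)) (V → Fin (d + 1)) ℝ := ∑ x : V, φ x • Sp d x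

theorem Aop_transpose (φ : V → ℝ) : (Aop d φ)ᵀ = ∑ x : V, φ x • Sm d x := by
  unfold Aop
  rw [Matrix.transpose_sum]
  refine Finset.sum_congr rfl fun x _ => ?_
  rw [Matrix.transpose_smul, Sp_transpose]

theorem magR_transpose : (magR d : Matrix (V → Fin (d + 1)) (V → Fin (d + 1)) ℝ)ᵀ = magR d := by
  unfold magR
  rw [Matrix.transpose_sum]
  exact Finset.sum_congr rfl fun x _ => Sz_transpose d x

theorem hamR_transpose (adj : V → V → Prop) [DecidableRel adj] (hirr : ∀ x, ¬ adj x x) :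
    (hamR d adj)ᵀ = hamR d adj := by
  unfold hamR
  rw [Matrix.transpose_smul, Matrix.transpose_sum]
  congr 1
  refine Finset.sum_congr rfl fun x _ => ?_
  rw [Matrix.transpose_sum]
  refine Finset.sum_congr rfl fun y _ => ?_
  by_cases hxy : adj x y
  · rw [if_pos hxy]
    have hne : x ≠ y := by
      rintro rfl
      exact hirr x hxy
    exact hbond_transpose d x y hne
  · rw [if_neg hxy, Matrix.transpose_zero]

theorem hamH_transpose (adj : V → V → Prop) [DecidableRel adj] (hirr : ∀ x, ¬ adj x x) (h : ℝ) :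
    (hamH d adj h)ᵀ = hamH d adj h := by
  unfold hamH
  rw [Matrix.transpose_sub, Matrix.transpose_smul, hamR_transpose d adj hirr, magR_transpose]

theorem comm_ham_Sp (adj : V → V → Prop) [DecidableRel adj] (hirr : ∀ x, ¬ adj x x)
    (hsymm : ∀ x y, adj x y → adj y x) (z : V) :
    hamR d adj * Sp d z - Sp d z * hamR d adj = -∑ y : V, if adj z y then Top d z y else 0 := by
  unfold hamR
  rw [Matrix.smul_mul, Matrix.mul_smul, ← smul_sub, Finset.sum_mul, Finset.mul_sum,
    ← Finset.sum_sub_distrib]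
  have h1 : ∀ x : V, (∑ y : V, if adj x y then hbond d x y else 0) * Sp d z -
      Sp d z * ∑ y : V, (if adj x y then hbond d x y else 0) =
      ∑ y : V, ((if z = x then (if adj x y then Top d x y else 0) else 0) +
        (if z = y then (if adj x y then Top d y x else 0) else 0)) := by
    intro x
    rw [Finset.sum_mul, Finset.mul_sum, ← Finset.sum_sub_distrib]
    refine Finset.sum_congr rfl fun y _ => ?_
    by_cases hxy : adj x y
    · have hne : x ≠ y := by
        rintro rfl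
        exact hirr x hxy
      simp only [if_pos hxy]
      exact comm_hbond_Sp d x y z hne
    · simp only [if_neg hxy]
      simp
  rw [Finset.sum_congr rfl fun x _ => h1 x]
  simp only [Finset.sum_add_distrib]
  have h2 : ∑ x : V, ∑ y : V, (if z = x then (if adj x y then Top d x y else 0) else 0) =
      ∑ y : V, if adj z y then Top d z y else 0 := by
    rw [Finset.sum_eq_single z]
    · simp
    · intro x _ hx
      simp [Ne.symm hx]
    · intro hz
      exact absurd (Finset.mem_univ z) hz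
  have h3 : ∑ x : V, ∑ y : V, (if z = y then (if adj x y then Top d y x else 0) else 0) =
      ∑ y : V, if adj z y then Top d z y else 0 := by
    refine Finset.sum_congr rfl fun x _ => ?_
    rw [Finset.sum_ite_eq]
    simp only [Finset.mem_univ, if_true]
    by_cases hxz : adj x z
    · rw [if_pos hxz, if_pos (hsymm x z hxz)]
    · have : ¬ adj z x := fun h' => hxz (hsymm z x h')
      rw [if_neg hxz, if_neg this]
  rw [h2, h3, ← two_smul ℝ, smul_smul]
  norm_num

theorem comm_Sz_Sp (x z : V) :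
    Sz d x * Sp d z - Sp d z * Sz d x = if z = x then Sp d z else 0 := by
  by_cases hzx : z = x
  · subst hzx
    rw [if_pos rfl]
    exact rel1 d z
  · rw [if_neg hzx]
    exact sub_eq_zero.2 (siteOp_comm x z (Ne.symm hzx) _ _)

theorem comm_mag_Sp (z : V) : magR d * Sp d z - Sp d z * magR d = Sp d z := by
  unfold magR
  rw [Finset.sum_mul, Finset.mul_sum, ← Finset.sum_sub_distrib]
  simp only [comm_Sz_Sp]
  rw [Finset.sum_ite_eq]
  simp

theorem comm_hamH_Sp (adj : V → V → Prop) [DecidableRel adj] (hirr : ∀ x, ¬ adj x x)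
    (hsymm : ∀ x y, adj x y → adj y x) (h : ℝ) (z : V) :
    hamH d adj h * Sp d z - Sp d z * hamH d adj h =
      -(∑ y : V, if adj z y then Top d z y else 0) - h • Sp d z := by
  unfold hamH
  have e : (hamR d adj - h • magR d) * Sp d z - Sp d z * (hamR d adj - h • magR d) =
      (hamR d adj * Sp d z - Sp d z * hamR d adj) - h • (magR d * Sp d z - Sp d z * magR d) := by
    rw [sub_mul, mul_sub, Matrix.smul_mul, Matrix.mul_smul, smul_sub]
    abel
  rw [e, comm_ham_Sp d adj hirr hsymm, comm_mag_Sp]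

theorem comm_Sm_Sp (x z : V) :
    Sm d x * Sp d z - Sp d z * Sm d x = if x = z then -(Sz d z + Sz d z) else 0 := by
  by_cases hzx : x = z
  · subst hzx
    rw [if_pos rfl, ← rel3 d x]
    abel
  · rw [if_neg hzx]
    exact sub_eq_zero.2 (siteOp_comm x z hzx _ _)

theorem comm_Sm_T (x z y : V) (hzy : z ≠ y) :
    Sm d x * Top d z y - Top d z y * Sm d x =
      (if x = z then -(Sz d z * Sz d y + Sz d z * Sz d y) - Sm d z * Sp d y else 0) +
        (if x = y then Sp d z * Sm d y + (Sz d z * Sz d y + Sz d z * Sz d y) else 0) := by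
  by_cases hxz : x = z
  · subst hxz
    rw [if_pos rfl, if_neg hzy, add_zero]
    exact alg_I3 (Sz d x) (Sp d x) (Sm d x) (Sz d y) (Sp d y)
      (siteOp_comm y x hzy.symm _ _) (siteOp_comm y x hzy.symm _ _) (rel2 d x) (rel3 d x)
  · by_cases hxy : x = y
    · subst hxy
      rw [if_neg hxz, if_pos rfl, zero_add]
      exact alg_I4 (Sz d z) (Sp d z) (Sz d x) (Sp d x) (Sm d x)
        (siteOp_comm x z hxz _ _) (siteOp_comm x z hxz _ _) (rel2 d x) (rel3 d x)
    · rw [if_neg hxz, if_neg hxy, add_zero]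
      have c1 : ∀ A : Matrix (Fin (d + 1)) (Fin (d + 1)) ℝ, Commute (Sm d x) (siteOp z A) :=
        fun A => siteOp_commute x z hxz _ A
      have c2 : ∀ A : Matrix (Fin (d + 1)) (Fin (d + 1)) ℝ, Commute (Sm d x) (siteOp y A) :=
        fun A => siteOp_commute x y hxy _ A
      have hc : Commute (Sm d x) (Top d z y) := by
        unfold Top Sz Sp
        exact ((c1 _).mul_right (c2 _)).sub_right ((c1 _).mul_right (c2 _))
      exact sub_eq_zero.2 hc.eq

theorem comm_Am_Sp (φ : V → ℝ) (z : V) :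
    (Aop d φ)ᵀ * Sp d z - Sp d z * (Aop d φ)ᵀ = -(φ z • (Sz d z + Sz d z)) := by
  rw [Aop_transpose, Finset.sum_mul, Finset.mul_sum, ← Finset.sum_sub_distrib]
  have h1 : ∀ x : V, φ x • Sm d x * Sp d z - Sp d z * φ x • Sm d x =
      if x = z then -(φ z • (Sz d z + Sz d z)) else 0 := by
    intro x
    rw [Matrix.smul_mul, Matrix.mul_smul, ← smul_sub, comm_Sm_Sp]
    by_cases hxz : x = z
    · subst hxz
      simp
    · simp [hxz]
  rw [Finset.sum_congr rfl fun x _ => h1 x, Finset.sum_ite_eq']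
  simp

theorem comm_Am_T (φ : V → ℝ) (z y : V) (hzy : z ≠ y) :
    (Aop d φ)ᵀ * Top d z y - Top d z y * (Aop d φ)ᵀ =
      φ z • (-(Sz d z * Sz d y + Sz d z * Sz d y) - Sm d z * Sp d y) +
        φ y • (Sp d z * Sm d y + (Sz d z * Sz d y + Sz d z * Sz d y)) := by
  rw [Aop_transpose, Finset.sum_mul, Finset.mul_sum, ← Finset.sum_sub_distrib]
  have h1 : ∀ x : V, φ x • Sm d x * Top d z y - Top d z y * φ x • Sm d x =
      (if x = z then φ z • (-(Sz d z * Sz d y + Sz d z * Sz d y) - Sm d z * Sp d y) else 0) +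
        (if x = y then φ y • (Sp d z * Sm d y + (Sz d z * Sz d y + Sz d z * Sz d y)) else 0) := by
    intro x
    rw [Matrix.smul_mul, Matrix.mul_smul, ← smul_sub, comm_Sm_T d x z y hzy, smul_add]
    congr 1
    · by_cases hxz : x = z
      · subst hxz
        simp
      · simp [hxz]
    · by_cases hxy : x = y
      · subst hxy
        simp
      · simp [hxy]
  rw [Finset.sum_congr rfl fun x _ => h1 x, Finset.sum_add_distrib, Finset.sum_ite_eq',
    Finset.sum_ite_eq']
  simp

theorem Aop_comm (φ : V → ℝ) (B : Matrix (V → Fin (d + 1)) (V → Fin (d + 1)) ℝ) :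
    Aop d φ * B - B * Aop d φ = ∑ z : V, φ z • (Sp d z * B - B * Sp d z) := by
  unfold Aop
  rw [Finset.sum_mul, Finset.mul_sum, ← Finset.sum_sub_distrib]
  refine Finset.sum_congr rfl fun z _ => ?_
  rw [Matrix.smul_mul, Matrix.mul_smul, ← smul_sub]

/-- `[A, Aᵀ] = 2 ∑ φ(x)² S^3_x`. -/
theorem comm_A (φ : V → ℝ) :
    Aop d φ * (Aop d φ)ᵀ - (Aop d φ)ᵀ * Aop d φ = ∑ x : V, (2 * φ x ^ 2) • Sz d x := by
  rw [Aop_comm]
  refine Finset.sum_congr rfl fun z _ => ?_
  have h := comm_Am_Sp d φ z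
  have e : Sp d z * (Aop d φ)ᵀ - (Aop d φ)ᵀ * Sp d z = φ z • (Sz d z + Sz d z) := by
    rw [← neg_sub, h, neg_neg]
  rw [e, smul_smul, ← two_smul ℝ (Sz d z), smul_smul]
  congr 1
  ring

end

end Vale.Agent.Lib.P361.Gen
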