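import Vale.Agent.Lib.P361.GLimit

namespace Vale.Agent.Lib.P361.Gen

set_option linter.unusedSectionVars false
set_option linter.unusedVariables false

noncomputable section

open Filter Topology MeasureTheory

/-- The truncated Gaussian integral `∫₀^R exp(-u²) du`. -/
def Gf (R : ℝ) : ℝ := ∫ u in (0 : ℝ)..R, Real.exp (-u ^ 2)

theorem cont_gauss1 : Continuous fun u : ℝ => Real.exp (-u ^ 2) := by
  fun_prop

theorem Gf_nonneg {R : ℝ} (h0 : 0 ≤ R) : 0 ≤ Gf R := by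
  unfold Gf
  apply intervalIntegral.integral_nonneg h0
  intro u _
  exact (Real.exp_pos _).le

theorem Gf_mono {R R' : ℝ} (h0 : 0 ≤ R) (h : R ≤ R') : Gf R ≤ Gf R' := by
  unfold Gf
  apply intervalIntegral.integral_mono_interval le_rfl h0 h
  · exact Filter.Eventually.of_forall fun x => (Real.exp_pos _).le
  · exact cont_gauss1.intervalIntegrable _ _

theorem Gf_tendsto : Tendsto Gf atTop (𝓝 (Real.sqrt Real.pi / 2)) := by
  have h1 := integral_gaussian_Ioi 1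
  have hint : IntegrableOn (fun u : ℝ => Real.exp (-u ^ 2)) (Set.Ioi 0) := by
    have := (integrable_exp_neg_mul_sq (b := 1) one_pos).integrableOn (s := Set.Ioi (0 : ℝ))
    simpa using this
  have h2 := intervalIntegral_tendsto_integral_Ioi (μ := volume) 0 hint tendsto_id
  have e : ∫ x in Set.Ioi (0 : ℝ), Real.exp (-x ^ 2) = Real.sqrt Real.pi / 2 := by
    simpa using h1
  rw [e] at h2
  exact h2

theorem Jf_eq {s : ℝ} (hs : 0 < s) : Jf s = Gf (Real.pi * Real.sqrt s) / (Real.pi * Real.sqrt s) := by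
  unfold Jf Gf
  have hsq : 0 < Real.sqrt s := Real.sqrt_pos.2 hs
  have h := intervalIntegral.integral_comp_mul_left (a := (0 : ℝ)) (b := Real.pi)
    (fun u => Real.exp (-u ^ 2)) hsq.ne'
  rw [mul_zero, smul_eq_mul] at h
  have e : ∫ y in (0 : ℝ)..Real.pi, Real.exp (-(s * y ^ 2)) =
      ∫ y in (0 : ℝ)..Real.pi, Real.exp (-(Real.sqrt s * y) ^ 2) := by
    refine intervalIntegral.integral_congr fun y _ => ?_
    show Real.exp (-(s * y ^ 2)) = Real.exp (-(Real.sqrt s * y) ^ 2)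
    rw [mul_pow, Real.sq_sqrt hs.le]
  rw [e, h, mul_comm (Real.sqrt s) Real.pi]
  have hπ := Real.pi_pos
  field_simp

/-- The inequality for the right derivative, after inserting the Gaussian integrals. -/
theorem bloch_a (d : ℕ) (hd : 1 ≤ d) (β : ℝ) (hβ : 0 < β) (m : ℝ)
    (hm : HasDerivWithinAt (pressure d β) m (Set.Ioi 0) 0) (a : ℝ) (ha : 0 < a) (ham : a < m)
    (n₀ : ℕ) :
    16 * (a ^ 2 * Real.sqrt a) * Gf (Real.pi * Real.sqrt (β * (d : ℝ) / 2)) ^ 3 *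
      (∑ n ∈ Finset.range n₀, 1 / (((n : ℝ) + 1) * Real.sqrt ((n : ℝ) + 1))) /
        (Real.pi ^ 3 * (d : ℝ) ^ 4) ≤ β * Real.sqrt β * ((d : ℝ) / 2 - a) := by
  have hlim := lim_h d β hβ m hm a ha ham n₀
  have hπ := Real.pi_pos
  have hdpos : (0 : ℝ) < (d : ℝ) := by
    have : 0 < d := by omega
    exact_mod_cast this
  have had : a ≤ (d : ℝ) / 2 := by
    have h0 : 0 ≤ 2 * a * ∑ n ∈ Finset.range n₀,
        (Jf (((n : ℝ) + 1) * β * ((d : ℝ) ^ 2 / 4) / a)) ^ 3 := by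
      apply mul_nonneg (by positivity)
      exact Finset.sum_nonneg fun n _ => pow_nonneg (Jf_nonneg _) 3
    have h1 : 0 ≤ (d : ℝ) * ((d : ℝ) / 2 - a) := le_trans h0 hlim
    by_contra hc
    rw [not_le] at hc
    nlinarith
  obtain ⟨G, hGdef⟩ : ∃ G : ℝ, Gf (Real.pi * Real.sqrt (β * (d : ℝ) / 2)) = G := ⟨_, rfl⟩
  have hG : 0 ≤ G := by
    rw [← hGdef]
    exact Gf_nonneg (by positivity)
  rw [hGdef]
  have hsa : 0 < Real.sqrt a := Real.sqrt_pos.2 ha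
  have hsb : 0 < Real.sqrt β := Real.sqrt_pos.2 hβ
  have hterm : ∀ n : ℕ, 8 * G ^ 3 * (a * Real.sqrt a) / (Real.pi ^ 3 * (d : ℝ) ^ 3 * (β * Real.sqrt β)) *
      (1 / (((n : ℝ) + 1) * Real.sqrt ((n : ℝ) + 1))) ≤
      (Jf (((n : ℝ) + 1) * β * ((d : ℝ) ^ 2 / 4) / a)) ^ 3 := by
    intro n
    have hn1 : (0 : ℝ) < (n : ℝ) + 1 := by positivity
    have hsn : 0 < Real.sqrt ((n : ℝ) + 1) := Real.sqrt_pos.2 hn1
    have hs : 0 < ((n : ℝ) + 1) * β * ((d : ℝ) ^ 2 / 4) / a := by positivity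
    rw [Jf_eq hs]
    have hsq : Real.sqrt (((n : ℝ) + 1) * β * ((d : ℝ) ^ 2 / 4) / a) =
        Real.sqrt ((n : ℝ) + 1) * Real.sqrt β * ((d : ℝ) / 2) / Real.sqrt a := by
      have e : ((n : ℝ) + 1) * β * ((d : ℝ) ^ 2 / 4) / a = (((n : ℝ) + 1) * β * ((d : ℝ) / 2) ^ 2) / a := by
        ring
      rw [e, Real.sqrt_div (by positivity), Real.sqrt_mul (by positivity),
        Real.sqrt_mul (by positivity), Real.sqrt_sq (by positivity)]
    have hsle : β * (d : ℝ) / 2 ≤ ((n : ℝ) + 1) * β * ((d : ℝ) ^ 2 / 4) / a := by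
      rw [le_div_iff₀ ha]
      have hn0 : (0 : ℝ) ≤ (n : ℝ) := Nat.cast_nonneg n
      have h1 : β * (d : ℝ) / 2 * a ≤ β * (d : ℝ) / 2 * ((d : ℝ) / 2) :=
        mul_le_mul_of_nonneg_left had (by positivity)
      have h2 : 0 ≤ (n : ℝ) * β * ((d : ℝ) ^ 2 / 4) := by positivity
      nlinarith
    have hmonoG : G ≤ Gf (Real.pi * Real.sqrt (((n : ℝ) + 1) * β * ((d : ℝ) ^ 2 / 4) / a)) := by
      rw [← hGdef]
      exact Gf_mono (by positivity)
        (mul_le_mul_of_nonneg_left (Real.sqrt_le_sqrt hsle) hπ.le)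
    have hden : 0 < Real.pi * Real.sqrt (((n : ℝ) + 1) * β * ((d : ℝ) ^ 2 / 4) / a) := by
      apply mul_pos hπ
      exact Real.sqrt_pos.2 hs
    have h1 : G / (Real.pi * Real.sqrt (((n : ℝ) + 1) * β * ((d : ℝ) ^ 2 / 4) / a)) ≤
        Gf (Real.pi * Real.sqrt (((n : ℝ) + 1) * β * ((d : ℝ) ^ 2 / 4) / a)) /
          (Real.pi * Real.sqrt (((n : ℝ) + 1) * β * ((d : ℝ) ^ 2 / 4) / a)) :=
      div_le_div_of_nonneg_right hmonoG hden.le
    have h2 := pow_le_pow_left₀ (div_nonneg hG hden.le) h1 3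
    refine le_trans (le_of_eq ?_) h2
    rw [hsq]
    obtain ⟨ra, hra⟩ : ∃ ra : ℝ, Real.sqrt a = ra := ⟨_, rfl⟩
    obtain ⟨rb, hrb⟩ : ∃ rb : ℝ, Real.sqrt β = rb := ⟨_, rfl⟩
    obtain ⟨rn, hrn⟩ : ∃ rn : ℝ, Real.sqrt ((n : ℝ) + 1) = rn := ⟨_, rfl⟩
    have ea : a = ra ^ 2 := by rw [← hra, Real.sq_sqrt ha.le]
    have eb : β = rb ^ 2 := by rw [← hrb, Real.sq_sqrt hβ.le]
    have en : (n : ℝ) + 1 = rn ^ 2 := by rw [← hrn, Real.sq_sqrt hn1.le]
    rw [hra] at hsa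
    rw [hrb] at hsb
    rw [hrn] at hsn
    rw [hra, hrb, hrn, en, ea, eb]
    field_simp
    ring
  have hsum := Finset.sum_le_sum (s := Finset.range n₀) fun n _ => hterm n
  rw [← Finset.mul_sum] at hsum
  obtain ⟨Sg, hSg⟩ : ∃ Sg : ℝ, ∑ n ∈ Finset.range n₀, 1 / (((n : ℝ) + 1) * Real.sqrt ((n : ℝ) + 1)) = Sg :=
    ⟨_, rfl⟩
  rw [hSg] at hsum ⊢
  have key : 2 * a * (8 * G ^ 3 * (a * Real.sqrt a) / (Real.pi ^ 3 * (d : ℝ) ^ 3 * (β * Real.sqrt β)) * Sg) ≤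
      (d : ℝ) * ((d : ℝ) / 2 - a) :=
    le_trans (mul_le_mul_of_nonneg_left hsum (by positivity)) hlim
  have e : 16 * (a ^ 2 * Real.sqrt a) * G ^ 3 * Sg / (Real.pi ^ 3 * (d : ℝ) ^ 4) =
      (2 * a * (8 * G ^ 3 * (a * Real.sqrt a) / (Real.pi ^ 3 * (d : ℝ) ^ 3 * (β * Real.sqrt β)) * Sg)) *
        (β * Real.sqrt β / (d : ℝ)) := by
    field_simp
    ring
  have e2 : β * Real.sqrt β * ((d : ℝ) / 2 - a) =
      ((d : ℝ) * ((d : ℝ) / 2 - a)) * (β * Real.sqrt β / (d : ℝ)) := by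
    field_simp
  rw [e, e2]
  exact mul_le_mul_of_nonneg_right key (by positivity)

end

end Vale.Agent.Lib.P361.Gen
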