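import Vale.Agent.Lib.P361.GAlg

namespace Vale.Agent.Lib.P361.Gen

open Matrix

set_option linter.unusedSectionVars false
set_option linter.unusedVariables false

noncomputable section

section general

variable {n : Type} [Fintype n] [DecidableEq n]

theorem gibbs_amgm (U : Matrix n n ℝ) (w : n → ℝ) (hw : ∀ k, 0 ≤ w k) (X Y : Matrix n n ℝ) :
    2 * gibbs U w (Xᵀ * Y) ≤ gibbs U w (Xᵀ * X) + gibbs U w (Yᵀ * Y) := by
  have h := gibbs_pos U w hw (X - Y)
  have e : (X - Y)ᵀ * (X - Y) = Xᵀ * X - Xᵀ * Y - (Xᵀ * Y)ᵀ + Yᵀ * Y := by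
    rw [Matrix.transpose_sub, Matrix.transpose_mul, Matrix.transpose_transpose]
    noncomm_ring
  rw [e, gibbs_add, gibbs_sub, gibbs_sub, gibbs_transpose] at h
  linarith

theorem gibbs_amgm' (U : Matrix n n ℝ) (w : n → ℝ) (hw : ∀ k, 0 ≤ w k) (X Y : Matrix n n ℝ) :
    -(gibbs U w (Xᵀ * X) + gibbs U w (Yᵀ * Y)) ≤ 2 * gibbs U w (Xᵀ * Y) := by
  have h := gibbs_pos U w hw (X + Y)
  have e : (X + Y)ᵀ * (X + Y) = Xᵀ * X + Xᵀ * Y + (Xᵀ * Y)ᵀ + Yᵀ * Y := by
    rw [Matrix.transpose_add, Matrix.transpose_mul, Matrix.transpose_transpose]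
    noncomm_ring
  rw [e, gibbs_add, gibbs_add, gibbs_add, gibbs_transpose] at h
  linarith

theorem gibbs_shift (U : Matrix n n ℝ) (w : n → ℝ) (hw : ∀ k, 0 ≤ w k) (G Us P : Matrix n n ℝ)
    (h1 : Us * Usᵀ = 1 - P) (h2 : Pᵀ * P = P) :
    gibbs U w ((Usᵀ * G)ᵀ * (Usᵀ * G)) ≤ gibbs U w (Gᵀ * G) := by
  have e : (Usᵀ * G)ᵀ * (Usᵀ * G) = Gᵀ * G - (P * G)ᵀ * (P * G) := by
    rw [Matrix.transpose_mul, Matrix.transpose_transpose, Matrix.transpose_mul]
    calc Gᵀ * Us * (Usᵀ * G) = Gᵀ * (Us * Usᵀ) * G := by simp only [Matrix.mul_assoc]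
      _ = Gᵀ * (1 - Pᵀ * P) * G := by rw [h1, h2]
      _ = Gᵀ * G - Gᵀ * (Pᵀ * P) * G := by
          rw [Matrix.mul_sub, Matrix.sub_mul, Matrix.mul_one]
      _ = Gᵀ * G - Gᵀ * Pᵀ * (P * G) := by simp only [Matrix.mul_assoc]
  rw [e, gibbs_sub]
  have := gibbs_pos U w hw (P * G)
  linarith

theorem gibbs_prod (U : Matrix n n ℝ) (w : n → ℝ) (c s t : ℝ) (a b : Matrix n n ℝ) :
    gibbs U w ((c • (1 : Matrix n n ℝ) + s • a) * (c • (1 : Matrix n n ℝ) + t • b)) =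
      c ^ 2 * gibbs U w 1 + c * t * gibbs U w b + c * s * gibbs U w a + s * t * gibbs U w (a * b) := by
  have e : (c • (1 : Matrix n n ℝ) + s • a) * (c • (1 : Matrix n n ℝ) + t • b) =
      (c ^ 2) • (1 : Matrix n n ℝ) + (c * t) • b + (c * s) • a + (s * t) • (a * b) := by
    rw [add_mul, mul_add, mul_add, smul_mul_smul_comm, smul_mul_smul_comm, smul_mul_smul_comm,
      smul_mul_smul_comm, Matrix.one_mul, Matrix.one_mul, Matrix.mul_one]
    rw [show c * c = c ^ 2 by ring, show s * c = c * s by ring]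
    abel
  rw [e, gibbs_add, gibbs_add, gibbs_add, gibbs_smul, gibbs_smul, gibbs_smul, gibbs_smul]

theorem dc_reduce (U : Matrix n n ℝ) (w : n → ℝ) (H A : Matrix n n ℝ) (hH : Hᵀ = H) :
    gibbs U w (Aᵀ * (H * A - A * H) + A * (H * Aᵀ - Aᵀ * H)) =
      gibbs U w (Aᵀ * (H * A - A * H) - (H * A - A * H) * Aᵀ) := by
  have e : Aᵀ * (H * A - A * H) + A * (H * Aᵀ - Aᵀ * H) =
      (Aᵀ * (H * A - A * H) - (H * A - A * H) * Aᵀ) + (H * A * Aᵀ - (H * A * Aᵀ)ᵀ) := by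
    rw [Matrix.transpose_mul, Matrix.transpose_mul, Matrix.transpose_transpose, hH]
    noncomm_ring
  rw [e, gibbs_add, gibbs_sub (X := H * A * Aᵀ), gibbs_transpose]
  ring

/-- Bessel-type sum rule for the state. -/
theorem gibbs_bessel {V ι : Type} [Fintype V] (K : Finset ι) (a b : ι → V → ℝ)
    (hbes : ∀ v : V → ℝ,
      ∑ q ∈ K, ((∑ x, a q x * v x) ^ 2 + (∑ x, b q x * v x) ^ 2) ≤ ∑ x, v x ^ 2)
    (U : Matrix n n ℝ) (w : n → ℝ) (hw : ∀ k, 0 ≤ w k) (B : V → Matrix n n ℝ) :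
    ∑ q ∈ K, (gibbs U w ((∑ x, a q x • B x)ᵀ * (∑ x, a q x • B x)) +
      gibbs U w ((∑ x, b q x • B x)ᵀ * (∑ x, b q x • B x))) ≤
        ∑ x, gibbs U w ((B x)ᵀ * B x) := by
  have hform : ∀ Y : Matrix n n ℝ, gibbs U w (Yᵀ * Y) = ∑ k, w k * ∑ s, ((Y * U) s k) ^ 2 := by
    intro Y
    unfold gibbs
    refine Finset.sum_congr rfl fun k _ => ?_
    have : Uᵀ * (Yᵀ * Y) * U = (Y * U)ᵀ * (Y * U) := by
      simp [Matrix.transpose_mul, Matrix.mul_assoc]
    rw [this, diag_form1]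
  have hlin : ∀ (c : V → ℝ) (s k : n), ((∑ x, c x • B x) * U) s k = ∑ x, c x * (B x * U) s k := by
    intro c s k
    rw [Finset.sum_mul, Matrix.sum_apply]
    refine Finset.sum_congr rfl fun x _ => ?_
    rw [Matrix.smul_mul, Matrix.smul_apply, smul_eq_mul]
  simp only [hform, hlin]
  calc ∑ q ∈ K, (∑ k, w k * ∑ s, (∑ x, a q x * (B x * U) s k) ^ 2 +
        ∑ k, w k * ∑ s, (∑ x, b q x * (B x * U) s k) ^ 2)
      = ∑ k, w k * ∑ s, ∑ q ∈ K, ((∑ x, a q x * (B x * U) s k) ^ 2 +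
          (∑ x, b q x * (B x * U) s k) ^ 2) := by
        simp only [← Finset.sum_add_distrib, ← mul_add]
        rw [Finset.sum_comm]
        refine Finset.sum_congr rfl fun k _ => ?_
        rw [← Finset.mul_sum]
        congr 1
        rw [Finset.sum_comm]
    _ ≤ ∑ k, w k * ∑ s, ∑ x, ((B x * U) s k) ^ 2 := by
        refine Finset.sum_le_sum fun k _ => mul_le_mul_of_nonneg_left ?_ (hw k)
        refine Finset.sum_le_sum fun s _ => ?_
        exact hbes (fun x => (B x * U) s k)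
    _ = ∑ x, ∑ k, w k * ∑ s, ((B x * U) s k) ^ 2 := by
        rw [Finset.sum_comm]
        refine Finset.sum_congr rfl fun k _ => ?_
        rw [← Finset.mul_sum]
        congr 1
        rw [Finset.sum_comm]

end general

variable {V : Type} [Fintype V] [DecidableEq V] (d : ℕ)

theorem Sp_factor (x : V) :
    Sp d x = siteOp x (dgE d) * siteOp x (shU d) * siteOp x (dgK d) := by
  unfold Sp
  rw [local_factor, siteOp_mul, siteOp_mul]

theorem Sm_factor (x : V) :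
    Sm d x = siteOp x (dgK d) * (siteOp x (shU d))ᵀ * siteOp x (dgE d) := by
  rw [← Sp_transpose, Sp_factor, Matrix.transpose_mul, Matrix.transpose_mul, siteOp_transpose x (dgK d),
    siteOp_transpose x (dgE d), dgK_transpose, dgE_transpose, Matrix.mul_assoc]

theorem EE_eq (x : V) : siteOp x (dgE d) * siteOp x (dgE d) =
    ((d : ℝ) / 2) • (1 : Matrix (V → Fin (d + 1)) (V → Fin (d + 1)) ℝ) + (1 : ℝ) • Sz d x := by
  unfold Sz
  rw [← siteOp_mul, local_dgE, siteOp_add, siteOp_smul, siteOp_one, one_smul]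

theorem KK_eq (x : V) : siteOp x (dgK d) * siteOp x (dgK d) =
    ((d : ℝ) / 2) • (1 : Matrix (V → Fin (d + 1)) (V → Fin (d + 1)) ℝ) + (-1 : ℝ) • Sz d x := by
  unfold Sz
  rw [← siteOp_mul, local_dgK, siteOp_sub, siteOp_smul, siteOp_one, neg_one_smul, sub_eq_add_neg]

theorem UU_eq (x : V) : siteOp x (shU d) * (siteOp x (shU d))ᵀ =
    1 - (siteOp x (prD d) : Matrix (V → Fin (d + 1)) (V → Fin (d + 1)) ℝ) := by
  rw [siteOp_transpose, ← siteOp_mul, local_shift, siteOp_sub, siteOp_one]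

theorem PP_eq (x : V) : (siteOp x (prD d) : Matrix (V → Fin (d + 1)) (V → Fin (d + 1)) ℝ)ᵀ *
    siteOp x (prD d) = siteOp x (prD d) := by
  rw [siteOp_transpose, ← siteOp_mul, local_prD]

/-- For symmetric local matrices `A`, `B`: `(A_x B_y)ᵀ (A_x B_y) = (A A)_x (B B)_y`. -/
theorem sq_two (x y : V) (hxy : x ≠ y) (A B : Matrix (Fin (d + 1)) (Fin (d + 1)) ℝ) (hA : Aᵀ = A)
    (hB : Bᵀ = B) :
    (siteOp x A * siteOp y B)ᵀ * (siteOp x A * siteOp y B) =
      (siteOp x A * siteOp x A) * (siteOp y B * siteOp y B) := by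
  rw [Matrix.transpose_mul, siteOp_transpose, siteOp_transpose, hA, hB]
  have c := siteOp_comm y x hxy.symm B A
  linear_combination (norm := noncomm_ring) c * siteOp x A * siteOp y B +
    siteOp x A * c * siteOp y B

theorem sq_one (x : V) (A : Matrix (Fin (d + 1)) (Fin (d + 1)) ℝ) (hA : Aᵀ = A) :
    (siteOp x A : Matrix (V → Fin (d + 1)) (V → Fin (d + 1)) ℝ)ᵀ * siteOp x A =
      siteOp x A * siteOp x A := by
  rw [siteOp_transpose, hA]

variable {d}

theorem two_site_aux (x y : V) (hxy : x ≠ y) :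
    Sp d x * Sm d y = ((siteOp x (shU d))ᵀ * (siteOp x (dgE d) * siteOp y (dgK d)))ᵀ *
      ((siteOp y (shU d))ᵀ * (siteOp x (dgK d) * siteOp y (dgE d))) := by
  rw [Sp_factor, Sm_factor, Matrix.transpose_mul, Matrix.transpose_transpose, Matrix.transpose_mul,
    siteOp_transpose x (dgE d), siteOp_transpose y (dgK d), dgE_transpose, dgK_transpose,
    siteOp_transpose y (shU d)]
  exact (alg_mono (siteOp x (dgE d)) (siteOp x (shU d)) (siteOp x (dgK d)) (siteOp y (dgK d))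
    (siteOp y (shU d)ᵀ) (siteOp y (dgE d)) (siteOp_comm y x hxy.symm _ _)
    (siteOp_comm y x hxy.symm _ _) (siteOp_comm y x hxy.symm _ _)
    (siteOp_comm y x hxy.symm _ _)).symm

section state

variable (U : Matrix (V → Fin (d + 1)) (V → Fin (d + 1)) ℝ) (w : (V → Fin (d + 1)) → ℝ)
  (hw : ∀ k, 0 ≤ w k)

include hw

theorem sz_upper (x : V) : gibbs U w (Sz d x) ≤ (d : ℝ) / 2 * gibbs U w 1 := by
  have h := gibbs_pos U w hw (siteOp x (dgK d))
  rw [sq_one d x _ (dgK_transpose d), KK_eq, gibbs_add, gibbs_smul, gibbs_smul] at h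
  linarith

theorem sz_lower (x : V) : -((d : ℝ) / 2 * gibbs U w 1) ≤ gibbs U w (Sz d x) := by
  have h := gibbs_pos U w hw (siteOp x (dgE d))
  rw [sq_one d x _ (dgE_transpose d), EE_eq, gibbs_add, gibbs_smul, gibbs_smul] at h
  linarith

theorem szsz_upper (x y : V) (hxy : x ≠ y) :
    gibbs U w (Sz d x * Sz d y) ≤ (d : ℝ) ^ 2 / 4 * gibbs U w 1 := by
  have h1 := gibbs_pos U w hw (siteOp x (dgE d) * siteOp y (dgK d))
  have h2 := gibbs_pos U w hw (siteOp x (dgK d) * siteOp y (dgE d))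
  rw [sq_two d x y hxy _ _ (dgE_transpose d) (dgK_transpose d), EE_eq, KK_eq, gibbs_prod] at h1
  rw [sq_two d x y hxy _ _ (dgK_transpose d) (dgE_transpose d), EE_eq, KK_eq, gibbs_prod] at h2
  nlinarith

theorem szsz_lower (x y : V) (hxy : x ≠ y) :
    -((d : ℝ) ^ 2 / 4 * gibbs U w 1) ≤ gibbs U w (Sz d x * Sz d y) := by
  have h1 := gibbs_pos U w hw (siteOp x (dgE d) * siteOp y (dgE d))
  have h2 := gibbs_pos U w hw (siteOp x (dgK d) * siteOp y (dgK d))
  rw [sq_two d x y hxy _ _ (dgE_transpose d) (dgE_transpose d), EE_eq, EE_eq, gibbs_prod] at h1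
  rw [sq_two d x y hxy _ _ (dgK_transpose d) (dgK_transpose d), KK_eq, KK_eq, gibbs_prod] at h2
  nlinarith

theorem two_site_upper (x y : V) (hxy : x ≠ y) :
    gibbs U w (Sp d x * Sm d y) ≤ (d : ℝ) ^ 2 / 4 * gibbs U w 1 - gibbs U w (Sz d x * Sz d y) := by
  have h0 := gibbs_amgm U w hw ((siteOp x (shU d))ᵀ * (siteOp x (dgE d) * siteOp y (dgK d)))
    ((siteOp y (shU d))ᵀ * (siteOp x (dgK d) * siteOp y (dgE d)))
  rw [← two_site_aux x y hxy] at h0
  have h1 := gibbs_shift U w hw (siteOp x (dgE d) * siteOp y (dgK d)) (siteOp x (shU d))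
    (siteOp x (prD d)) (UU_eq d x) (PP_eq d x)
  have h2 := gibbs_shift U w hw (siteOp x (dgK d) * siteOp y (dgE d)) (siteOp y (shU d))
    (siteOp y (prD d)) (UU_eq d y) (PP_eq d y)
  rw [sq_two d x y hxy _ _ (dgE_transpose d) (dgK_transpose d), EE_eq, KK_eq, gibbs_prod] at h1
  rw [sq_two d x y hxy _ _ (dgK_transpose d) (dgE_transpose d), EE_eq, KK_eq, gibbs_prod] at h2
  nlinarith

theorem two_site_lower (x y : V) (hxy : x ≠ y) :
    -((d : ℝ) ^ 2 / 4 * gibbs U w 1 - gibbs U w (Sz d x * Sz d y)) ≤ gibbs U w (Sp d x * Sm d y) := by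
  have h0 := gibbs_amgm' U w hw ((siteOp x (shU d))ᵀ * (siteOp x (dgE d) * siteOp y (dgK d)))
    ((siteOp y (shU d))ᵀ * (siteOp x (dgK d) * siteOp y (dgE d)))
  rw [← two_site_aux x y hxy] at h0
  have h1 := gibbs_shift U w hw (siteOp x (dgE d) * siteOp y (dgK d)) (siteOp x (shU d))
    (siteOp x (prD d)) (UU_eq d x) (PP_eq d x)
  have h2 := gibbs_shift U w hw (siteOp x (dgK d) * siteOp y (dgE d)) (siteOp y (shU d))
    (siteOp y (prD d)) (UU_eq d y) (PP_eq d y)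
  rw [sq_two d x y hxy _ _ (dgE_transpose d) (dgK_transpose d), EE_eq, KK_eq, gibbs_prod] at h1
  rw [sq_two d x y hxy _ _ (dgK_transpose d) (dgE_transpose d), EE_eq, KK_eq, gibbs_prod] at h2
  nlinarith

/-- Local sum rule: `S^- S^+ ≤ 2S (S - S^3)`. -/
theorem sumrule_local (x : V) :
    gibbs U w (Sm d x * Sp d x) ≤ (d : ℝ) * ((d : ℝ) / 2 * gibbs U w 1 - gibbs U w (Sz d x)) := by
  have h := gibbs_pos U w hw (siteOp x (dgR d))
  have e : (siteOp x (dgR d) : Matrix (V → Fin (d + 1)) (V → Fin (d + 1)) ℝ)ᵀ * siteOp x (dgR d) =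
      (d : ℝ) • (((d : ℝ) / 2) • (1 : Matrix (V → Fin (d + 1)) (V → Fin (d + 1)) ℝ) - Sz d x) -
        Sm d x * Sp d x := by
    unfold Sz Sm Sp
    rw [siteOp_transpose, ← siteOp_mul, ← local_sumrule, siteOp_sub, siteOp_smul, siteOp_sub,
      siteOp_smul, siteOp_one, siteOp_mul]
  rw [e, gibbs_sub, gibbs_smul, gibbs_sub, gibbs_smul] at h
  linarith

end state

end

end Vale.Agent.Lib.P361.Gen
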