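import Vale.Agent.Lib.P361.GFinite

namespace Vale.Agent.Lib.P361.Gen

open Matrix

set_option linter.unusedSectionVars false
set_option linter.unusedVariables false

noncomputable section

/-- The finite-volume pressure. -/
def PN (d N : ℕ) (β h : ℝ) : ℝ := Real.log (partitionFn d N β h) / (β * ((box N).card : ℝ))

theorem card_box' (N : ℕ) : ((box N).card : ℝ) = (2 * (N : ℝ) + 1) ^ 3 := by
  rw [← card_box_real, Fintype.card_coe]

/-- The finite-volume facts, with the state abstracted into real numbers. -/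
theorem fv_abstract (d N : ℕ) (β h : ℝ) (hβ : 0 < β) :
    ∃ (Z Mg : ℝ) (Nq : box N → ℝ), 0 < Z ∧
      (Real.log (partG d (adjB N) β h) - Real.log (partG d (adjB N) β 0) ≤ β * h * (Mg / Z)) ∧
      (0 < Mg → ∀ (q : box N) (x₀ : ℝ), 0 < x₀ →
        x₀ = β * ((d : ℝ) ^ 2 / 4 * (2 * (2 * Real.pi / (2 * (N : ℝ) + 1)) ^ 2 * qsq q.1) * Z /
          (2 * (1 / (2 * (N : ℝ) + 1) ^ 3) * Mg) + h) →
        bose x₀ * (2 * (1 / (2 * (N : ℝ) + 1) ^ 3) * Mg) ≤ Nq q) ∧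
      (∑ q : box N, Nq q ≤ (d : ℝ) * ((d : ℝ) / 2 * (2 * (N : ℝ) + 1) ^ 3 * Z - Mg)) := by
  have hirr := adjB_irrefl N
  have hsymm := adjB_symm N
  have hHerm : (hamH d (adjB N) h).IsHermitian := by
    unfold Matrix.IsHermitian
    rw [Matrix.conjTranspose_eq_transpose_of_trivial]
    exact hamH_transpose d (adjB N) hirr h
  obtain ⟨U, E, hU1, hU2, hH, _⟩ := spectral_real (hamH d (adjB N) h) hHerm
  have hwpos : ∀ k, 0 ≤ (fun k => Real.exp (-(β * E k))) k := fun k => (Real.exp_pos _).le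
  refine ⟨gibbs U (fun k => Real.exp (-(β * E k))) 1,
    gibbs U (fun k => Real.exp (-(β * E k))) (magR d),
    fun q => gibbs U (fun k => Real.exp (-(β * E k))) ((Aop d (ca N q.1))ᵀ * Aop d (ca N q.1)) +
          gibbs U (fun k => Real.exp (-(β * E k))) ((Aop d (sa N q.1))ᵀ * Aop d (sa N q.1)),
    ?_, ?_, ?_, ?_⟩
  · rw [← partG_eq_gibbs (adjB N) β h U E hU1 hU2 hH]
    exact partG_pos (adjB N) hirr β h
  · exact log_tangent (adjB N) hirr β h U E hU1 hU2 hH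
  · intro hMg q x₀ hx₀ hx
    exact mode_pair (adjB N) hirr hsymm β h hβ U E hU1 hU2 hH (ca N q.1) (sa N q.1)
      (1 / (2 * (N : ℝ) + 1) ^ 3) (2 * (2 * Real.pi / (2 * (N : ℝ) + 1)) ^ 2 * qsq q.1)
      (by positivity) (ca_sa_sq N q.1) (mode_energy N q.1) hMg x₀ hx₀ hx
  · have hsum := mode_sumrule (d := d) (Finset.univ : Finset (box N)) (fun q => ca N q.1)
      (fun q => sa N q.1) (fourier_bessel N) U (fun k => Real.exp (-(β * E k))) hwpos
    rw [card_box_real] at hsum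
    exact hsum

/-- The finite-volume inequality: tangent bound and Roepstorff-type bound for the magnetisation. -/
theorem fv_main (d N : ℕ) (β h : ℝ) (hβ : 0 < β) (hh : 0 < h) :
    ∃ m : ℝ, (PN d N β h - PN d N β 0 ≤ h * m) ∧
      (0 < m → ∑ q : box N, 2 * m * bose (β * ((d : ℝ) ^ 2 / 4 *
        (2 * Real.pi / (2 * (N : ℝ) + 1)) ^ 2 * qsq q.1 / m + h)) ≤
          (d : ℝ) * ((d : ℝ) / 2 - m) * (2 * (N : ℝ) + 1) ^ 3) := by
  obtain ⟨Z, Mg, Nq, hZpos, ht, hq, hall⟩ := fv_abstract d N β h hβ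
  obtain ⟨L3, hL3def⟩ : ∃ L3 : ℝ, (2 * (N : ℝ) + 1) ^ 3 = L3 := ⟨_, rfl⟩
  have hL3 : 0 < L3 := by
    rw [← hL3def]
    positivity
  have hπ := Real.pi_pos
  rw [hL3def] at hall
  refine ⟨Mg / (L3 * Z), ?_, ?_⟩
  · unfold PN
    rw [partitionFn_eq, partitionFn_eq, card_box', ← sub_div, div_le_iff₀ (by positivity), hL3def]
    have e : h * (Mg / (L3 * Z)) * (β * L3) = β * h * (Mg / Z) := by
      field_simp
    rw [e]
    exact ht
  · intro hm
    have hMg : 0 < Mg := by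
      have h1 := mul_pos hm (mul_pos hL3 hZpos)
      rwa [div_mul_cancel₀ _ (mul_pos hL3 hZpos).ne'] at h1
    rw [hL3def]
    have hq' : ∀ q : box N, bose (β * ((d : ℝ) ^ 2 / 4 *
        (2 * Real.pi / (2 * (N : ℝ) + 1)) ^ 2 * qsq q.1 / (Mg / (L3 * Z)) + h)) *
          (2 * (1 / L3) * Mg) ≤ Nq q := by
      intro q
      have hqs := qsq_nonneg q.1
      have h0 : 0 ≤ (d : ℝ) ^ 2 / 4 * (2 * Real.pi / (2 * (N : ℝ) + 1)) ^ 2 * qsq q.1 /
            (Mg / (L3 * Z)) := by positivity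
      have h1 : 0 < (d : ℝ) ^ 2 / 4 * (2 * Real.pi / (2 * (N : ℝ) + 1)) ^ 2 * qsq q.1 /
            (Mg / (L3 * Z)) + h := by linarith
      have h2 := hq hMg q (β * ((d : ℝ) ^ 2 / 4 *
        (2 * Real.pi / (2 * (N : ℝ) + 1)) ^ 2 * qsq q.1 / (Mg / (L3 * Z)) + h)) (by positivity) (by
          rw [hL3def]
          congr 2
          field_simp)
      rw [hL3def] at h2
      exact h2
    have hall' := (Finset.sum_le_sum fun q _ => hq' q).trans hall
    have key : (∑ q : box N, 2 * (Mg / (L3 * Z)) * bose (β * ((d : ℝ) ^ 2 / 4 *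
        (2 * Real.pi / (2 * (N : ℝ) + 1)) ^ 2 * qsq q.1 / (Mg / (L3 * Z)) + h))) * Z =
        ∑ q : box N, bose (β * ((d : ℝ) ^ 2 / 4 *
        (2 * Real.pi / (2 * (N : ℝ) + 1)) ^ 2 * qsq q.1 / (Mg / (L3 * Z)) + h)) *
          (2 * (1 / L3) * Mg) := by
      rw [Finset.sum_mul]
      refine Finset.sum_congr rfl fun q _ => ?_
      field_simp
    have key2 : (d : ℝ) * ((d : ℝ) / 2 - Mg / (L3 * Z)) * L3 * Z =
        (d : ℝ) * ((d : ℝ) / 2 * L3 * Z - Mg) := by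
      field_simp
    refine le_of_mul_le_mul_right ?_ hZpos
    rw [key, key2]
    exact hall'

theorem fv_mono (d N : ℕ) (β h : ℝ) (hβ : 0 < β) (hh : 0 < h) (a : ℝ) (ha : 0 < a)
    (hle : a * h ≤ PN d N β h - PN d N β 0) :
    ∑ q : box N, 2 * a * bose (β * ((d : ℝ) ^ 2 / 4 *
        (2 * Real.pi / (2 * (N : ℝ) + 1)) ^ 2 * qsq q.1 / a + h)) ≤
          (d : ℝ) * ((d : ℝ) / 2 - a) * (2 * (N : ℝ) + 1) ^ 3 := by
  obtain ⟨m, h1, h2⟩ := fv_main d N β h hβ hh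
  have ham : a ≤ m := by
    have : a * h ≤ m * h := by linarith
    exact le_of_mul_le_mul_right this hh
  have hm : 0 < m := lt_of_lt_of_le ha ham
  have h3 := h2 hm
  have hπ := Real.pi_pos
  have hterm : ∀ q : box N, 2 * a * bose (β * ((d : ℝ) ^ 2 / 4 *
        (2 * Real.pi / (2 * (N : ℝ) + 1)) ^ 2 * qsq q.1 / a + h)) ≤
      2 * m * bose (β * ((d : ℝ) ^ 2 / 4 *
        (2 * Real.pi / (2 * (N : ℝ) + 1)) ^ 2 * qsq q.1 / m + h)) := by
    intro q
    have hqs := qsq_nonneg q.1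
    have hκ : 0 ≤ (d : ℝ) ^ 2 / 4 * (2 * Real.pi / (2 * (N : ℝ) + 1)) ^ 2 * qsq q.1 := by positivity
    have hdiv : (d : ℝ) ^ 2 / 4 * (2 * Real.pi / (2 * (N : ℝ) + 1)) ^ 2 * qsq q.1 / m ≤
        (d : ℝ) ^ 2 / 4 * (2 * Real.pi / (2 * (N : ℝ) + 1)) ^ 2 * qsq q.1 / a :=
      div_le_div_of_nonneg_left hκ ha ham
    have harg : 0 < β * ((d : ℝ) ^ 2 / 4 * (2 * Real.pi / (2 * (N : ℝ) + 1)) ^ 2 * qsq q.1 / m + h) := by
      have : 0 ≤ (d : ℝ) ^ 2 / 4 * (2 * Real.pi / (2 * (N : ℝ) + 1)) ^ 2 * qsq q.1 / m := by positivity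
      have : 0 < (d : ℝ) ^ 2 / 4 * (2 * Real.pi / (2 * (N : ℝ) + 1)) ^ 2 * qsq q.1 / m + h := by
        linarith
      positivity
    have hb := bose_anti harg (mul_le_mul_of_nonneg_left (add_le_add_left hdiv h) hβ.le)
    have hbpos := bose_pos harg
    have hbpos' : 0 ≤ bose (β * ((d : ℝ) ^ 2 / 4 *
        (2 * Real.pi / (2 * (N : ℝ) + 1)) ^ 2 * qsq q.1 / a + h)) := by
      apply le_of_lt
      apply bose_pos
      have : 0 ≤ (d : ℝ) ^ 2 / 4 * (2 * Real.pi / (2 * (N : ℝ) + 1)) ^ 2 * qsq q.1 / a := by positivity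
      have : 0 < (d : ℝ) ^ 2 / 4 * (2 * Real.pi / (2 * (N : ℝ) + 1)) ^ 2 * qsq q.1 / a + h := by
        linarith
      positivity
    exact mul_le_mul (by linarith) hb hbpos' (by linarith)
  refine (Finset.sum_le_sum fun q _ => hterm q).trans (h3.trans ?_)
  have hL3 : (0 : ℝ) ≤ (2 * (N : ℝ) + 1) ^ 3 := by positivity
  have hd : (0 : ℝ) ≤ (d : ℝ) := Nat.cast_nonneg d
  apply mul_le_mul_of_nonneg_right _ hL3
  apply mul_le_mul_of_nonneg_left _ hd
  linarith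

end

end Vale.Agent.Lib.P361.Gen
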