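import Vale.Agent.Lib.P361.GBound

namespace Vale.Agent.Lib.P361.Gen

open Matrix

set_option linter.unusedSectionVars false
set_option linter.unusedVariables false

noncomputable section

variable {V : Type} [Fintype V] [DecidableEq V] {d : ℕ}

theorem Aop_comm' (φ : V → ℝ) (B : Matrix (V → Fin (d + 1)) (V → Fin (d + 1)) ℝ) :
    B * Aop d φ - Aop d φ * B = ∑ z : V, φ z • (B * Sp d z - Sp d z * B) := by
  unfold Aop
  rw [Finset.sum_mul, Finset.mul_sum, ← Finset.sum_sub_distrib]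
  refine Finset.sum_congr rfl fun z _ => ?_
  rw [Matrix.smul_mul, Matrix.mul_smul, ← smul_sub]

/-- The bond coefficient `ω(2 S^3_z S^3_y + S^+_z S^-_y)`. -/
def ccf (U : Matrix (V → Fin (d + 1)) (V → Fin (d + 1)) ℝ) (w : (V → Fin (d + 1)) → ℝ) (z y : V) : ℝ :=
  2 * gibbs U w (Sz d z * Sz d y) + gibbs U w (Sp d z * Sm d y)

theorem Sz_comm (x y : V) (hxy : x ≠ y) : Sz d x * Sz d y = Sz d y * Sz d x :=
  siteOp_comm x y hxy _ _

theorem SmSp_comm (x y : V) (hxy : x ≠ y) : Sm d x * Sp d y = Sp d y * Sm d x :=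
  siteOp_comm x y hxy _ _

theorem gibbs_SmSp (U : Matrix (V → Fin (d + 1)) (V → Fin (d + 1)) ℝ) (w : (V → Fin (d + 1)) → ℝ)
    (z y : V) (hne : z ≠ y) : gibbs U w (Sm d z * Sp d y) = gibbs U w (Sp d z * Sm d y) := by
  rw [← gibbs_transpose, Matrix.transpose_mul, Sp_transpose, Sm_transpose, SmSp_comm y z hne.symm]

theorem ccf_symm (U : Matrix (V → Fin (d + 1)) (V → Fin (d + 1)) ℝ) (w : (V → Fin (d + 1)) → ℝ)
    (z y : V) (hne : z ≠ y) : ccf U w y z = ccf U w z y := by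
  unfold ccf
  have ht : gibbs U w (Sp d y * Sm d z) = gibbs U w (Sp d z * Sm d y) := by
    rw [← gibbs_transpose, Matrix.transpose_mul, Sp_transpose, Sm_transpose]
  rw [Sz_comm y z hne.symm, ht]

theorem ccf_le (U : Matrix (V → Fin (d + 1)) (V → Fin (d + 1)) ℝ) (w : (V → Fin (d + 1)) → ℝ)
    (hw : ∀ k, 0 ≤ w k) (z y : V) (hne : z ≠ y) : ccf U w z y ≤ (d : ℝ) ^ 2 / 2 * gibbs U w 1 := by
  unfold ccf
  have h1 := two_site_upper U w hw z y hne
  have h2 := szsz_upper U w hw z y hne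
  linarith

theorem dc_formula (adj : V → V → Prop) [DecidableRel adj] (hirr : ∀ x, ¬ adj x x)
    (hsymm : ∀ x y, adj x y → adj y x) (h : ℝ)
    (U : Matrix (V → Fin (d + 1)) (V → Fin (d + 1)) ℝ) (w : (V → Fin (d + 1)) → ℝ) (φ : V → ℝ) :
    gibbs U w ((Aop d φ)ᵀ * (hamH d adj h * Aop d φ - Aop d φ * hamH d adj h) -
        (hamH d adj h * Aop d φ - Aop d φ * hamH d adj h) * (Aop d φ)ᵀ) =
      ∑ z : V, ∑ y : V, (if adj z y then (φ z ^ 2 - φ z * φ y) * ccf U w z y else 0) +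
        2 * h * ∑ z : V, φ z ^ 2 * gibbs U w (Sz d z) := by
  rw [Aop_comm', Finset.mul_sum, Finset.sum_mul, ← Finset.sum_sub_distrib, gibbs_sum]
  have hz : ∀ z : V, gibbs U w ((Aop d φ)ᵀ * φ z • (hamH d adj h * Sp d z - Sp d z * hamH d adj h) -
      φ z • (hamH d adj h * Sp d z - Sp d z * hamH d adj h) * (Aop d φ)ᵀ) =
      ∑ y : V, (if adj z y then (φ z ^ 2 - φ z * φ y) * ccf U w z y else 0) +
        2 * h * (φ z ^ 2 * gibbs U w (Sz d z)) := by
    intro z
    rw [comm_hamH_Sp d adj hirr hsymm h z]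
    have e : (Aop d φ)ᵀ * φ z • (-(∑ y : V, if adj z y then Top d z y else 0) - h • Sp d z) -
        φ z • (-(∑ y : V, if adj z y then Top d z y else 0) - h • Sp d z) * (Aop d φ)ᵀ =
        φ z • (-(∑ y : V, if adj z y then
          ((Aop d φ)ᵀ * Top d z y - Top d z y * (Aop d φ)ᵀ) else 0) -
            h • ((Aop d φ)ᵀ * Sp d z - Sp d z * (Aop d φ)ᵀ)) := by
      rw [Matrix.mul_smul, Matrix.smul_mul, ← smul_sub]
      congr 1
      rw [mul_sub, sub_mul, mul_neg, neg_mul, Finset.mul_sum, Finset.sum_mul, Matrix.mul_smul,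
        Matrix.smul_mul]
      have hite : ∀ y : V, (if adj z y then ((Aop d φ)ᵀ * Top d z y - Top d z y * (Aop d φ)ᵀ) else 0) =
          (Aop d φ)ᵀ * (if adj z y then Top d z y else 0) -
            (if adj z y then Top d z y else 0) * (Aop d φ)ᵀ := by
        intro y
        split_ifs <;> simp
      simp only [hite, Finset.sum_sub_distrib, smul_sub]
      abel
    rw [e, gibbs_smul, gibbs_sub, gibbs_neg, gibbs_sum, gibbs_smul, comm_Am_Sp, gibbs_neg,
      gibbs_smul, gibbs_add]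
    have hy : ∀ y : V, gibbs U w (if adj z y then
        ((Aop d φ)ᵀ * Top d z y - Top d z y * (Aop d φ)ᵀ) else 0) =
        if adj z y then (φ y - φ z) * ccf U w z y else 0 := by
      intro y
      by_cases hzy : adj z y
      · rw [if_pos hzy, if_pos hzy]
        have hne : z ≠ y := by
          rintro rfl
          exact hirr z hzy
        rw [comm_Am_T d φ z y hne]
        simp only [gibbs_add, gibbs_smul, gibbs_sub, gibbs_neg]
        rw [gibbs_SmSp U w z y hne]
        unfold ccf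
        ring
      · rw [if_neg hzy, if_neg hzy, gibbs_zero]
    simp only [hy]
    rw [mul_sub, mul_neg, Finset.mul_sum]
    have hy2 : ∀ y : V, φ z * (if adj z y then (φ y - φ z) * ccf U w z y else 0) =
        -(if adj z y then (φ z ^ 2 - φ z * φ y) * ccf U w z y else 0) := by
      intro y
      split_ifs <;> ring
    simp only [hy2, Finset.sum_neg_distrib]
    ring
  rw [Finset.sum_congr rfl fun z _ => hz z, Finset.sum_add_distrib, ← Finset.mul_sum]

/-- Upper bound on the double-commutator expectation. -/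
theorem dc_bound (adj : V → V → Prop) [DecidableRel adj] (hirr : ∀ x, ¬ adj x x)
    (hsymm : ∀ x y, adj x y → adj y x) (h : ℝ)
    (U : Matrix (V → Fin (d + 1)) (V → Fin (d + 1)) ℝ) (w : (V → Fin (d + 1)) → ℝ)
    (hw : ∀ k, 0 ≤ w k) (φ : V → ℝ) :
    gibbs U w ((Aop d φ)ᵀ * (hamH d adj h * Aop d φ - Aop d φ * hamH d adj h) +
        Aop d φ * (hamH d adj h * (Aop d φ)ᵀ - (Aop d φ)ᵀ * hamH d adj h)) ≤
      (d : ℝ) ^ 2 / 4 * (∑ x : V, ∑ y : V, if adj x y then (φ x - φ y) ^ 2 else 0) * gibbs U w 1 +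
        2 * h * ∑ z : V, φ z ^ 2 * gibbs U w (Sz d z) := by
  rw [dc_reduce U w _ _ (hamH_transpose d adj hirr h), dc_formula adj hirr hsymm h U w φ]
  set F : V → V → ℝ := fun z y => if adj z y then (φ z ^ 2 - φ z * φ y) * ccf U w z y else 0 with hF
  have hswap : ∑ z : V, ∑ y : V, F z y = ∑ z : V, ∑ y : V, F y z := Finset.sum_comm
  have h2 : 2 * ∑ z : V, ∑ y : V, F z y = ∑ z : V, ∑ y : V, (F z y + F y z) := by
    simp only [Finset.sum_add_distrib]
    rw [← hswap]
    ring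
  have hle : ∀ z y : V, F z y + F y z ≤
      if adj z y then (φ z - φ y) ^ 2 * ((d : ℝ) ^ 2 / 2 * gibbs U w 1) else 0 := by
    intro z y
    by_cases hzy : adj z y
    · have hyz := hsymm z y hzy
      have hne : z ≠ y := by
        rintro rfl
        exact hirr z hzy
      simp only [hF, if_pos hzy, if_pos hyz]
      rw [ccf_symm U w z y hne]
      have hc := ccf_le U w hw z y hne
      have e : (φ z ^ 2 - φ z * φ y) * ccf U w z y + (φ y ^ 2 - φ y * φ z) * ccf U w z y =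
          (φ z - φ y) ^ 2 * ccf U w z y := by ring
      rw [e]
      exact mul_le_mul_of_nonneg_left hc (sq_nonneg _)
    · have hyz : ¬ adj y z := fun h' => hzy (hsymm y z h')
      simp only [hF, if_neg hzy, if_neg hyz]
      simp
  have h3 : ∑ z : V, ∑ y : V, (F z y + F y z) ≤
      ∑ z : V, ∑ y : V, if adj z y then (φ z - φ y) ^ 2 * ((d : ℝ) ^ 2 / 2 * gibbs U w 1) else 0 :=
    Finset.sum_le_sum fun z _ => Finset.sum_le_sum fun y _ => hle z y
  have h4 : ∑ z : V, ∑ y : V, (if adj z y then (φ z - φ y) ^ 2 * ((d : ℝ) ^ 2 / 2 * gibbs U w 1) else 0) =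
      (∑ x : V, ∑ y : V, if adj x y then (φ x - φ y) ^ 2 else 0) * ((d : ℝ) ^ 2 / 2 * gibbs U w 1) := by
    rw [Finset.sum_mul]
    refine Finset.sum_congr rfl fun z _ => ?_
    rw [Finset.sum_mul]
    refine Finset.sum_congr rfl fun y _ => ?_
    split_ifs <;> ring
  rw [h4] at h3
  have h5 : ∑ z : V, ∑ y : V, F z y ≤
      (d : ℝ) ^ 2 / 4 * (∑ x : V, ∑ y : V, if adj x y then (φ x - φ y) ^ 2 else 0) * gibbs U w 1 := by
    linarith
  linarith

theorem hbond_gibbs (U : Matrix (V → Fin (d + 1)) (V → Fin (d + 1)) ℝ) (w : (V → Fin (d + 1)) → ℝ)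
    (x y : V) (hne : x ≠ y) :
    gibbs U w (hbond d x y) = gibbs U w (Sz d x * Sz d y) + gibbs U w (Sp d x * Sm d y) := by
  unfold hbond hb2
  rw [gibbs_smul, gibbs_add, gibbs_add, gibbs_add, gibbs_SmSp U w x y hne]
  ring

theorem hbond_abs (U : Matrix (V → Fin (d + 1)) (V → Fin (d + 1)) ℝ) (w : (V → Fin (d + 1)) → ℝ)
    (hw : ∀ k, 0 ≤ w k) (x y : V) (hne : x ≠ y) :
    |gibbs U w (hbond d x y)| ≤ 3 * ((d : ℝ) ^ 2 / 4) * gibbs U w 1 := by
  rw [hbond_gibbs U w x y hne, abs_le]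
  have h1 := two_site_upper U w hw x y hne
  have h2 := two_site_lower U w hw x y hne
  have h3 := szsz_upper U w hw x y hne
  have h4 := szsz_lower U w hw x y hne
  constructor <;> linarith

/-- The number of ordered adjacent pairs. -/
def nadj (adj : V → V → Prop) [DecidableRel adj] : ℝ :=
  ∑ x : V, ∑ y : V, if adj x y then (1 : ℝ) else 0

theorem hamH_abs (adj : V → V → Prop) [DecidableRel adj] (hirr : ∀ x, ¬ adj x x) (h : ℝ)
    (U : Matrix (V → Fin (d + 1)) (V → Fin (d + 1)) ℝ) (w : (V → Fin (d + 1)) → ℝ)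
    (hw : ∀ k, 0 ≤ w k) :
    |gibbs U w (hamH d adj h)| ≤
      (3 / 2 * ((d : ℝ) ^ 2 / 4) * nadj adj + |h| * ((d : ℝ) / 2) * (Fintype.card V : ℝ)) *
        gibbs U w 1 := by
  unfold hamH hamR magR
  rw [gibbs_sub, gibbs_smul, gibbs_smul, gibbs_sum, gibbs_sum]
  have hg1 : 0 ≤ gibbs U w 1 := by
    have := gibbs_pos U w hw 1
    rwa [Matrix.transpose_one, Matrix.one_mul] at this
  have h1 : |∑ x : V, gibbs U w (∑ y : V, if adj x y then hbond d x y else 0)| ≤
      3 * ((d : ℝ) ^ 2 / 4) * gibbs U w 1 * nadj adj := by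
    unfold nadj
    rw [Finset.mul_sum]
    refine (Finset.abs_sum_le_sum_abs _ _).trans (Finset.sum_le_sum fun x _ => ?_)
    rw [gibbs_sum, Finset.mul_sum]
    refine (Finset.abs_sum_le_sum_abs _ _).trans (Finset.sum_le_sum fun y _ => ?_)
    by_cases hxy : adj x y
    · have hne : x ≠ y := by
        rintro rfl
        exact hirr x hxy
      rw [if_pos hxy, if_pos hxy, mul_one]
      exact hbond_abs U w hw x y hne
    · rw [if_neg hxy, if_neg hxy, gibbs_zero]
      simp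
  have h2 : |∑ x : V, gibbs U w (Sz d x)| ≤ (Fintype.card V : ℝ) * ((d : ℝ) / 2 * gibbs U w 1) := by
    refine (Finset.abs_sum_le_sum_abs _ _).trans ?_
    rw [← nsmul_eq_mul, ← Finset.card_univ, ← Finset.sum_const]
    refine Finset.sum_le_sum fun x _ => ?_
    rw [abs_le]
    exact ⟨sz_lower U w hw x, sz_upper U w hw x⟩
  have h3 : |-(1 / 2 : ℝ) * ∑ x : V, gibbs U w (∑ y : V, if adj x y then hbond d x y else 0) -
      h * ∑ x : V, gibbs U w (Sz d x)| ≤
      1 / 2 * |∑ x : V, gibbs U w (∑ y : V, if adj x y then hbond d x y else 0)| +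
        |h| * |∑ x : V, gibbs U w (Sz d x)| := by
    refine (abs_sub _ _).trans ?_
    rw [abs_mul, abs_mul, abs_neg]
    have : |(1 / 2 : ℝ)| = 1 / 2 := abs_of_pos (by norm_num)
    rw [this]
  refine h3.trans ?_
  have h4 := mul_le_mul_of_nonneg_left h2 (abs_nonneg h)
  nlinarith

end

end Vale.Agent.Lib.P361.Gen
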