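import Vale.Agent.Lib.P361.GMain

namespace Vale.Agent.Lib.P361.Gen

open Matrix

set_option linter.unusedSectionVars false
set_option linter.unusedVariables false

noncomputable section

open Filter Topology

/-- A real function with a supporting line at every point is convex. -/
theorem convexOn_of_support (f : ℝ → ℝ) (hsub : ∀ x : ℝ, ∃ g : ℝ, ∀ y : ℝ, f x + g * (y - x) ≤ f y) :
    ConvexOn ℝ Set.univ f := by
  refine ⟨convex_univ, fun x _ y _ a b ha hb hab => ?_⟩
  obtain ⟨g, hg⟩ := hsub (a • x + b • y)
  have hx := hg x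
  have hy := hg y
  simp only [smul_eq_mul] at hx hy ⊢
  have hb' : b = 1 - a := by linarith
  subst hb'
  nlinarith [mul_le_mul_of_nonneg_left hx ha, mul_le_mul_of_nonneg_left hy hb]

variable {V : Type} [Fintype V] [DecidableEq V] {d : ℕ}

/-- General tangent inequality for the logarithm of the partition function. -/
theorem log_tangent_gen (adj : V → V → Prop) [DecidableRel adj] (hirr : ∀ x, ¬ adj x x)
    (β h h' : ℝ)
    (U : Matrix (V → Fin (d + 1)) (V → Fin (d + 1)) ℝ) (E : (V → Fin (d + 1)) → ℝ)
    (hU1 : U * Uᵀ = 1) (hU2 : Uᵀ * U = 1) (hH : hamH d adj h = U * Matrix.diagonal E * Uᵀ) :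
    Real.log (partG d adj β h) + β * (gibbs U (fun k => Real.exp (-(β * E k))) (magR d) /
        gibbs U (fun k => Real.exp (-(β * E k))) 1) * (h' - h) ≤ Real.log (partG d adj β h') := by
  have hZpos := partG_pos (d := d) adj hirr β h
  have hZ0pos := partG_pos (d := d) adj hirr β h'
  have hHs : ((-β) • hamH d adj h).IsHermitian := by
    unfold Matrix.IsHermitian
    rw [Matrix.conjTranspose_eq_transpose_of_trivial, Matrix.transpose_smul,
      hamH_transpose d adj hirr h]
  have hBs : ((-(β * (h - h'))) • (magR d : Matrix (V → Fin (d + 1)) (V → Fin (d + 1)) ℝ)).IsHermitian := by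
    unfold Matrix.IsHermitian
    rw [Matrix.conjTranspose_eq_transpose_of_trivial, Matrix.transpose_smul, magR_transpose]
  have hH' : (-β) • hamH d adj h = U * Matrix.diagonal (fun k => -(β * E k)) * Uᵀ := by
    rw [hH, smul_conj]
  have hvar := gibbs_variational U (fun k => -(β * E k)) hU1 hU2 ((-β) • hamH d adj h) hH' hHs
    ((-(β * (h - h'))) • magR d) hBs
  have e0 : (-β) • hamH d adj h + (-(β * (h - h'))) • magR d = (-β) • hamH d adj h' := by
    unfold hamH
    ext s t
    simp only [Matrix.add_apply, Matrix.smul_apply, Matrix.sub_apply, smul_eq_mul]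
    ring
  rw [e0, ← partG_real, ← partG_eq_sum adj β h U E hU1 hU2 hH, gibbs_smul] at hvar
  rw [← partG_eq_gibbs adj β h U E hU1 hU2 hH]
  have hlog := Real.log_le_log (mul_pos hZpos (Real.exp_pos _)) hvar
  rw [Real.log_mul hZpos.ne' (Real.exp_pos _).ne', Real.log_exp] at hlog
  have e1 : -(β * (h - h')) * gibbs U (fun k => Real.exp (-(β * E k))) (magR d) / partG d adj β h =
      β * (gibbs U (fun k => Real.exp (-(β * E k))) (magR d) / partG d adj β h) * (h' - h) := by ring
  rw [e1] at hlog
  exact hlog

/-- The logarithm of the partition function is convex in the field. -/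
theorem log_partG_convex (adj : V → V → Prop) [DecidableRel adj] (hirr : ∀ x, ¬ adj x x) (β : ℝ) :
    ConvexOn ℝ Set.univ (fun h : ℝ => Real.log (partG d adj β h)) := by
  apply convexOn_of_support
  intro h
  have hHerm : (hamH d adj h).IsHermitian := by
    unfold Matrix.IsHermitian
    rw [Matrix.conjTranspose_eq_transpose_of_trivial]
    exact hamH_transpose d adj hirr h
  obtain ⟨U, E, hU1, hU2, hH, _⟩ := spectral_real (hamH d adj h) hHerm
  exact ⟨_, fun h' => log_tangent_gen adj hirr β h h' U E hU1 hU2 hH⟩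

theorem PN_convex (d N : ℕ) (β : ℝ) (hβ : 0 < β) : ConvexOn ℝ Set.univ (fun h : ℝ => PN d N β h) := by
  have hc := log_partG_convex (d := d) (adjB N) (adjB_irrefl N) β
  have hcpos : (0 : ℝ) ≤ 1 / (β * ((box N).card : ℝ)) := by positivity
  have h2 := hc.smul hcpos
  refine h2.congr ?_
  intro h _
  simp only [PN, partitionFn_eq, smul_eq_mul]
  ring

/-- Convex combinations and upper limits. -/
theorem limsup_convex_comb (u v w : ℕ → ℝ) (a b : ℝ) (ha : 0 ≤ a) (hb : 0 ≤ b) (hab : a + b = 1)
    (hle : ∀ N, w N ≤ a * u N + b * v N)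
    (hu : IsBoundedUnder (· ≤ ·) atTop u) (hv : IsBoundedUnder (· ≤ ·) atTop v)
    (hw : IsBoundedUnder (· ≥ ·) atTop w) :
    limsup w atTop ≤ a * limsup u atTop + b * limsup v atTop := by
  apply le_of_forall_pos_le_add
  intro ε hε
  have h1 : ∀ᶠ N in atTop, u N < limsup u atTop + ε :=
    eventually_lt_of_limsup_lt (by linarith) hu
  have h2 : ∀ᶠ N in atTop, v N < limsup v atTop + ε :=
    eventually_lt_of_limsup_lt (by linarith) hv
  have h3 : ∀ᶠ N in atTop, w N ≤ a * limsup u atTop + b * limsup v atTop + ε := by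
    filter_upwards [h1, h2] with N hN1 hN2
    have := hle N
    have e1 : a * u N ≤ a * (limsup u atTop + ε) := mul_le_mul_of_nonneg_left hN1.le ha
    have e2 : b * v N ≤ b * (limsup v atTop + ε) := mul_le_mul_of_nonneg_left hN2.le hb
    have e3 : a * ε + b * ε = ε := by rw [← add_mul, hab, one_mul]
    linarith
  exact limsup_le_of_le hw.isCoboundedUnder_le h3

/-- The pressure is convex in the field. -/
theorem pressure_convex (d : ℕ) (β : ℝ) (hβ : 0 < β) : ConvexOn ℝ Set.univ (pressure d β) := by
  refine ⟨convex_univ, fun x _ y _ a b ha hb hab => ?_⟩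
  simp only [smul_eq_mul]
  rw [pressure_eq, pressure_eq, pressure_eq]
  refine limsup_convex_comb _ _ _ a b ha hb hab ?_ (PN_bdd_above d β x hβ) (PN_bdd_above d β y hβ)
    (PN_bdd_below d β _ hβ)
  intro N
  have := (PN_convex d N β hβ).2 (Set.mem_univ x) (Set.mem_univ y) ha hb hab
  simpa only [smul_eq_mul] using this

/-- The right derivative of the pressure at zero field exists. -/
theorem pressure_right_deriv (d : ℕ) (β : ℝ) (hβ : 0 < β) :
    HasDerivWithinAt (pressure d β) (derivWithin (pressure d β) (Set.Ioi 0) 0) (Set.Ioi 0) 0 :=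
  (pressure_convex d β hβ).hasDerivWithinAt_rightDeriv_of_mem_interior (by simp)

end

end Vale.Agent.Lib.P361.Gen
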