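import Vale.Agent.Lib.P361.GRect

namespace Vale.Agent.Lib.P361.Gen

open Matrix

set_option linter.unusedSectionVars false
set_option linter.unusedVariables false

noncomputable section

theorem nadj_eq_card {X : Type} [Fintype X] [DecidableEq X] (r : X → X → Prop) [DecidableRel r] :
    nadj r = (((Finset.univ : Finset (X × X)).filter (fun p => r p.1 p.2)).card : ℝ) := by
  unfold nadj
  rw [← Finset.sum_boole, ← Finset.univ_product_univ, Finset.sum_product]

theorem adjR_bound (a b c : ℕ) (x y : Fin a × Fin b × Fin c) (h : adjR a b c x y) :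
    (x.1 : ℕ) ≤ (y.1 : ℕ) + 1 ∧ (y.1 : ℕ) ≤ (x.1 : ℕ) + 1 ∧
    (x.2.1 : ℕ) ≤ (y.2.1 : ℕ) + 1 ∧ (y.2.1 : ℕ) ≤ (x.2.1 : ℕ) + 1 ∧
    (x.2.2 : ℕ) ≤ (y.2.2 : ℕ) + 1 ∧ (y.2.2 : ℕ) ≤ (x.2.2 : ℕ) + 1 := by
  unfold adjR at h
  rcases adj_cases _ _ _ h with ⟨h1 | h1, h2, h3⟩ | ⟨h1, h2 | h2, h3⟩ | ⟨h1, h2, h3 | h3⟩ <;>
    omega

/-- The number of ordered adjacent pairs of a rectangular box is at most `27` times its volume. -/
theorem nadj_rect (a b c : ℕ) : nadj (adjR a b c) ≤ 27 * ((a : ℝ) * b * c) := by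
  rw [nadj_eq_card]
  have hcard : ((Finset.univ : Finset ((Fin a × Fin b × Fin c) × (Fin a × Fin b × Fin c))).filter
      (fun p => adjR a b c p.1 p.2)).card ≤
      ((Finset.univ : Finset (Fin a × Fin b × Fin c)) ×ˢ
        (Finset.range 3 ×ˢ Finset.range 3 ×ˢ Finset.range 3)).card := by
    apply Finset.card_le_card_of_injOn
      (fun p : (Fin a × Fin b × Fin c) × (Fin a × Fin b × Fin c) =>
        (p.1, ((p.2.1 : ℕ) + 1 - (p.1.1 : ℕ), (p.2.2.1 : ℕ) + 1 - (p.1.2.1 : ℕ),
          (p.2.2.2 : ℕ) + 1 - (p.1.2.2 : ℕ))))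
    · intro p hp
      have hp' := (Finset.mem_filter.1 (Finset.mem_coe.1 hp)).2
      have hb := adjR_bound a b c p.1 p.2 hp'
      simp only [Finset.coe_product, Finset.coe_univ, Set.mem_prod, Set.mem_univ, true_and,
        Finset.mem_coe, Finset.mem_range]
      omega
    · intro p hp p' hp' heq
      have hq := (Finset.mem_filter.1 (Finset.mem_coe.1 hp)).2
      have hq' := (Finset.mem_filter.1 (Finset.mem_coe.1 hp')).2
      have hb := adjR_bound a b c p.1 p.2 hq
      have hb' := adjR_bound a b c p'.1 p'.2 hq'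
      simp only [Prod.mk.injEq] at heq
      obtain ⟨h1, h2, h3, h4⟩ := heq
      rw [h1] at hb
      apply Prod.ext h1
      apply Prod.ext
      · apply Fin.ext
        rw [h1] at h2
        omega
      · apply Prod.ext
        · apply Fin.ext
          rw [h1] at h3
          omega
        · apply Fin.ext
          rw [h1] at h4
          omega
  have hc : ((Finset.univ : Finset (Fin a × Fin b × Fin c)) ×ˢ
      (Finset.range 3 ×ˢ Finset.range 3 ×ˢ Finset.range 3)).card = a * b * c * 27 := by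
    rw [Finset.card_product, Finset.card_product, Finset.card_product, Finset.card_range,
      Finset.card_univ, Fintype.card_prod, Fintype.card_prod, Fintype.card_fin, Fintype.card_fin,
      Fintype.card_fin]
    ring
  have : (((Finset.univ : Finset ((Fin a × Fin b × Fin c) × (Fin a × Fin b × Fin c))).filter
      (fun p => adjR a b c p.1 p.2)).card : ℝ) ≤ ((a * b * c * 27 : ℕ) : ℝ) := by
    exact_mod_cast hcard.trans hc.le
  refine this.trans (le_of_eq ?_)
  push_cast
  ring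

theorem cut_normal (a₁ a₂ b c : ℕ) (x y : Fin (a₁ + a₂) × Fin b × Fin c)
    (h : adjDiff (adjR (a₁ + a₂) b c) (adjCut a₁ a₂ b c) x y) :
    y.2 = x.2 ∧ ((x.1 : ℕ) < a₁ → (x.1 : ℕ) + 1 = a₁ ∧ (y.1 : ℕ) = a₁) ∧
      (¬ (x.1 : ℕ) < a₁ → (x.1 : ℕ) = a₁ ∧ (y.1 : ℕ) + 1 = a₁) := by
  obtain ⟨hadj, hncut⟩ := h
  have hniff : ¬ ((x.1 : ℕ) < a₁ ↔ (y.1 : ℕ) < a₁) := fun hh => hncut ⟨hadj, hh⟩
  unfold adjR at hadj
  rcases adj_cases _ _ _ hadj with ⟨h1, h2, h3⟩ | ⟨h1, _, _⟩ | ⟨h1, _, _⟩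
  · refine ⟨Prod.ext (Fin.ext (by omega)) (Fin.ext (by omega)), ?_, ?_⟩
    · intro hlt
      rcases h1 with h1 | h1 <;> omega
    · intro hlt
      rcases h1 with h1 | h1 <;> omega
  · exfalso
    apply hniff
    have : (x.1 : ℕ) = (y.1 : ℕ) := by omega
    rw [this]
  · exfalso
    apply hniff
    have : (x.1 : ℕ) = (y.1 : ℕ) := by omega
    rw [this]

/-- The number of ordered bonds across the cut is at most `2 b c`. -/
theorem cut_count (a₁ a₂ b c : ℕ) :
    nadj (adjDiff (adjR (a₁ + a₂) b c) (adjCut a₁ a₂ b c)) ≤ 2 * ((b : ℝ) * c) := by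
  rw [nadj_eq_card]
  have hcard : ((Finset.univ : Finset ((Fin (a₁ + a₂) × Fin b × Fin c) ×
      (Fin (a₁ + a₂) × Fin b × Fin c))).filter
      (fun p => adjDiff (adjR (a₁ + a₂) b c) (adjCut a₁ a₂ b c) p.1 p.2)).card ≤
      (Finset.univ : Finset (Bool × (Fin b × Fin c))).card := by
    apply Finset.card_le_card_of_injOn
      (fun p : (Fin (a₁ + a₂) × Fin b × Fin c) × (Fin (a₁ + a₂) × Fin b × Fin c) =>
        (decide ((p.1.1 : ℕ) < a₁), p.1.2))
    · intro p hp
      simp
    · intro p hp p' hp' heq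
      have hq := (Finset.mem_filter.1 (Finset.mem_coe.1 hp)).2
      have hq' := (Finset.mem_filter.1 (Finset.mem_coe.1 hp')).2
      obtain ⟨n1, n2, n3⟩ := cut_normal a₁ a₂ b c p.1 p.2 hq
      obtain ⟨m1, m2, m3⟩ := cut_normal a₁ a₂ b c p'.1 p'.2 hq'
      simp only [Prod.mk.injEq, decide_eq_decide] at heq
      obtain ⟨h1, h2⟩ := heq
      have hv1 : (p.1.1 : ℕ) = (p'.1.1 : ℕ) := by
        by_cases hlt : (p.1.1 : ℕ) < a₁
        · have := n2 hlt
          have := m2 (h1.1 hlt)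
          omega
        · have := n3 hlt
          have := m3 (fun hh => hlt (h1.2 hh))
          omega
      have hv2 : (p.2.1 : ℕ) = (p'.2.1 : ℕ) := by
        by_cases hlt : (p.1.1 : ℕ) < a₁
        · have := n2 hlt
          have := m2 (h1.1 hlt)
          omega
        · have := n3 hlt
          have := m3 (fun hh => hlt (h1.2 hh))
          omega
      apply Prod.ext
      · exact Prod.ext (Fin.ext hv1) h2
      · apply Prod.ext (Fin.ext hv2)
        rw [n1, m1, h2]
  have hc : (Finset.univ : Finset (Bool × (Fin b × Fin c))).card = 2 * (b * c) := by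
    rw [Finset.card_univ, Fintype.card_prod, Fintype.card_prod, Fintype.card_bool, Fintype.card_fin,
      Fintype.card_fin]
  have : (((Finset.univ : Finset ((Fin (a₁ + a₂) × Fin b × Fin c) ×
      (Fin (a₁ + a₂) × Fin b × Fin c))).filter
      (fun p => adjDiff (adjR (a₁ + a₂) b c) (adjCut a₁ a₂ b c) p.1 p.2)).card : ℝ) ≤
      ((2 * (b * c) : ℕ) : ℝ) := by
    exact_mod_cast hcard.trans hc.le
  refine this.trans (le_of_eq ?_)
  push_cast
  ring

end

end Vale.Agent.Lib.P361.Gen
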