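import Mathlib

namespace Vale.Agent.Lib.P361.Gen

noncomputable section

/-- The raising operator `S^+ = S^1 + i S^2` of the irreducible spin-`d/2` representation (`d = 2S`),
in the standard basis `|k⟩`, `k = 0, …, d`, with `S^3 |k⟩ = (d/2 - k) |k⟩`:
`⟨k| S^+ |k+1⟩ = √((k+1)(d-k))`, all other entries zero. -/
def spinPlus (d : ℕ) : Matrix (Fin (d + 1)) (Fin (d + 1)) ℂ :=
  Matrix.of fun i j =>
    if (i : ℕ) + 1 = (j : ℕ) then ((Real.sqrt ((((i : ℕ) : ℝ) + 1) * ((d : ℝ) - ((i : ℕ) : ℝ))) : ℝ) : ℂ)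
    else 0

/-- The lowering operator `S^- = S^1 - i S^2`, the (conjugate) transpose of `S^+` (real entries). -/
def spinMinus (d : ℕ) : Matrix (Fin (d + 1)) (Fin (d + 1)) ℂ := (spinPlus d).transpose

/-- `S^1 = (S^+ + S^-) / 2`. -/
def spinX (d : ℕ) : Matrix (Fin (d + 1)) (Fin (d + 1)) ℂ := (1 / 2 : ℂ) • (spinPlus d + spinMinus d)

/-- `S^2 = (S^+ - S^-) / (2 i)`. -/
def spinY (d : ℕ) : Matrix (Fin (d + 1)) (Fin (d + 1)) ℂ :=
  (-(Complex.I / 2)) • (spinPlus d - spinMinus d)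

/-- `S^3 = diag (d/2, d/2 - 1, …, -d/2)`. -/
def spinZ (d : ℕ) : Matrix (Fin (d + 1)) (Fin (d + 1)) ℂ :=
  Matrix.diagonal fun k => (d : ℂ) / 2 - ((k : ℕ) : ℂ)

/-- `siteOp x A`: the operator on the tensor product of copies of a `q`-dimensional space indexed by
`V` (with basis the configurations `V → Fin q`) which acts as `A` on the factor at site `x` and as the
identity on the other factors. -/
def siteOp {V : Type} [Fintype V] [DecidableEq V] {q : ℕ} {R : Type} [Zero R] (x : V)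
    (A : Matrix (Fin q) (Fin q) R) : Matrix (V → Fin q) (V → Fin q) R :=
  Matrix.of fun s t => if ∀ z, z ≠ x → s z = t z then A (s x) (t x) else 0

/-- The Heisenberg interaction `S_x · S_y = ∑ₐ Sᵃ_x Sᵃ_y` for spin `d/2`. -/
def heisDot {V : Type} [Fintype V] [DecidableEq V] (d : ℕ) (x y : V) :
    Matrix (V → Fin (d + 1)) (V → Fin (d + 1)) ℂ :=
  siteOp x (spinX d) * siteOp y (spinX d) + siteOp x (spinY d) * siteOp y (spinY d) +
    siteOp x (spinZ d) * siteOp y (spinZ d)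

/-- The cube `Λ_N = {-N, …, N}³`. -/
def box (N : ℕ) : Finset (ℤ × ℤ × ℤ) :=
  Finset.Icc (-(N : ℤ)) N ×ˢ Finset.Icc (-(N : ℤ)) N ×ˢ Finset.Icc (-(N : ℤ)) N

/-- The spin-`d/2` ferromagnetic Heisenberg Hamiltonian on `Λ_N` with free boundary conditions:
`H_N = -∑ S_x · S_y` over nearest-neighbour edges, each edge counted once (half the sum over
ordered pairs `(x, y)` with `|x - y|₁ = 1`). -/
def hamiltonian (d N : ℕ) : Matrix (box N → Fin (d + 1)) (box N → Fin (d + 1)) ℂ :=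
  -(1 / 2 : ℂ) • ∑ x : box N, ∑ y : box N,
    if |x.1.1 - y.1.1| + |x.1.2.1 - y.1.2.1| + |x.1.2.2 - y.1.2.2| = 1 then heisDot d x y else 0

/-- The total third spin component `M_N = ∑ S^3_x`. -/
def magnetization (d N : ℕ) : Matrix (box N → Fin (d + 1)) (box N → Fin (d + 1)) ℂ :=
  ∑ x : box N, siteOp x (spinZ d)

/-- The partition function `Tr exp(-β (H_N - h M_N))`. -/
def partitionFn (d N : ℕ) (β h : ℝ) : ℝ :=
  (Matrix.trace (NormedSpace.exp (-(β : ℂ) • (hamiltonian d N - (h : ℂ) • magnetization d N)))).re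

/-- The pressure `p_β(h)`: the limit (here: limit superior, which equals the limit when it exists)
of `log Tr exp(-β (H_N - h M_N)) / (β |Λ_N|)`. -/
def pressure (d : ℕ) (β h : ℝ) : ℝ :=
  Filter.limsup (fun N : ℕ => Real.log (partitionFn d N β h) / (β * ((box N).card : ℝ))) Filter.atTop

end

end Vale.Agent.Lib.P361.Gen
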