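import Vale.Agent.Lib.P361.GTensor

namespace Vale.Agent.Lib.P361.Gen

open Matrix

set_option linter.unusedSectionVars false
set_option linter.unusedVariables false

noncomputable section

variable {V : Type} [Fintype V] [DecidableEq V] {d : ℕ}

/-- One-sided perturbation bound for the logarithm of the partition function. -/
theorem log_perturb (adj adj₂ : V → V → Prop) [DecidableRel adj] [DecidableRel adj₂]
    (hirr : ∀ x, ¬ adj x x) (hirr₂ : ∀ x, ¬ adj₂ x x) (β h : ℝ)
    (B : Matrix (V → Fin (d + 1)) (V → Fin (d + 1)) ℝ) (hB : Bᵀ = B) (c : ℝ)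
    (hc : ∀ (U : Matrix (V → Fin (d + 1)) (V → Fin (d + 1)) ℝ) (w : (V → Fin (d + 1)) → ℝ),
      (∀ k, 0 ≤ w k) → |gibbs U w B| ≤ c * gibbs U w 1)
    (hsum : (-β) • hamH d adj h + B = (-β) • hamH d adj₂ h) :
    Real.log (partG d adj β h) - c ≤ Real.log (partG d adj₂ β h) := by
  obtain ⟨U, E, hU1, hU2, hH, _⟩ := spectral_real (hamH d adj h) (hamH_herm adj hirr h)
  have hZpos := partG_pos (d := d) adj hirr β h
  have hHs : ((-β) • hamH d adj h).IsHermitian := by
    unfold Matrix.IsHermitian
    rw [Matrix.conjTranspose_eq_transpose_of_trivial, Matrix.transpose_smul,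
      hamH_transpose d adj hirr h]
  have hBs : B.IsHermitian := by
    unfold Matrix.IsHermitian
    rw [Matrix.conjTranspose_eq_transpose_of_trivial, hB]
  have hH' : (-β) • hamH d adj h = U * Matrix.diagonal (fun k => -(β * E k)) * Uᵀ := by
    rw [hH, smul_conj]
  have hvar := gibbs_variational U (fun k => -(β * E k)) hU1 hU2 ((-β) • hamH d adj h) hH' hHs
    B hBs
  rw [hsum, ← partG_real, ← partG_eq_sum adj β h U E hU1 hU2 hH] at hvar
  have hw : ∀ k, 0 ≤ (fun k => Real.exp (-(β * E k))) k := fun k => (Real.exp_pos _).le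
  have hg := hc U _ hw
  rw [← partG_eq_gibbs adj β h U E hU1 hU2 hH] at hg
  have hlog := Real.log_le_log (mul_pos hZpos (Real.exp_pos _)) hvar
  rw [Real.log_mul hZpos.ne' (Real.exp_pos _).ne', Real.log_exp] at hlog
  have hge : -c ≤ gibbs U (fun k => Real.exp (-(β * E k))) B / partG d adj β h := by
    rw [le_div_iff₀ hZpos]
    have := (abs_le.1 hg).1
    linarith
  linarith

/-- The difference of two adjacency relations. -/
def adjDiff (adj adj' : V → V → Prop) (x y : V) : Prop := adj x y ∧ ¬ adj' x y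

instance adjDiff_decidable (adj adj' : V → V → Prop) [DecidableRel adj] [DecidableRel adj'] :
    DecidableRel (adjDiff adj adj') := fun x y =>
  inferInstanceAs (Decidable (adj x y ∧ ¬ adj' x y))

theorem hamH_split (adj adj' : V → V → Prop) [DecidableRel adj] [DecidableRel adj']
    (hsub : ∀ x y, adj' x y → adj x y) (h : ℝ) :
    hamH d adj h = hamH d adj' h + hamH d (adjDiff adj adj') 0 := by
  have hR : hamR d adj = hamR d adj' + hamR d (adjDiff adj adj') := by
    unfold hamR
    rw [← smul_add, ← Finset.sum_add_distrib]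
    congr 1
    refine Finset.sum_congr rfl fun x _ => ?_
    rw [← Finset.sum_add_distrib]
    refine Finset.sum_congr rfl fun y _ => ?_
    by_cases h1 : adj x y
    · by_cases h2 : adj' x y
      · have h3 : ¬ adjDiff adj adj' x y := fun hh => hh.2 h2
        rw [if_pos h1, if_pos h2, if_neg h3, add_zero]
      · have h3 : adjDiff adj adj' x y := ⟨h1, h2⟩
        rw [if_pos h1, if_neg h2, if_pos h3, zero_add]
    · have h2 : ¬ adj' x y := fun hh => h1 (hsub x y hh)
      have h3 : ¬ adjDiff adj adj' x y := fun hh => h1 hh.1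
      rw [if_neg h1, if_neg h2, if_neg h3, add_zero]
  unfold hamH
  rw [hR, zero_smul, sub_zero]
  abel

/-- Removing edges changes the logarithm of the partition function by at most a constant times the
number of removed (ordered) edges. -/
theorem log_partG_sub (adj adj' : V → V → Prop) [DecidableRel adj] [DecidableRel adj']
    (hirr : ∀ x, ¬ adj x x) (hsub : ∀ x y, adj' x y → adj x y) (β h : ℝ) (hβ : 0 ≤ β) :
    |Real.log (partG d adj β h) - Real.log (partG d adj' β h)| ≤
      β * (3 / 2 * ((d : ℝ) ^ 2 / 4) * nadj (adjDiff adj adj')) := by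
  have hirr' : ∀ x, ¬ adj' x x := fun x hh => hirr x (hsub x x hh)
  have hirrD : ∀ x, ¬ adjDiff adj adj' x x := fun x hh => hirr x hh.1
  have hsplit := hamH_split (d := d) adj adj' hsub h
  have hWt : (hamH d (adjDiff adj adj') 0)ᵀ = hamH d (adjDiff adj adj') 0 :=
    hamH_transpose d _ hirrD 0
  have hW : ∀ (U : Matrix (V → Fin (d + 1)) (V → Fin (d + 1)) ℝ) (w : (V → Fin (d + 1)) → ℝ),
      (∀ k, 0 ≤ w k) → |gibbs U w (hamH d (adjDiff adj adj') 0)| ≤
        3 / 2 * ((d : ℝ) ^ 2 / 4) * nadj (adjDiff adj adj') * gibbs U w 1 := by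
    intro U w hw
    have := hamH_abs (adjDiff adj adj') hirrD 0 U w hw
    simpa using this
  have d1 := log_perturb adj' adj hirr' hirr β h ((-β) • hamH d (adjDiff adj adj') 0)
    (by rw [Matrix.transpose_smul, hWt])
    (β * (3 / 2 * ((d : ℝ) ^ 2 / 4) * nadj (adjDiff adj adj')))
    (by
      intro U w hw
      rw [gibbs_smul, abs_mul, abs_neg, abs_of_nonneg hβ, mul_assoc]
      exact mul_le_mul_of_nonneg_left (hW U w hw) hβ)
    (by rw [hsplit, smul_add])
  have d2 := log_perturb adj adj' hirr hirr' β h (β • hamH d (adjDiff adj adj') 0)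
    (by rw [Matrix.transpose_smul, hWt])
    (β * (3 / 2 * ((d : ℝ) ^ 2 / 4) * nadj (adjDiff adj adj')))
    (by
      intro U w hw
      rw [gibbs_smul, abs_mul, abs_of_nonneg hβ, mul_assoc]
      exact mul_le_mul_of_nonneg_left (hW U w hw) hβ)
    (by
      rw [hsplit, smul_add, neg_smul, neg_smul]
      abel)
  rw [abs_le]
  constructor <;> linarith

end

end Vale.Agent.Lib.P361.Gen
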