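import Vale.Agent.Lib.P361.GFourier

namespace Vale.Agent.Lib.P361.Gen

set_option linter.unusedSectionVars false
set_option linter.unusedVariables false

noncomputable section

/-- Nearest-neighbour relation on the cube `Λ_N`, as used in the Hamiltonian. -/
def adjB (N : ℕ) (x y : box N) : Prop :=
  |x.1.1 - y.1.1| + |x.1.2.1 - y.1.2.1| + |x.1.2.2 - y.1.2.2| = 1

instance adjB_decidable (N : ℕ) : DecidableRel (adjB N) := fun x y =>
  inferInstanceAs (Decidable (|x.1.1 - y.1.1| + |x.1.2.1 - y.1.2.1| + |x.1.2.2 - y.1.2.2| = 1))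

theorem adjB_irrefl (N : ℕ) (x : box N) : ¬ adjB N x x := by
  unfold adjB
  simp

theorem adjB_symm (N : ℕ) (x y : box N) (h : adjB N x y) : adjB N y x := by
  unfold adjB at h ⊢
  rw [abs_sub_comm y.1.1, abs_sub_comm y.1.2.1, abs_sub_comm y.1.2.2]
  exact h

theorem adj_cases (a b c : ℤ) (h : |a| + |b| + |c| = 1) :
    (a = 1 ∨ a = -1) ∧ b = 0 ∧ c = 0 ∨ a = 0 ∧ (b = 1 ∨ b = -1) ∧ c = 0 ∨
      a = 0 ∧ b = 0 ∧ (c = 1 ∨ c = -1) := by
  rcases abs_cases a with ⟨h1, h1'⟩ | ⟨h1, h1'⟩ <;> rcases abs_cases b with ⟨h2, h2'⟩ | ⟨h2, h2'⟩ <;>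
    rcases abs_cases c with ⟨h3, h3'⟩ | ⟨h3, h3'⟩ <;> omega

theorem card_box (N : ℕ) : Fintype.card (box N) = (2 * N + 1) ^ 3 := by
  rw [Fintype.card_coe]
  unfold box
  rw [Finset.card_product, Finset.card_product, Int.card_Icc]
  have : ((N : ℤ) + 1 - (-(N : ℤ))).toNat = 2 * N + 1 := by omega
  rw [this]
  ring

theorem card_box_real (N : ℕ) : (Fintype.card (box N) : ℝ) = (2 * (N : ℝ) + 1) ^ 3 := by
  rw [card_box]
  push_cast
  ring

theorem sum_point_le (N : ℕ) (p : ℤ × ℤ × ℤ) :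
    ∑ y : box N, (if y.1 = p then (1 : ℝ) else 0) ≤ 1 := by
  rw [Finset.sum_boole]
  have : (Finset.univ.filter (fun y : box N => y.1 = p)).card ≤ 1 := by
    rw [Finset.card_le_one]
    intro a ha b hb
    rw [Finset.mem_filter] at ha hb
    exact Subtype.ext (ha.2.trans hb.2.symm)
  exact_mod_cast this

theorem dir_sum1 (N : ℕ) (x : box N) :
    ∑ y : box N, (if adjB N x y then (((x.1.1 - y.1.1 : ℤ) : ℝ)) ^ 2 else 0) ≤ 2 := by
  have hle : ∀ y : box N, (if adjB N x y then (((x.1.1 - y.1.1 : ℤ) : ℝ)) ^ 2 else 0) ≤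
      (if y.1 = (x.1.1 + 1, x.1.2.1, x.1.2.2) then (1 : ℝ) else 0) +
        (if y.1 = (x.1.1 - 1, x.1.2.1, x.1.2.2) then (1 : ℝ) else 0) := by
    intro y
    have hnn : (0 : ℝ) ≤ (if y.1 = (x.1.1 + 1, x.1.2.1, x.1.2.2) then (1 : ℝ) else 0) +
        (if y.1 = (x.1.1 - 1, x.1.2.1, x.1.2.2) then (1 : ℝ) else 0) := by
      split_ifs <;> norm_num
    by_cases hxy : adjB N x y
    · rw [if_pos hxy]
      unfold adjB at hxy
      have e : y.1 = (y.1.1, y.1.2.1, y.1.2.2) := rfl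
      rcases adj_cases _ _ _ hxy with ⟨h1 | h1, h2, h3⟩ | ⟨h1, h2, h3⟩ | ⟨h1, h2, h3⟩
      · have : y.1 = (x.1.1 - 1, x.1.2.1, x.1.2.2) := by
          rw [e]
          simp only [Prod.mk.injEq]
          exact ⟨by omega, by omega, by omega⟩
        rw [if_pos this, h1]
        have h0 : (0 : ℝ) ≤ (if y.1 = (x.1.1 + 1, x.1.2.1, x.1.2.2) then (1 : ℝ) else 0) := by
          split_ifs <;> norm_num
        norm_num
        linarith
      · have : y.1 = (x.1.1 + 1, x.1.2.1, x.1.2.2) := by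
          rw [e]
          simp only [Prod.mk.injEq]
          exact ⟨by omega, by omega, by omega⟩
        rw [if_pos this, h1]
        have h0 : (0 : ℝ) ≤ (if y.1 = (x.1.1 - 1, x.1.2.1, x.1.2.2) then (1 : ℝ) else 0) := by
          split_ifs <;> norm_num
        norm_num
        linarith
      · rw [h1]
        simpa using hnn
      · rw [h1]
        simpa using hnn
    · rw [if_neg hxy]
      exact hnn
  refine (Finset.sum_le_sum fun y _ => hle y).trans ?_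
  rw [Finset.sum_add_distrib]
  have := sum_point_le N (x.1.1 + 1, x.1.2.1, x.1.2.2)
  have := sum_point_le N (x.1.1 - 1, x.1.2.1, x.1.2.2)
  linarith

theorem dir_sum2 (N : ℕ) (x : box N) :
    ∑ y : box N, (if adjB N x y then (((x.1.2.1 - y.1.2.1 : ℤ) : ℝ)) ^ 2 else 0) ≤ 2 := by
  have hle : ∀ y : box N, (if adjB N x y then (((x.1.2.1 - y.1.2.1 : ℤ) : ℝ)) ^ 2 else 0) ≤
      (if y.1 = (x.1.1, x.1.2.1 + 1, x.1.2.2) then (1 : ℝ) else 0) +
        (if y.1 = (x.1.1, x.1.2.1 - 1, x.1.2.2) then (1 : ℝ) else 0) := by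
    intro y
    have hnn : (0 : ℝ) ≤ (if y.1 = (x.1.1, x.1.2.1 + 1, x.1.2.2) then (1 : ℝ) else 0) +
        (if y.1 = (x.1.1, x.1.2.1 - 1, x.1.2.2) then (1 : ℝ) else 0) := by
      split_ifs <;> norm_num
    by_cases hxy : adjB N x y
    · rw [if_pos hxy]
      unfold adjB at hxy
      have e : y.1 = (y.1.1, y.1.2.1, y.1.2.2) := rfl
      rcases adj_cases _ _ _ hxy with ⟨h1, h2, h3⟩ | ⟨h1, h2 | h2, h3⟩ | ⟨h1, h2, h3⟩
      · rw [h2]
        simpa using hnn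
      · have : y.1 = (x.1.1, x.1.2.1 - 1, x.1.2.2) := by
          rw [e]
          simp only [Prod.mk.injEq]
          exact ⟨by omega, by omega, by omega⟩
        rw [if_pos this, h2]
        have h0 : (0 : ℝ) ≤ (if y.1 = (x.1.1, x.1.2.1 + 1, x.1.2.2) then (1 : ℝ) else 0) := by
          split_ifs <;> norm_num
        norm_num
        linarith
      · have : y.1 = (x.1.1, x.1.2.1 + 1, x.1.2.2) := by
          rw [e]
          simp only [Prod.mk.injEq]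
          exact ⟨by omega, by omega, by omega⟩
        rw [if_pos this, h2]
        have h0 : (0 : ℝ) ≤ (if y.1 = (x.1.1, x.1.2.1 - 1, x.1.2.2) then (1 : ℝ) else 0) := by
          split_ifs <;> norm_num
        norm_num
        linarith
      · rw [h2]
        simpa using hnn
    · rw [if_neg hxy]
      exact hnn
  refine (Finset.sum_le_sum fun y _ => hle y).trans ?_
  rw [Finset.sum_add_distrib]
  have := sum_point_le N (x.1.1, x.1.2.1 + 1, x.1.2.2)
  have := sum_point_le N (x.1.1, x.1.2.1 - 1, x.1.2.2)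
  linarith

theorem dir_sum3 (N : ℕ) (x : box N) :
    ∑ y : box N, (if adjB N x y then (((x.1.2.2 - y.1.2.2 : ℤ) : ℝ)) ^ 2 else 0) ≤ 2 := by
  have hle : ∀ y : box N, (if adjB N x y then (((x.1.2.2 - y.1.2.2 : ℤ) : ℝ)) ^ 2 else 0) ≤
      (if y.1 = (x.1.1, x.1.2.1, x.1.2.2 + 1) then (1 : ℝ) else 0) +
        (if y.1 = (x.1.1, x.1.2.1, x.1.2.2 - 1) then (1 : ℝ) else 0) := by
    intro y
    have hnn : (0 : ℝ) ≤ (if y.1 = (x.1.1, x.1.2.1, x.1.2.2 + 1) then (1 : ℝ) else 0) +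
        (if y.1 = (x.1.1, x.1.2.1, x.1.2.2 - 1) then (1 : ℝ) else 0) := by
      split_ifs <;> norm_num
    by_cases hxy : adjB N x y
    · rw [if_pos hxy]
      unfold adjB at hxy
      have e : y.1 = (y.1.1, y.1.2.1, y.1.2.2) := rfl
      rcases adj_cases _ _ _ hxy with ⟨h1, h2, h3⟩ | ⟨h1, h2, h3⟩ | ⟨h1, h2, h3 | h3⟩
      · rw [h3]
        simpa using hnn
      · rw [h3]
        simpa using hnn
      · have : y.1 = (x.1.1, x.1.2.1, x.1.2.2 - 1) := by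
          rw [e]
          simp only [Prod.mk.injEq]
          exact ⟨by omega, by omega, by omega⟩
        rw [if_pos this, h3]
        have h0 : (0 : ℝ) ≤ (if y.1 = (x.1.1, x.1.2.1, x.1.2.2 + 1) then (1 : ℝ) else 0) := by
          split_ifs <;> norm_num
        norm_num
        linarith
      · have : y.1 = (x.1.1, x.1.2.1, x.1.2.2 + 1) := by
          rw [e]
          simp only [Prod.mk.injEq]
          exact ⟨by omega, by omega, by omega⟩
        rw [if_pos this, h3]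
        have h0 : (0 : ℝ) ≤ (if y.1 = (x.1.1, x.1.2.1, x.1.2.2 - 1) then (1 : ℝ) else 0) := by
          split_ifs <;> norm_num
        norm_num
        linarith
    · rw [if_neg hxy]
      exact hnn
  refine (Finset.sum_le_sum fun y _ => hle y).trans ?_
  rw [Finset.sum_add_distrib]
  have := sum_point_le N (x.1.1, x.1.2.1, x.1.2.2 + 1)
  have := sum_point_le N (x.1.1, x.1.2.1, x.1.2.2 - 1)
  linarith

/-- `|q|²`. -/
def qsq (q : ℤ × ℤ × ℤ) : ℝ := (q.1 : ℝ) ^ 2 + (q.2.1 : ℝ) ^ 2 + (q.2.2 : ℝ) ^ 2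

theorem qsq_nonneg (q : ℤ × ℤ × ℤ) : 0 ≤ qsq q := by
  unfold qsq
  positivity

theorem mode_term (N : ℕ) (q : ℤ × ℤ × ℤ) (x y : box N) (hxy : adjB N x y) :
    (ca N q x - ca N q y) ^ 2 + (sa N q x - sa N q y) ^ 2 ≤
      (2 * Real.pi / (2 * (N : ℝ) + 1)) ^ 2 / (2 * (N : ℝ) + 1) ^ 3 *
        ((q.1 : ℝ) ^ 2 * (((x.1.1 - y.1.1 : ℤ) : ℝ)) ^ 2 +
          (q.2.1 : ℝ) ^ 2 * (((x.1.2.1 - y.1.2.1 : ℤ) : ℝ)) ^ 2 +
          (q.2.2 : ℝ) ^ 2 * (((x.1.2.2 - y.1.2.2 : ℤ) : ℝ)) ^ 2) := by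
  have hL : (0 : ℝ) < 2 * (N : ℝ) + 1 := by positivity
  have hn := nrm_pos N
  have e1 : (ca N q x - ca N q y) ^ 2 + (sa N q x - sa N q y) ^ 2 =
      (2 - 2 * Real.cos (ang N q x.1 - ang N q y.1)) / (2 * (N : ℝ) + 1) ^ 3 := by
    unfold ca sa
    rw [← nrm_sq, Real.cos_sub]
    have h1 := Real.cos_sq_add_sin_sq (ang N q x.1)
    have h2 := Real.cos_sq_add_sin_sq (ang N q y.1)
    field_simp
    nlinarith
  have e2 : ang N q x.1 - ang N q y.1 = 2 * Real.pi / (2 * (N : ℝ) + 1) *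
      ((q.1 : ℝ) * ((x.1.1 - y.1.1 : ℤ) : ℝ) + (q.2.1 : ℝ) * ((x.1.2.1 - y.1.2.1 : ℤ) : ℝ) +
        (q.2.2 : ℝ) * ((x.1.2.2 - y.1.2.2 : ℤ) : ℝ)) := by
    unfold ang dotp
    push_cast
    field_simp
    ring
  have e3 : ((q.1 : ℝ) * ((x.1.1 - y.1.1 : ℤ) : ℝ) + (q.2.1 : ℝ) * ((x.1.2.1 - y.1.2.1 : ℤ) : ℝ) +
        (q.2.2 : ℝ) * ((x.1.2.2 - y.1.2.2 : ℤ) : ℝ)) ^ 2 =
      (q.1 : ℝ) ^ 2 * (((x.1.1 - y.1.1 : ℤ) : ℝ)) ^ 2 +
          (q.2.1 : ℝ) ^ 2 * (((x.1.2.1 - y.1.2.1 : ℤ) : ℝ)) ^ 2 +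
          (q.2.2 : ℝ) ^ 2 * (((x.1.2.2 - y.1.2.2 : ℤ) : ℝ)) ^ 2 := by
    unfold adjB at hxy
    rcases adj_cases _ _ _ hxy with ⟨h1, h2, h3⟩ | ⟨h1, h2, h3⟩ | ⟨h1, h2, h3⟩
    · rw [h2, h3]
      push_cast
      ring
    · rw [h1, h3]
      push_cast
      ring
    · rw [h1, h2]
      push_cast
      ring
  rw [e1, ← e3, div_mul_eq_mul_div, ← mul_pow, ← e2]
  apply div_le_div_of_nonneg_right _ (by positivity)
  have := Real.one_sub_sq_div_two_le_cos (x := ang N q x.1 - ang N q y.1)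
  linarith

/-- The Dirichlet energy of the Fourier mode `q` (sum over ordered adjacent pairs). -/
theorem mode_energy (N : ℕ) (q : ℤ × ℤ × ℤ) :
    (∑ x : box N, ∑ y : box N, if adjB N x y then (ca N q x - ca N q y) ^ 2 else 0) +
      (∑ x : box N, ∑ y : box N, if adjB N x y then (sa N q x - sa N q y) ^ 2 else 0) ≤
        2 * (2 * Real.pi / (2 * (N : ℝ) + 1)) ^ 2 * qsq q := by
  have hL : (0 : ℝ) < 2 * (N : ℝ) + 1 := by positivity
  set θ2 : ℝ := (2 * Real.pi / (2 * (N : ℝ) + 1)) ^ 2 / (2 * (N : ℝ) + 1) ^ 3 with hθ2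
  have hθ2pos : 0 ≤ θ2 := by positivity
  rw [← Finset.sum_add_distrib]
  have hx : ∀ x : box N, (∑ y : box N, if adjB N x y then (ca N q x - ca N q y) ^ 2 else 0) +
      (∑ y : box N, if adjB N x y then (sa N q x - sa N q y) ^ 2 else 0) ≤ θ2 * (2 * qsq q) := by
    intro x
    rw [← Finset.sum_add_distrib]
    have hy : ∀ y : box N, ((if adjB N x y then (ca N q x - ca N q y) ^ 2 else 0) +
        (if adjB N x y then (sa N q x - sa N q y) ^ 2 else 0)) ≤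
        θ2 * ((q.1 : ℝ) ^ 2 * (if adjB N x y then (((x.1.1 - y.1.1 : ℤ) : ℝ)) ^ 2 else 0) +
          (q.2.1 : ℝ) ^ 2 * (if adjB N x y then (((x.1.2.1 - y.1.2.1 : ℤ) : ℝ)) ^ 2 else 0) +
          (q.2.2 : ℝ) ^ 2 * (if adjB N x y then (((x.1.2.2 - y.1.2.2 : ℤ) : ℝ)) ^ 2 else 0)) := by
      intro y
      by_cases hxy : adjB N x y
      · simp only [if_pos hxy]
        exact mode_term N q x y hxy
      · simp only [if_neg hxy]
        simp
    refine (Finset.sum_le_sum fun y _ => hy y).trans ?_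
    rw [← Finset.mul_sum, Finset.sum_add_distrib, Finset.sum_add_distrib, ← Finset.mul_sum,
      ← Finset.mul_sum, ← Finset.mul_sum]
    apply mul_le_mul_of_nonneg_left _ hθ2pos
    have h1 := mul_le_mul_of_nonneg_left (dir_sum1 N x) (sq_nonneg (q.1 : ℝ))
    have h2 := mul_le_mul_of_nonneg_left (dir_sum2 N x) (sq_nonneg (q.2.1 : ℝ))
    have h3 := mul_le_mul_of_nonneg_left (dir_sum3 N x) (sq_nonneg (q.2.2 : ℝ))
    unfold qsq
    linarith
  refine (Finset.sum_le_sum fun x _ => hx x).trans ?_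
  rw [Finset.sum_const, Finset.card_univ, nsmul_eq_mul, card_box_real, hθ2]
  have : (2 * (N : ℝ) + 1) ^ 3 * ((2 * Real.pi / (2 * (N : ℝ) + 1)) ^ 2 / (2 * (N : ℝ) + 1) ^ 3 *
      (2 * qsq q)) = 2 * (2 * Real.pi / (2 * (N : ℝ) + 1)) ^ 2 * qsq q := by
    field_simp
  rw [this]

end

end Vale.Agent.Lib.P361.Gen
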