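import Vale.Agent.Lib.P361.GAsym

namespace Vale.Agent.Lib.P361.Gen

set_option linter.unusedSectionVars false
set_option linter.unusedVariables false

noncomputable section

open Filter Topology

theorem rpow_three_half {x : ℝ} (hx : 0 < x) : x ^ (3 / 2 : ℝ) = x * Real.sqrt x := by
  have e : (3 / 2 : ℝ) = 1 + 1 / 2 := by norm_num
  rw [e, Real.rpow_add hx, Real.rpow_one, Real.sqrt_eq_rpow]

/-- Truncated sums of `∑ 1 / (n+1)^{3/2}`. -/
def zsum (n₀ : ℕ) : ℝ := ∑ n ∈ Finset.range n₀, 1 / (((n : ℝ) + 1) * Real.sqrt ((n : ℝ) + 1))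

/-- `ζ(3/2)` as a real series. -/
def zval : ℝ := ∑' n : ℕ, 1 / (((n : ℝ) + 1) * Real.sqrt ((n : ℝ) + 1))

theorem zsum_nonneg (n₀ : ℕ) : 0 ≤ zsum n₀ := by
  unfold zsum
  exact Finset.sum_nonneg fun n _ => by positivity

theorem zterm_summable : Summable fun n : ℕ => 1 / (((n : ℝ) + 1) * Real.sqrt ((n : ℝ) + 1)) := by
  have h1 : Summable (fun n : ℕ => 1 / (n : ℝ) ^ (3 / 2 : ℝ)) :=
    Real.summable_one_div_nat_rpow.2 (by norm_num)
  have h2 := (summable_nat_add_iff 1).2 h1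
  refine h2.congr fun n => ?_
  have hn : (0 : ℝ) < (n : ℝ) + 1 := by positivity
  push_cast
  rw [rpow_three_half hn]

theorem zsum_tendsto : Tendsto zsum atTop (𝓝 zval) :=
  zterm_summable.hasSum.tendsto_sum_nat

theorem zeta_eq_zval : (riemannZeta (3 / 2)).re = zval := by
  have hs : 1 < (3 / 2 : ℂ).re := by norm_num
  rw [zeta_eq_tsum_one_div_nat_add_one_cpow hs]
  have hterm : ∀ n : ℕ, 1 / ((n : ℂ) + 1) ^ (3 / 2 : ℂ) =
      ((1 / (((n : ℝ) + 1) * Real.sqrt ((n : ℝ) + 1)) : ℝ) : ℂ) := by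
    intro n
    have hn : (0 : ℝ) < (n : ℝ) + 1 := by positivity
    have h1 : ((n : ℂ) + 1) = (((n : ℝ) + 1 : ℝ) : ℂ) := by
      push_cast
      ring
    have h2 : (3 / 2 : ℂ) = ((3 / 2 : ℝ) : ℂ) := by
      push_cast
      ring
    rw [h1, h2, ← Complex.ofReal_cpow hn.le, rpow_three_half hn]
    push_cast
    ring
  rw [tsum_congr hterm, ← Complex.ofReal_tsum, Complex.ofReal_re]
  rfl

/-- The comparison magnetisation `S - K β^{-3/2}`. -/
def m0f (d : ℕ) (K β : ℝ) : ℝ := (d : ℝ) / 2 - K / (β * Real.sqrt β)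

/-- The lower bound function. -/
def Psif (d n₀ : ℕ) (K β : ℝ) : ℝ :=
  16 * ((m0f d K β) ^ 2 * Real.sqrt (m0f d K β)) *
    Gf (Real.pi * Real.sqrt (β * (d : ℝ) / 2)) ^ 3 * zsum n₀ / (Real.pi ^ 3 * (d : ℝ) ^ 4)

theorem tendsto_bsb : Tendsto (fun β : ℝ => β * Real.sqrt β) atTop atTop :=
  Tendsto.atTop_mul_atTop₀ tendsto_id Real.tendsto_sqrt_atTop

theorem m0f_tendsto (d : ℕ) (K : ℝ) : Tendsto (m0f d K) atTop (𝓝 ((d : ℝ) / 2)) := by
  have h1 : Tendsto (fun β : ℝ => K / (β * Real.sqrt β)) atTop (𝓝 0) :=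
    tendsto_const_nhds.div_atTop tendsto_bsb
  have h2 := (tendsto_const_nhds (x := (d : ℝ) / 2)).sub h1
  rw [sub_zero] at h2
  exact h2

theorem Psif_tendsto (d n₀ : ℕ) (hd : 1 ≤ d) (K : ℝ) :
    Tendsto (Psif d n₀ K) atTop
      (𝓝 (zsum n₀ / (8 * (Real.pi * Real.sqrt Real.pi) * ((d : ℝ) / 2 * Real.sqrt ((d : ℝ) / 2))))) := by
  have hπ := Real.pi_pos
  have hdpos : (0 : ℝ) < (d : ℝ) := by
    have : 0 < d := by omega
    exact_mod_cast this
  have hm0 := m0f_tendsto d K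
  have hG : Tendsto (fun β : ℝ => Gf (Real.pi * Real.sqrt (β * (d : ℝ) / 2))) atTop
      (𝓝 (Real.sqrt Real.pi / 2)) := by
    apply Gf_tendsto.comp
    apply Tendsto.const_mul_atTop hπ
    apply Real.tendsto_sqrt_atTop.comp
    have : (fun β : ℝ => β * (d : ℝ) / 2) = fun β : ℝ => β * ((d : ℝ) / 2) := by
      funext β
      ring
    rw [this]
    exact Tendsto.atTop_mul_const (by positivity) tendsto_id
  have hsq : Tendsto (fun β : ℝ => Real.sqrt (m0f d K β)) atTop (𝓝 (Real.sqrt ((d : ℝ) / 2))) :=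
    (Real.continuous_sqrt.tendsto _).comp hm0
  have hΨ : Tendsto (Psif d n₀ K) atTop
      (𝓝 (16 * (((d : ℝ) / 2) ^ 2 * Real.sqrt ((d : ℝ) / 2)) * (Real.sqrt Real.pi / 2) ^ 3 * zsum n₀ /
        (Real.pi ^ 3 * (d : ℝ) ^ 4))) := by
    unfold Psif
    apply Tendsto.div_const
    apply Tendsto.mul_const
    apply Tendsto.mul
    · apply Tendsto.const_mul
      exact (hm0.pow 2).mul hsq
    · exact hG.pow 3
  have e : 16 * (((d : ℝ) / 2) ^ 2 * Real.sqrt ((d : ℝ) / 2)) * (Real.sqrt Real.pi / 2) ^ 3 * zsum n₀ /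
        (Real.pi ^ 3 * (d : ℝ) ^ 4) =
      zsum n₀ / (8 * (Real.pi * Real.sqrt Real.pi) * ((d : ℝ) / 2 * Real.sqrt ((d : ℝ) / 2))) := by
    obtain ⟨rp, hrp⟩ : ∃ rp : ℝ, Real.sqrt Real.pi = rp := ⟨_, rfl⟩
    obtain ⟨rs, hrs⟩ : ∃ rs : ℝ, Real.sqrt ((d : ℝ) / 2) = rs := ⟨_, rfl⟩
    have hrp0 : 0 < rp := by
      rw [← hrp]
      exact Real.sqrt_pos.2 hπ
    have hrs0 : 0 < rs := by
      rw [← hrs]
      exact Real.sqrt_pos.2 (by positivity)
    have e1 : Real.pi = rp ^ 2 := by rw [← hrp, Real.sq_sqrt hπ.le]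
    have e2 : (d : ℝ) = 2 * rs ^ 2 := by
      rw [← hrs, Real.sq_sqrt (by positivity)]
      ring
    rw [hrp, hrs, e1, e2]
    field_simp
    ring
  rw [e] at hΨ
  exact hΨ

/-- One-sided Bloch law in square-root form. -/
theorem bloch_sqrt (d : ℕ) (hd : 1 ≤ d) (ε : ℝ) (hε : 0 < ε) :
    ∃ β₀ : ℝ, 0 < β₀ ∧ ∀ β : ℝ, β₀ ≤ β → ∀ m : ℝ,
      HasDerivWithinAt (pressure d β) m (Set.Ioi 0) 0 →
        zval / (8 * (Real.pi * Real.sqrt Real.pi) * ((d : ℝ) / 2 * Real.sqrt ((d : ℝ) / 2))) - ε ≤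
          β * Real.sqrt β * ((d : ℝ) / 2 - m) := by
  have hπ := Real.pi_pos
  have hdpos : (0 : ℝ) < (d : ℝ) := by
    have : 0 < d := by omega
    exact_mod_cast this
  obtain ⟨c0, hc0def⟩ : ∃ c0 : ℝ,
      8 * (Real.pi * Real.sqrt Real.pi) * ((d : ℝ) / 2 * Real.sqrt ((d : ℝ) / 2)) = c0 := ⟨_, rfl⟩
  have hc0 : 0 < c0 := by
    rw [← hc0def]
    have h1 : 0 < Real.sqrt Real.pi := Real.sqrt_pos.2 hπ
    have h2 : 0 < Real.sqrt ((d : ℝ) / 2) := Real.sqrt_pos.2 (by positivity)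
    positivity
  rw [hc0def]
  obtain ⟨K, hK⟩ : ∃ K : ℝ, zval / c0 = K := ⟨_, rfl⟩
  rw [hK]
  have hA : Tendsto (fun n₀ => zsum n₀ / c0) atTop (𝓝 K) := by
    rw [← hK]
    exact zsum_tendsto.div_const c0
  obtain ⟨n₀, hn₀⟩ : ∃ n₀, K - ε / 2 < zsum n₀ / c0 :=
    (hA.eventually (lt_mem_nhds (by linarith))).exists
  have hΨ := Psif_tendsto d n₀ hd K
  rw [hc0def] at hΨ
  have hev1 : ∀ᶠ β in atTop, K - ε < Psif d n₀ K β := hΨ.eventually (lt_mem_nhds (by linarith))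
  have hev2 : ∀ᶠ β in atTop, 0 < m0f d K β :=
    (m0f_tendsto d K).eventually (lt_mem_nhds (by positivity))
  obtain ⟨β₀, hβ₀⟩ := eventually_atTop.1 (hev1.and hev2)
  refine ⟨max β₀ 1, by positivity, ?_⟩
  intro β hβ m hm
  obtain ⟨h1, h2⟩ := hβ₀ β (le_trans (le_max_left _ _) hβ)
  have hβpos : 0 < β := lt_of_lt_of_le one_pos (le_trans (le_max_right _ _) hβ)
  have hsb : 0 < Real.sqrt β := Real.sqrt_pos.2 hβpos
  have hbb : 0 < β * Real.sqrt β := by positivity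
  by_cases hKle : K ≤ β * Real.sqrt β * ((d : ℝ) / 2 - m)
  · linarith
  · rw [not_le] at hKle
    have hm0lt : m0f d K β < m := by
      unfold m0f
      have : (d : ℝ) / 2 - m < K / (β * Real.sqrt β) := by
        rw [lt_div_iff₀ hbb]
        linarith
      linarith
    have hmain : Psif d n₀ K β ≤ β * Real.sqrt β * ((d : ℝ) / 2 - m) := by
      by_contra hcon
      rw [not_le] at hcon
      obtain ⟨η, hηdef⟩ : ∃ η : ℝ, min ((m - m0f d K β) / 2)
          ((Psif d n₀ K β - β * Real.sqrt β * ((d : ℝ) / 2 - m)) / (2 * (β * Real.sqrt β))) = η :=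
        ⟨_, rfl⟩
      have hη : 0 < η := by
        rw [← hηdef]
        apply lt_min
        · linarith
        · apply div_pos
          · linarith
          · positivity
      have hη1 : η ≤ (m - m0f d K β) / 2 := by
        rw [← hηdef]
        exact min_le_left _ _
      have hη2 : η ≤ (Psif d n₀ K β - β * Real.sqrt β * ((d : ℝ) / 2 - m)) / (2 * (β * Real.sqrt β)) := by
        rw [← hηdef]
        exact min_le_right _ _
      have ha : 0 < m - η := by linarith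
      have hle0 : m0f d K β ≤ m - η := by linarith
      have hb := bloch_a d hd β hβpos m hm (m - η) ha (by linarith) n₀
      have hmon : Psif d n₀ K β ≤ 16 * ((m - η) ^ 2 * Real.sqrt (m - η)) *
          Gf (Real.pi * Real.sqrt (β * (d : ℝ) / 2)) ^ 3 * zsum n₀ / (Real.pi ^ 3 * (d : ℝ) ^ 4) := by
        unfold Psif
        apply div_le_div_of_nonneg_right _ (by positivity)
        apply mul_le_mul_of_nonneg_right _ (zsum_nonneg n₀)
        apply mul_le_mul_of_nonneg_right _ (pow_nonneg (Gf_nonneg (by positivity)) 3)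
        apply mul_le_mul_of_nonneg_left _ (by norm_num)
        exact mul_le_mul (pow_le_pow_left₀ h2.le hle0 2) (Real.sqrt_le_sqrt hle0)
          (Real.sqrt_nonneg _) (by positivity)
      have h3 : β * Real.sqrt β * η ≤ (Psif d n₀ K β - β * Real.sqrt β * ((d : ℝ) / 2 - m)) / 2 := by
        have h4 := mul_le_mul_of_nonneg_left hη2 hbb.le
        have e : β * Real.sqrt β * ((Psif d n₀ K β - β * Real.sqrt β * ((d : ℝ) / 2 - m)) /
            (2 * (β * Real.sqrt β))) = (Psif d n₀ K β - β * Real.sqrt β * ((d : ℝ) / 2 - m)) / 2 := by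
          field_simp
        rw [e] at h4
        exact h4
      have h5 : β * Real.sqrt β * ((d : ℝ) / 2 - (m - η)) =
          β * Real.sqrt β * ((d : ℝ) / 2 - m) + β * Real.sqrt β * η := by ring
      rw [h5] at hb
      unfold zsum at hmon
      linarith
    linarith

end

end Vale.Agent.Lib.P361.Gen
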