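import Vale.Agent.Lib.P361.GReal

namespace Vale.Agent.Lib.P361.Gen

open Matrix

set_option linter.unusedSectionVars false
set_option linter.unusedVariables false

noncomputable section

variable {V : Type} [Fintype V] [DecidableEq V] {d : ℕ}

theorem gibbs_mag (U : Matrix (V → Fin (d + 1)) (V → Fin (d + 1)) ℝ) (w : (V → Fin (d + 1)) → ℝ) :
    gibbs U w (magR d) = ∑ x : V, gibbs U w (Sz d x) := by
  unfold magR
  rw [gibbs_sum]

theorem gibbs_commA (U : Matrix (V → Fin (d + 1)) (V → Fin (d + 1)) ℝ) (w : (V → Fin (d + 1)) → ℝ)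
    (φ : V → ℝ) :
    gibbs U w (Aop d φ * (Aop d φ)ᵀ - (Aop d φ)ᵀ * Aop d φ) =
      ∑ x : V, 2 * φ x ^ 2 * gibbs U w (Sz d x) := by
  rw [comm_A, gibbs_sum]
  exact Finset.sum_congr rfl fun x _ => gibbs_smul U w _ _

/-- Roepstorff's inequality for a pair of modes `a`, `b` with `a² + b² ≡ c`. -/
theorem mode_pair (adj : V → V → Prop) [DecidableRel adj] (hirr : ∀ x, ¬ adj x x)
    (hsymm : ∀ x y, adj x y → adj y x) (β h : ℝ) (hβ : 0 < β)
    (U : Matrix (V → Fin (d + 1)) (V → Fin (d + 1)) ℝ) (E : (V → Fin (d + 1)) → ℝ)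
    (hU1 : U * Uᵀ = 1) (hU2 : Uᵀ * U = 1) (hH : hamH d adj h = U * Matrix.diagonal E * Uᵀ)
    (a b : V → ℝ) (c e : ℝ) (hc : 0 < c) (hab : ∀ x, a x ^ 2 + b x ^ 2 = c)
    (he : (∑ x : V, ∑ y : V, if adj x y then (a x - a y) ^ 2 else 0) +
      (∑ x : V, ∑ y : V, if adj x y then (b x - b y) ^ 2 else 0) ≤ e)
    (hM : 0 < gibbs U (fun k => Real.exp (-(β * E k))) (magR d)) (x₀ : ℝ) (hx₀ : 0 < x₀)
    (hx : x₀ = β * ((d : ℝ) ^ 2 / 4 * e * gibbs U (fun k => Real.exp (-(β * E k))) 1 /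
      (2 * c * gibbs U (fun k => Real.exp (-(β * E k))) (magR d)) + h)) :
    bose x₀ * (2 * c * gibbs U (fun k => Real.exp (-(β * E k))) (magR d)) ≤
      gibbs U (fun k => Real.exp (-(β * E k))) ((Aop d a)ᵀ * Aop d a) +
        gibbs U (fun k => Real.exp (-(β * E k))) ((Aop d b)ᵀ * Aop d b) := by
  set w : (V → Fin (d + 1)) → ℝ := fun k => Real.exp (-(β * E k)) with hw
  have hwpos : ∀ k, 0 ≤ w k := fun k => (Real.exp_pos _).le
  have hZ : 0 ≤ gibbs U w 1 := by
    have := gibbs_pos U w hwpos 1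
    rwa [Matrix.transpose_one, Matrix.one_mul] at this
  have hB : gibbs U w (Aop d a * (Aop d a)ᵀ - (Aop d a)ᵀ * Aop d a) +
      gibbs U w (Aop d b * (Aop d b)ᵀ - (Aop d b)ᵀ * Aop d b) = 2 * c * gibbs U w (magR d) := by
    rw [gibbs_commA, gibbs_commA, gibbs_mag, ← Finset.sum_add_distrib, Finset.mul_sum]
    refine Finset.sum_congr rfl fun x _ => ?_
    rw [← hab x]
    ring
  have hsq : ∑ x : V, a x ^ 2 * gibbs U w (Sz d x) + ∑ x : V, b x ^ 2 * gibbs U w (Sz d x) =
      c * gibbs U w (magR d) := by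
    rw [gibbs_mag, ← Finset.sum_add_distrib, Finset.mul_sum]
    refine Finset.sum_congr rfl fun x _ => ?_
    rw [← hab x]
    ring
  have hCa := dc_bound adj hirr hsymm h U w hwpos a
  have hCb := dc_bound adj hirr hsymm h U w hwpos b
  have key := roepstorff (ι := Bool) U E hU1 hU2 (hamH d adj h) hH β
    (fun i => if i then Aop d a else Aop d b) x₀ hx₀
  simp only [Fintype.sum_bool, if_true, Bool.false_eq_true, if_false] at key
  rw [hB] at key
  apply key
  have hM' : 0 < 2 * c * gibbs U w (magR d) := by positivity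
  have e1 : x₀ * (2 * c * gibbs U w (magR d)) =
      β * ((d : ℝ) ^ 2 / 4 * e * gibbs U w 1 + 2 * h * (c * gibbs U w (magR d))) := by
    rw [hx]
    field_simp
  rw [e1]
  apply mul_le_mul_of_nonneg_left _ hβ.le
  have h3 : (d : ℝ) ^ 2 / 4 * ((∑ x : V, ∑ y : V, if adj x y then (a x - a y) ^ 2 else 0) +
      (∑ x : V, ∑ y : V, if adj x y then (b x - b y) ^ 2 else 0)) * gibbs U w 1 ≤
      (d : ℝ) ^ 2 / 4 * e * gibbs U w 1 := by
    apply mul_le_mul_of_nonneg_right _ hZ
    apply mul_le_mul_of_nonneg_left he (by positivity)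
  rw [← hsq]
  nlinarith

/-- The sum rule for a family of mode pairs satisfying Bessel's inequality. -/
theorem mode_sumrule {ι : Type} (K : Finset ι) (a b : ι → V → ℝ)
    (hbes : ∀ v : V → ℝ,
      ∑ q ∈ K, ((∑ x, a q x * v x) ^ 2 + (∑ x, b q x * v x) ^ 2) ≤ ∑ x, v x ^ 2)
    (U : Matrix (V → Fin (d + 1)) (V → Fin (d + 1)) ℝ) (w : (V → Fin (d + 1)) → ℝ)
    (hw : ∀ k, 0 ≤ w k) :
    ∑ q ∈ K, (gibbs U w ((Aop d (a q))ᵀ * Aop d (a q)) + gibbs U w ((Aop d (b q))ᵀ * Aop d (b q))) ≤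
      (d : ℝ) * ((d : ℝ) / 2 * (Fintype.card V : ℝ) * gibbs U w 1 - gibbs U w (magR d)) := by
  have h1 := gibbs_bessel K a b hbes U w hw (fun x => Sp d x)
  refine h1.trans ?_
  rw [gibbs_mag]
  have h2 : ∀ x : V, gibbs U w ((Sp d x)ᵀ * Sp d x) ≤
      (d : ℝ) * ((d : ℝ) / 2 * gibbs U w 1 - gibbs U w (Sz d x)) := by
    intro x
    rw [Sp_transpose]
    exact sumrule_local U w hw x
  refine (Finset.sum_le_sum fun x _ => h2 x).trans ?_
  rw [← Finset.mul_sum, Finset.sum_sub_distrib, Finset.sum_const, Finset.card_univ, nsmul_eq_mul]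
  apply le_of_eq
  ring

theorem smul_conj (β : ℝ) (U : Matrix (V → Fin (d + 1)) (V → Fin (d + 1)) ℝ)
    (E : (V → Fin (d + 1)) → ℝ) :
    (-β) • (U * Matrix.diagonal E * Uᵀ) = U * Matrix.diagonal (fun k => -(β * E k)) * Uᵀ := by
  have : Matrix.diagonal (fun k => -(β * E k)) = (-β) • Matrix.diagonal E := by
    ext i j
    by_cases hij : i = j
    · subst hij
      simp
    · simp [hij]
  rw [this, Matrix.mul_smul, Matrix.smul_mul]

theorem partG_eq_sum (adj : V → V → Prop) [DecidableRel adj] (β h : ℝ)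
    (U : Matrix (V → Fin (d + 1)) (V → Fin (d + 1)) ℝ) (E : (V → Fin (d + 1)) → ℝ)
    (hU1 : U * Uᵀ = 1) (hU2 : Uᵀ * U = 1) (hH : hamH d adj h = U * Matrix.diagonal E * Uᵀ) :
    partG d adj β h = ∑ k, Real.exp (-(β * E k)) := by
  rw [partG_real, hH, smul_conj, trace_exp_conj U _ hU1 hU2]

theorem partG_eq_gibbs (adj : V → V → Prop) [DecidableRel adj] (β h : ℝ)
    (U : Matrix (V → Fin (d + 1)) (V → Fin (d + 1)) ℝ) (E : (V → Fin (d + 1)) → ℝ)
    (hU1 : U * Uᵀ = 1) (hU2 : Uᵀ * U = 1) (hH : hamH d adj h = U * Matrix.diagonal E * Uᵀ) :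
    partG d adj β h = gibbs U (fun k => Real.exp (-(β * E k))) 1 := by
  rw [partG_eq_sum adj β h U E hU1 hU2 hH, gibbs_one U _ hU2]

theorem partG_pos (adj : V → V → Prop) [DecidableRel adj] (hirr : ∀ x, ¬ adj x x) (β h : ℝ) :
    0 < partG d adj β h := by
  have hHerm : (hamH d adj h).IsHermitian := by
    unfold Matrix.IsHermitian
    rw [Matrix.conjTranspose_eq_transpose_of_trivial]
    exact hamH_transpose d adj hirr h
  obtain ⟨U, E, hU1, hU2, hH, _⟩ := spectral_real (hamH d adj h) hHerm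
  rw [partG_eq_sum adj β h U E hU1 hU2 hH]
  apply Finset.sum_pos
  · intro k _
    exact Real.exp_pos _
  · exact Finset.univ_nonempty

/-- Convexity (tangent) inequality for the logarithm of the partition function. -/
theorem log_tangent (adj : V → V → Prop) [DecidableRel adj] (hirr : ∀ x, ¬ adj x x) (β h : ℝ)
    (U : Matrix (V → Fin (d + 1)) (V → Fin (d + 1)) ℝ) (E : (V → Fin (d + 1)) → ℝ)
    (hU1 : U * Uᵀ = 1) (hU2 : Uᵀ * U = 1) (hH : hamH d adj h = U * Matrix.diagonal E * Uᵀ) :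
    Real.log (partG d adj β h) - Real.log (partG d adj β 0) ≤
      β * h * (gibbs U (fun k => Real.exp (-(β * E k))) (magR d) /
        gibbs U (fun k => Real.exp (-(β * E k))) 1) := by
  have hZpos := partG_pos (d := d) adj hirr β h
  have hZ0pos := partG_pos (d := d) adj hirr β 0
  have hHs : ((-β) • hamH d adj h).IsHermitian := by
    unfold Matrix.IsHermitian
    rw [Matrix.conjTranspose_eq_transpose_of_trivial, Matrix.transpose_smul,
      hamH_transpose d adj hirr h]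
  have hBs : ((-(β * h)) • (magR d : Matrix (V → Fin (d + 1)) (V → Fin (d + 1)) ℝ)).IsHermitian := by
    unfold Matrix.IsHermitian
    rw [Matrix.conjTranspose_eq_transpose_of_trivial, Matrix.transpose_smul, magR_transpose]
  have hH' : (-β) • hamH d adj h = U * Matrix.diagonal (fun k => -(β * E k)) * Uᵀ := by
    rw [hH, smul_conj]
  have hvar := gibbs_variational U (fun k => -(β * E k)) hU1 hU2 ((-β) • hamH d adj h) hH' hHs
    ((-(β * h)) • magR d) hBs
  have e0 : (-β) • hamH d adj h + (-(β * h)) • magR d = (-β) • hamH d adj 0 := by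
    unfold hamH
    rw [zero_smul, sub_zero, smul_sub, smul_smul]
    have : (-β) * h = -(β * h) := by ring
    rw [this]
    abel
  rw [e0, ← partG_real, ← partG_eq_sum adj β h U E hU1 hU2 hH, gibbs_smul] at hvar
  rw [← partG_eq_gibbs adj β h U E hU1 hU2 hH]
  have hlog := Real.log_le_log (mul_pos hZpos (Real.exp_pos _)) hvar
  rw [Real.log_mul hZpos.ne' (Real.exp_pos _).ne', Real.log_exp] at hlog
  have e1 : -(β * h) * gibbs U (fun k => Real.exp (-(β * E k))) (magR d) / partG d adj β h =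
      -(β * h * (gibbs U (fun k => Real.exp (-(β * E k))) (magR d) / partG d adj β h)) := by ring
  rw [e1] at hlog
  linarith

/-- A priori bounds on the eigenvalues. -/
theorem eig_abs (adj : V → V → Prop) [DecidableRel adj] (hirr : ∀ x, ¬ adj x x) (h : ℝ)
    (U : Matrix (V → Fin (d + 1)) (V → Fin (d + 1)) ℝ) (E : (V → Fin (d + 1)) → ℝ)
    (hU1 : U * Uᵀ = 1) (hU2 : Uᵀ * U = 1) (hH : hamH d adj h = U * Matrix.diagonal E * Uᵀ)
    (k : V → Fin (d + 1)) :
    |E k| ≤ 3 / 2 * ((d : ℝ) ^ 2 / 4) * nadj adj + |h| * ((d : ℝ) / 2) * (Fintype.card V : ℝ) := by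
  have hsingle : ∀ X : Matrix (V → Fin (d + 1)) (V → Fin (d + 1)) ℝ,
      gibbs U (Pi.single k 1) X = (Uᵀ * X * U) k k := by
    intro X
    unfold gibbs
    rw [Finset.sum_eq_single k]
    · simp
    · intro j _ hj
      simp [hj]
    · intro hk
      exact absurd (Finset.mem_univ k) hk
  have hw : ∀ j, 0 ≤ (Pi.single k (1 : ℝ) : (V → Fin (d + 1)) → ℝ) j := by
    intro j
    by_cases hj : j = k
    · subst hj
      simp
    · simp [Pi.single_apply, hj]
  have h1 := hamH_abs adj hirr h U (Pi.single k 1) hw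
  rw [hsingle, hsingle, hH, cj_diag U hU2, Matrix.diagonal_apply_eq, Matrix.mul_one, hU2,
    Matrix.one_apply_eq, mul_one] at h1
  exact h1

theorem log_partG_bounds (adj : V → V → Prop) [DecidableRel adj] (hirr : ∀ x, ¬ adj x x) (β h : ℝ)
    (hβ : 0 < β) :
    |Real.log (partG d adj β h) - (Fintype.card V : ℝ) * Real.log ((d : ℝ) + 1)| ≤
      β * (3 / 2 * ((d : ℝ) ^ 2 / 4) * nadj adj + |h| * ((d : ℝ) / 2) * (Fintype.card V : ℝ)) := by
  have hHerm : (hamH d adj h).IsHermitian := by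
    unfold Matrix.IsHermitian
    rw [Matrix.conjTranspose_eq_transpose_of_trivial]
    exact hamH_transpose d adj hirr h
  obtain ⟨U, E, hU1, hU2, hH, _⟩ := spectral_real (hamH d adj h) hHerm
  set C : ℝ := 3 / 2 * ((d : ℝ) ^ 2 / 4) * nadj adj + |h| * ((d : ℝ) / 2) * (Fintype.card V : ℝ)
    with hC
  have hE : ∀ k, |E k| ≤ C := eig_abs adj hirr h U E hU1 hU2 hH
  have hZpos := partG_pos (d := d) adj hirr β h
  rw [partG_eq_sum adj β h U E hU1 hU2 hH] at hZpos ⊢
  have hcard : (Fintype.card (V → Fin (d + 1)) : ℝ) = ((d : ℝ) + 1) ^ (Fintype.card V) := by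
    rw [Fintype.card_fun, Fintype.card_fin]
    push_cast
    ring
  have hcpos : (0 : ℝ) < ((d : ℝ) + 1) ^ (Fintype.card V) := by positivity
  have hup : ∑ k, Real.exp (-(β * E k)) ≤ ((d : ℝ) + 1) ^ (Fintype.card V) * Real.exp (β * C) := by
    rw [← hcard, ← nsmul_eq_mul, ← Finset.card_univ, ← Finset.sum_const]
    refine Finset.sum_le_sum fun k _ => ?_
    rw [Real.exp_le_exp]
    have := (abs_le.1 (hE k)).1
    nlinarith
  have hlo : ((d : ℝ) + 1) ^ (Fintype.card V) * Real.exp (-(β * C)) ≤ ∑ k, Real.exp (-(β * E k)) := by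
    rw [← hcard, ← nsmul_eq_mul, ← Finset.card_univ, ← Finset.sum_const]
    refine Finset.sum_le_sum fun k _ => ?_
    rw [Real.exp_le_exp]
    have := (abs_le.1 (hE k)).2
    nlinarith
  have h1 := Real.log_le_log hZpos hup
  have h2 := Real.log_le_log (mul_pos hcpos (Real.exp_pos _)) hlo
  rw [Real.log_mul hcpos.ne' (Real.exp_pos _).ne', Real.log_exp, Real.log_pow] at h1 h2
  rw [abs_le]
  constructor <;> linarith

end

end Vale.Agent.Lib.P361.Gen
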