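import Vale.Agent.Lib.P361.GIso

namespace Vale.Agent.Lib.P361.Gen

open Matrix

set_option linter.unusedSectionVars false
set_option linter.unusedVariables false

noncomputable section

variable {V : Type} [Fintype V] [DecidableEq V] {d : ℕ}

/-- Global spin reversal on configurations. -/
def flipCfg (V : Type) (q : ℕ) : (V → Fin q) ≃ (V → Fin q) where
  toFun s := fun z => Fin.rev (s z)
  invFun s := fun z => Fin.rev (s z)
  left_inv := by
    intro s
    funext z
    simp
  right_inv := by
    intro s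
    funext z
    simp

theorem siteOp_flip {q : ℕ} (x : V) (A : Matrix (Fin q) (Fin q) ℝ) :
    reidx (flipCfg V q) (siteOp x A) = siteOp x (A.submatrix Fin.rev Fin.rev) := by
  ext s t
  simp only [reidx_apply, Matrix.submatrix_apply, siteOp_apply, flipCfg, Equiv.coe_fn_mk]
  have hiff : (∀ z, z ≠ x → Fin.rev (s z) = Fin.rev (t z)) ↔ (∀ z, z ≠ x → s z = t z) := by
    constructor
    · intro h z hz
      exact Fin.rev_injective (h z hz)
    · intro h z hz
      rw [h z hz]
  simp only [hiff]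

theorem szR_flip (d : ℕ) : (szR d).submatrix Fin.rev Fin.rev = -szR d := by
  ext i j
  simp only [szR, Matrix.submatrix_apply, Matrix.neg_apply, Matrix.diagonal_apply]
  by_cases hij : i = j
  · subst hij
    simp only [if_true]
    have hi : (i : ℕ) ≤ d := Nat.lt_succ_iff.1 i.2
    rw [Fin.val_rev]
    have : ((d + 1 - ((i : ℕ) + 1) : ℕ) : ℝ) = (d : ℝ) - ((i : ℕ) : ℝ) := by
      have h1 : d + 1 - ((i : ℕ) + 1) = d - (i : ℕ) := by omega
      rw [h1, Nat.cast_sub hi]
    rw [this]
    ring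
  · have : Fin.rev i ≠ Fin.rev j := fun hh => hij (Fin.rev_injective hh)
    simp [hij, this]

theorem spR_flip (d : ℕ) : (spR d).submatrix Fin.rev Fin.rev = (spR d)ᵀ := by
  ext i j
  simp only [spR, Matrix.submatrix_apply, Matrix.transpose_apply, Matrix.of_apply, Fin.val_rev]
  have hi : (i : ℕ) ≤ d := Nat.lt_succ_iff.1 i.2
  have hj : (j : ℕ) ≤ d := Nat.lt_succ_iff.1 j.2
  by_cases hji : (j : ℕ) + 1 = (i : ℕ)
  · have h1 : d + 1 - ((i : ℕ) + 1) + 1 = d + 1 - ((j : ℕ) + 1) := by omega
    rw [if_pos h1, if_pos hji]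
    congr 1
    have e1 : ((d + 1 - ((i : ℕ) + 1) : ℕ) : ℝ) = (d : ℝ) - ((i : ℕ) : ℝ) := by
      have h2 : d + 1 - ((i : ℕ) + 1) = d - (i : ℕ) := by omega
      rw [h2, Nat.cast_sub hi]
    rw [e1]
    have e2 : ((i : ℕ) : ℝ) = ((j : ℕ) : ℝ) + 1 := by
      rw [← hji]
      push_cast
      ring
    rw [e2]
    ring
  · have h1 : ¬ (d + 1 - ((i : ℕ) + 1) + 1 = d + 1 - ((j : ℕ) + 1)) := by omega
    rw [if_neg h1, if_neg hji]

theorem spRt_flip (d : ℕ) : ((spR d)ᵀ).submatrix Fin.rev Fin.rev = spR d := by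
  rw [← Matrix.transpose_submatrix, spR_flip, Matrix.transpose_transpose]

theorem hb2_flip (x y : V) : reidx (flipCfg V (d + 1)) (hb2 d x y) = hb2 d x y := by
  unfold hb2 Sz Sp Sm
  simp only [map_add, reidx_mul, siteOp_flip, szR_flip, spR_flip, spRt_flip]
  have hneg : ∀ z : V, (siteOp z (-szR d) : Matrix (V → Fin (d + 1)) (V → Fin (d + 1)) ℝ) =
      -siteOp z (szR d) := by
    intro z
    have := siteOp_smul (R := ℝ) z (-1 : ℝ) (szR d)
    simpa using this
  rw [hneg, hneg, neg_mul_neg]
  abel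

theorem hamH_flip (adj : V → V → Prop) [DecidableRel adj] (h : ℝ) :
    hamH d adj (-h) = (hamH d adj h).submatrix (flipCfg V (d + 1)) (flipCfg V (d + 1)) := by
  have hR : hamR d adj = reidx (flipCfg V (d + 1)) (hamR d adj) := by
    unfold hamR
    rw [map_smul, map_sum]
    congr 1
    refine Finset.sum_congr rfl fun x _ => ?_
    rw [map_sum]
    refine Finset.sum_congr rfl fun y _ => ?_
    by_cases hxy : adj x y
    · rw [if_pos hxy]
      unfold hbond
      rw [map_smul, hb2_flip]
    · rw [if_neg hxy, map_zero]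
  have hM : reidx (flipCfg V (d + 1)) (magR d) =
      -(magR d : Matrix (V → Fin (d + 1)) (V → Fin (d + 1)) ℝ) := by
    unfold magR
    rw [map_sum, ← Finset.sum_neg_distrib]
    refine Finset.sum_congr rfl fun x _ => ?_
    unfold Sz
    rw [siteOp_flip, szR_flip]
    have := siteOp_smul (R := ℝ) x (-1 : ℝ) (szR d)
    simpa using this
  rw [← reidx_apply]
  unfold hamH
  rw [map_sub, map_smul, hM, ← hR]
  simp

/-- Spin-reversal symmetry of the partition function. -/
theorem partG_neg (adj : V → V → Prop) [DecidableRel adj] (hirr : ∀ x, ¬ adj x x) (β h : ℝ) :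
    partG d adj β (-h) = partG d adj β h :=
  partG_reindex adj hirr adj β h (-h) (flipCfg V (d + 1)) (hamH_flip adj h)

end

end Vale.Agent.Lib.P361.Gen
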