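import Vale.Agent.Lib.P361.GDefs

namespace Vale.Agent.Lib.P361.Gen

set_option linter.unusedSectionVars false
set_option linter.unusedVariables false

noncomputable section

theorem sum_Icc_range {M : Type} [AddCommMonoid M] (N : ℕ) (f : ℤ → M) :
    ∑ a ∈ Finset.Icc (-(N : ℤ)) N, f a = ∑ s ∈ Finset.range (2 * N + 1), f ((s : ℤ) - N) := by
  have h : Finset.Icc (-(N : ℤ)) N = (Finset.range (2 * N + 1)).image (fun s : ℕ => (s : ℤ) - N) := by
    ext a
    simp only [Finset.mem_Icc, Finset.mem_image, Finset.mem_range]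
    constructor
    · rintro ⟨h1, h2⟩
      exact ⟨(a + N).toNat, by omega, by omega⟩
    · rintro ⟨s, hs, rfl⟩
      constructor <;> omega
  rw [h, Finset.sum_image]
  intro s _ s' _ hss
  simpa using hss

/-- The one-dimensional character `exp (2π i r a / (2N+1))`. -/
def chi (N : ℕ) (r a : ℤ) : ℂ :=
  Complex.exp (((2 * Real.pi * ((r * a : ℤ) : ℝ) / (2 * (N : ℝ) + 1) : ℝ) : ℂ) * Complex.I)

theorem chi_sum_zero (N : ℕ) (r : ℤ) (hr : r ≠ 0) (hr2 : |r| ≤ 2 * (N : ℤ)) :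
    ∑ a ∈ Finset.Icc (-(N : ℤ)) N, chi N r a = 0 := by
  rw [sum_Icc_range]
  have hL : (0 : ℝ) < 2 * (N : ℝ) + 1 := by positivity
  set ζ : ℂ := Complex.exp (((2 * Real.pi * (r : ℝ) / (2 * (N : ℝ) + 1) : ℝ) : ℂ) * Complex.I) with hζ
  have e1 : ∀ s : ℕ, chi N r ((s : ℤ) - N) = chi N r (-(N : ℤ)) * ζ ^ s := by
    intro s
    unfold chi
    rw [hζ, ← Complex.exp_nat_mul, ← Complex.exp_add]
    congr 1
    push_cast
    field_simp
    ring
  rw [Finset.sum_congr rfl fun s _ => e1 s, ← Finset.mul_sum]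
  have hζ1 : ζ ≠ 1 := by
    intro h1
    rw [hζ, Complex.exp_eq_one_iff] at h1
    obtain ⟨k, hk⟩ := h1
    have him := congrArg Complex.im hk
    simp only [Complex.mul_im, Complex.ofReal_re, Complex.I_im, Complex.ofReal_im, Complex.I_re,
      mul_zero, mul_one, add_zero, Complex.intCast_re, Complex.intCast_im,
      Complex.mul_re, Complex.re_ofNat, Complex.im_ofNat, sub_zero, zero_mul] at him
    have hpi := Real.pi_pos
    have h2 : (r : ℝ) = (k : ℝ) * (2 * (N : ℝ) + 1) := by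
      field_simp at him
      nlinarith
    have h3 : r = k * (2 * (N : ℤ) + 1) := by exact_mod_cast h2
    have hk0 : k ≠ 0 := by
      rintro rfl
      apply hr
      simpa using h3
    have h4 : (2 * (N : ℤ) + 1) ≤ |r| := by
      rw [h3, abs_mul]
      have : (1 : ℤ) ≤ |k| := Int.one_le_abs hk0
      have h5 : |(2 * (N : ℤ) + 1)| = 2 * (N : ℤ) + 1 := abs_of_pos (by positivity)
      rw [h5]
      nlinarith
    omega
  have hζL : ζ ^ (2 * N + 1) = 1 := by
    rw [hζ, ← Complex.exp_nat_mul]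
    have : ((2 * N + 1 : ℕ) : ℂ) * (((2 * Real.pi * (r : ℝ) / (2 * (N : ℝ) + 1) : ℝ) : ℂ) * Complex.I) =
        (r : ℂ) * (2 * Real.pi * Complex.I) := by
      push_cast
      have : (2 * (N : ℂ) + 1) ≠ 0 := by exact_mod_cast hL.ne'
      field_simp
    rw [this]
    exact Complex.exp_int_mul_two_pi_mul_I r
  rw [geom_sum_eq hζ1, hζL, sub_self, zero_div, mul_zero]

theorem chi_zero (N : ℕ) (a : ℤ) : chi N 0 a = 1 := by
  unfold chi
  simp

theorem chi_sum_self (N : ℕ) :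
    ∑ a ∈ Finset.Icc (-(N : ℤ)) N, chi N 0 a = ((2 * N + 1 : ℕ) : ℂ) := by
  simp only [chi_zero, Finset.sum_const, Int.card_Icc, nsmul_eq_mul, mul_one]
  congr 1
  omega

def dotp (q x : ℤ × ℤ × ℤ) : ℤ := q.1 * x.1 + q.2.1 * x.2.1 + q.2.2 * x.2.2

/-- The angle `2π q·x / (2N+1)`. -/
def ang (N : ℕ) (q x : ℤ × ℤ × ℤ) : ℝ := 2 * Real.pi * ((dotp q x : ℤ) : ℝ) / (2 * (N : ℝ) + 1)

theorem exp_ang (N : ℕ) (r x : ℤ × ℤ × ℤ) :
    Complex.exp (((ang N r x : ℝ) : ℂ) * Complex.I) = chi N r.1 x.1 * chi N r.2.1 x.2.1 * chi N r.2.2 x.2.2 := by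
  unfold chi ang dotp
  rw [← Complex.exp_add, ← Complex.exp_add]
  congr 1
  push_cast
  ring

theorem box_sum_exp (N : ℕ) (r : ℤ × ℤ × ℤ) (hr1 : |r.1| ≤ 2 * (N : ℤ)) (hr2 : |r.2.1| ≤ 2 * (N : ℤ))
    (hr3 : |r.2.2| ≤ 2 * (N : ℤ)) :
    ∑ x ∈ box N, Complex.exp (((ang N r x : ℝ) : ℂ) * Complex.I) =
      if r = 0 then (((2 * N + 1) ^ 3 : ℕ) : ℂ) else 0 := by
  simp only [exp_ang]
  unfold box
  rw [Finset.sum_product]
  simp only [Finset.sum_product]
  have e : ∑ a ∈ Finset.Icc (-(N : ℤ)) N, ∑ b ∈ Finset.Icc (-(N : ℤ)) N,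
      ∑ c ∈ Finset.Icc (-(N : ℤ)) N, chi N r.1 a * chi N r.2.1 b * chi N r.2.2 c =
      (∑ a ∈ Finset.Icc (-(N : ℤ)) N, chi N r.1 a) * (∑ b ∈ Finset.Icc (-(N : ℤ)) N, chi N r.2.1 b) *
        (∑ c ∈ Finset.Icc (-(N : ℤ)) N, chi N r.2.2 c) := by
    rw [mul_assoc, Finset.sum_mul]
    refine Finset.sum_congr rfl fun a _ => ?_
    rw [Finset.sum_mul_sum, Finset.mul_sum]
    refine Finset.sum_congr rfl fun b _ => ?_
    rw [Finset.mul_sum]
    exact Finset.sum_congr rfl fun c _ => by ring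
  rw [e]
  by_cases h0 : r = 0
  · rw [if_pos h0, h0]
    simp only [Prod.fst_zero, Prod.snd_zero, chi_sum_self]
    push_cast
    ring
  · rw [if_neg h0]
    by_cases h1 : r.1 = 0
    · by_cases h2 : r.2.1 = 0
      · have h3 : r.2.2 ≠ 0 := by
          intro h3
          apply h0
          ext <;> simp [h1, h2, h3]
        rw [chi_sum_zero N r.2.2 h3 hr3, mul_zero]
      · rw [chi_sum_zero N r.2.1 h2 hr2, mul_zero, zero_mul]
    · rw [chi_sum_zero N r.1 h1 hr1, zero_mul, zero_mul]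

/-- The normalisation `√|Λ_N|`. -/
def nrm (N : ℕ) : ℝ := Real.sqrt ((2 * (N : ℝ) + 1) ^ 3)

theorem nrm_pos (N : ℕ) : 0 < nrm N := by
  unfold nrm
  positivity

theorem nrm_sq (N : ℕ) : nrm N ^ 2 = (2 * (N : ℝ) + 1) ^ 3 := by
  unfold nrm
  rw [Real.sq_sqrt]
  positivity

/-- Real Fourier modes on the box. -/
def ca (N : ℕ) (q : ℤ × ℤ × ℤ) (x : box N) : ℝ := Real.cos (ang N q x.1) / nrm N

def sa (N : ℕ) (q : ℤ × ℤ × ℤ) (x : box N) : ℝ := Real.sin (ang N q x.1) / nrm N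

theorem ca_sa_sq (N : ℕ) (q : ℤ × ℤ × ℤ) (x : box N) :
    ca N q x ^ 2 + sa N q x ^ 2 = 1 / (2 * (N : ℝ) + 1) ^ 3 := by
  unfold ca sa
  rw [div_pow, div_pow, ← add_div, Real.cos_sq_add_sin_sq, nrm_sq]

theorem mem_box (N : ℕ) (x : ℤ × ℤ × ℤ) : x ∈ box N ↔
    (-(N : ℤ) ≤ x.1 ∧ x.1 ≤ N) ∧ (-(N : ℤ) ≤ x.2.1 ∧ x.2.1 ≤ N) ∧ (-(N : ℤ) ≤ x.2.2 ∧ x.2.2 ≤ N) := by
  unfold box
  simp only [Finset.mem_product, Finset.mem_Icc]

theorem ang_sub (N : ℕ) (q q' x : ℤ × ℤ × ℤ) : ang N (q' - q) x = ang N q' x - ang N q x := by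
  unfold ang dotp
  simp only [Prod.fst_sub, Prod.snd_sub]
  push_cast
  ring

/-- The complex plane waves, as vectors of the complex Euclidean space over the box. -/
def evec (N : ℕ) (q : box N) : EuclideanSpace ℂ (box N) :=
  WithLp.toLp 2 (fun x : box N => Complex.exp (((ang N q.1 x.1 : ℝ) : ℂ) * Complex.I) / ((nrm N : ℝ) : ℂ))

theorem evec_orthonormal (N : ℕ) : Orthonormal ℂ (evec N) := by
  rw [orthonormal_iff_ite]
  intro q q'
  unfold evec
  rw [EuclideanSpace.inner_toLp_toLp]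
  unfold dotProduct
  have hn : ((nrm N : ℝ) : ℂ) ≠ 0 := by
    exact_mod_cast (nrm_pos N).ne'
  have hn2 : ((nrm N : ℝ) : ℂ) * ((nrm N : ℝ) : ℂ) = (((2 * N + 1) ^ 3 : ℕ) : ℂ) := by
    have := nrm_sq N
    rw [← Complex.ofReal_mul, ← sq, this]
    push_cast
    ring
  have e : ∀ x : box N, Complex.exp (((ang N q'.1 x.1 : ℝ) : ℂ) * Complex.I) / ((nrm N : ℝ) : ℂ) *
      star (fun x : box N => Complex.exp (((ang N q.1 x.1 : ℝ) : ℂ) * Complex.I) / ((nrm N : ℝ) : ℂ)) x =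
      Complex.exp (((ang N (q'.1 - q.1) x.1 : ℝ) : ℂ) * Complex.I) / (((2 * N + 1) ^ 3 : ℕ) : ℂ) := by
    intro x
    rw [Pi.star_apply, Complex.star_def, map_div₀, Complex.conj_ofReal, ← Complex.exp_conj, map_mul,
      Complex.conj_ofReal, Complex.conj_I, div_mul_div_comm, ← Complex.exp_add, hn2, ang_sub]
    congr 2
    push_cast
    ring
  rw [Finset.sum_congr rfl fun x _ => e x, ← Finset.sum_div]
  have hsum := box_sum_exp N (q'.1 - q.1) (by
      have h1 := (mem_box N q.1).1 q.2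
      have h2 := (mem_box N q'.1).1 q'.2
      simp only [Prod.fst_sub]
      rw [abs_le]
      constructor <;> omega) (by
      have h1 := (mem_box N q.1).1 q.2
      have h2 := (mem_box N q'.1).1 q'.2
      simp only [Prod.snd_sub, Prod.fst_sub]
      rw [abs_le]
      constructor <;> omega) (by
      have h1 := (mem_box N q.1).1 q.2
      have h2 := (mem_box N q'.1).1 q'.2
      simp only [Prod.snd_sub]
      rw [abs_le]
      constructor <;> omega)
  rw [Finset.sum_coe_sort (box N)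
    (fun x => Complex.exp (((ang N (q'.1 - q.1) x : ℝ) : ℂ) * Complex.I)), hsum]
  have hL : (((2 * N + 1) ^ 3 : ℕ) : ℂ) ≠ 0 := by
    exact_mod_cast (by positivity : (2 * N + 1) ^ 3 ≠ 0)
  by_cases hqq : q = q'
  · subst hqq
    rw [if_pos rfl, sub_self, if_pos rfl, div_self hL]
  · rw [if_neg hqq]
    have : q'.1 - q.1 ≠ 0 := by
      intro h
      apply hqq
      apply Subtype.ext
      exact (sub_eq_zero.1 h).symm
    rw [if_neg this, zero_div]

/-- Bessel's inequality for the real Fourier modes on the box. -/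
theorem fourier_bessel (N : ℕ) (v : box N → ℝ) :
    ∑ q : box N, ((∑ x, ca N q.1 x * v x) ^ 2 + (∑ x, sa N q.1 x * v x) ^ 2) ≤ ∑ x, v x ^ 2 := by
  have hB := (evec_orthonormal N).sum_inner_products_le
    (WithLp.toLp 2 (fun x : box N => ((v x : ℝ) : ℂ)) : EuclideanSpace ℂ (box N))
    (s := Finset.univ)
  have e1 : ‖(WithLp.toLp 2 (fun x : box N => ((v x : ℝ) : ℂ)) : EuclideanSpace ℂ (box N))‖ ^ 2 =
      ∑ x, v x ^ 2 := by
    rw [EuclideanSpace.norm_sq_eq]
    refine Finset.sum_congr rfl fun x _ => ?_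
    simp [sq_abs]
  have e2 : ∀ q : box N, ‖inner ℂ (evec N q)
      (WithLp.toLp 2 (fun x : box N => ((v x : ℝ) : ℂ)) : EuclideanSpace ℂ (box N))‖ ^ 2 =
      (∑ x, ca N q.1 x * v x) ^ 2 + (∑ x, sa N q.1 x * v x) ^ 2 := by
    intro q
    unfold evec
    rw [EuclideanSpace.inner_toLp_toLp]
    unfold dotProduct
    rw [Complex.sq_norm, Complex.normSq_apply, Complex.re_sum, Complex.im_sum]
    have hre : ∀ x : box N, (((v x : ℝ) : ℂ) * star (fun x : box N =>
        Complex.exp (((ang N q.1 x.1 : ℝ) : ℂ) * Complex.I) / ((nrm N : ℝ) : ℂ)) x).re =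
        ca N q.1 x * v x := by
      intro x
      rw [Pi.star_apply, Complex.star_def, map_div₀, Complex.conj_ofReal, ← Complex.exp_conj, map_mul,
        Complex.conj_ofReal, Complex.conj_I, Complex.re_ofReal_mul, Complex.div_ofReal_re]
      have : ((ang N q.1 x.1 : ℝ) : ℂ) * -Complex.I = ((-(ang N q.1 x.1) : ℝ) : ℂ) * Complex.I := by
        push_cast
        ring
      rw [this, Complex.exp_ofReal_mul_I_re, Real.cos_neg]
      unfold ca
      ring
    have him : ∀ x : box N, (((v x : ℝ) : ℂ) * star (fun x : box N =>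
        Complex.exp (((ang N q.1 x.1 : ℝ) : ℂ) * Complex.I) / ((nrm N : ℝ) : ℂ)) x).im =
        -(sa N q.1 x * v x) := by
      intro x
      rw [Pi.star_apply, Complex.star_def, map_div₀, Complex.conj_ofReal, ← Complex.exp_conj, map_mul,
        Complex.conj_ofReal, Complex.conj_I, Complex.im_ofReal_mul, Complex.div_ofReal_im]
      have : ((ang N q.1 x.1 : ℝ) : ℂ) * -Complex.I = ((-(ang N q.1 x.1) : ℝ) : ℂ) * Complex.I := by
        push_cast
        ring
      rw [this, Complex.exp_ofReal_mul_I_im, Real.sin_neg]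
      unfold sa
      ring
    rw [Finset.sum_congr rfl fun x _ => hre x, Finset.sum_congr rfl fun x _ => him x,
      Finset.sum_neg_distrib]
    ring
  rw [e1] at hB
  rw [Finset.sum_congr rfl fun q _ => e2 q] at hB
  exact hB

end

end Vale.Agent.Lib.P361.Gen
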