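import Vale.Agent.Lib.P361.GPress

namespace Vale.Agent.Lib.P361.Gen

set_option linter.unusedSectionVars false
set_option linter.unusedVariables false

noncomputable section

open Filter Topology

theorem PN_even (d N : ℕ) (β h : ℝ) : PN d N β (-h) = PN d N β h := by
  unfold PN
  rw [partitionFn_eq, partitionFn_eq, partG_neg (adjB N) (adjB_irrefl N)]

/-- The pressure is an even function of the field. -/
theorem pressure_even (d : ℕ) (β h : ℝ) : pressure d β (-h) = pressure d β h := by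
  rw [pressure_eq, pressure_eq]
  congr 1
  funext N
  exact PN_even d N β h

/-- The pressure is minimal at zero field. -/
theorem pressure_min (d : ℕ) (β h : ℝ) (hβ : 0 < β) : pressure d β 0 ≤ pressure d β h := by
  have hc := (pressure_convex d β hβ).2 (Set.mem_univ h) (Set.mem_univ (-h))
    (by norm_num : (0 : ℝ) ≤ 1 / 2) (by norm_num : (0 : ℝ) ≤ 1 / 2) (by norm_num)
  simp only [smul_eq_mul] at hc
  rw [pressure_even] at hc
  have e : (1 / 2 : ℝ) * h + 1 / 2 * -h = 0 := by ring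
  rw [e] at hc
  linarith

theorem PN_slope_le (d N : ℕ) (β h : ℝ) (hβ : 0 < β) (hh : 0 ≤ h) :
    PN d N β h - PN d N β 0 ≤ h * ((d : ℝ) / 2) := by
  obtain ⟨U, E, hU1, hU2, hH, _⟩ := spectral_real (hamH d (adjB N) h)
    (hamH_herm (adjB N) (adjB_irrefl N) h)
  have ht := log_tangent (adjB N) (adjB_irrefl N) β h U E hU1 hU2 hH
  have hw : ∀ k, 0 ≤ (fun k => Real.exp (-(β * E k))) k := fun k => (Real.exp_pos _).le
  have hZ : 0 < gibbs U (fun k => Real.exp (-(β * E k))) 1 := by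
    rw [← partG_eq_gibbs (adjB N) β h U E hU1 hU2 hH]
    exact partG_pos (adjB N) (adjB_irrefl N) β h
  have hM : gibbs U (fun k => Real.exp (-(β * E k))) (magR d) ≤
      (Fintype.card (box N) : ℝ) * ((d : ℝ) / 2 * gibbs U (fun k => Real.exp (-(β * E k))) 1) := by
    rw [gibbs_mag, ← nsmul_eq_mul, ← Finset.card_univ, ← Finset.sum_const]
    exact Finset.sum_le_sum fun x _ => sz_upper U _ hw x
  have hratio : gibbs U (fun k => Real.exp (-(β * E k))) (magR d) /
      gibbs U (fun k => Real.exp (-(β * E k))) 1 ≤ (Fintype.card (box N) : ℝ) * ((d : ℝ) / 2) := by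
    rw [div_le_iff₀ hZ]
    linarith
  have hcard : (Fintype.card (box N) : ℝ) = ((box N).card : ℝ) := by
    rw [Fintype.card_coe]
  rw [hcard] at hratio
  have hcpos : (0 : ℝ) < ((box N).card : ℝ) := by
    rw [card_box']
    positivity
  unfold PN
  rw [partitionFn_eq, partitionFn_eq, ← sub_div, div_le_iff₀ (mul_pos hβ hcpos)]
  refine ht.trans ?_
  have := mul_le_mul_of_nonneg_left hratio (mul_nonneg hβ.le hh)
  refine this.trans (le_of_eq ?_)
  ring

theorem pressure_slope_le (d : ℕ) (β h : ℝ) (hβ : 0 < β) (hh : 0 ≤ h) :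
    pressure d β h - pressure d β 0 ≤ h * ((d : ℝ) / 2) := by
  have h1 := PN_tendsto d β h hβ
  have h0 := PN_tendsto d β 0 hβ
  exact le_of_tendsto' (h1.sub h0) fun N => PN_slope_le d N β h hβ hh

/-- The right derivative of the pressure at zero field lies in `[0, d/2]`. -/
theorem right_deriv_bounds (d : ℕ) (β : ℝ) (hβ : 0 < β) (m : ℝ)
    (hm : HasDerivWithinAt (pressure d β) m (Set.Ioi 0) 0) : 0 ≤ m ∧ m ≤ (d : ℝ) / 2 := by
  rw [hasDerivWithinAt_iff_tendsto_slope' (Set.self_notMem_Ioi)] at hm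
  constructor
  · refine ge_of_tendsto hm ?_
    filter_upwards [self_mem_nhdsWithin] with h hpos
    have hpos' : 0 < h := hpos
    rw [slope_def_field, sub_zero]
    exact div_nonneg (sub_nonneg.2 (pressure_min d β h hβ)) hpos'.le
  · refine le_of_tendsto hm ?_
    filter_upwards [self_mem_nhdsWithin] with h hpos
    have hpos' : 0 < h := hpos
    rw [slope_def_field, sub_zero, div_le_iff₀ hpos']
    have := pressure_slope_le d β h hβ hpos'.le
    linarith

/-- Full statement: thermodynamic limit, convexity, existence and range of the spontaneous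
magnetization, and the sharp one-sided Bloch law. -/
theorem bloch_full (d : ℕ) (hd : 1 ≤ d) :
    (∀ β : ℝ, 0 < β → ∀ h : ℝ, Tendsto (fun N : ℕ =>
      Real.log (partitionFn d N β h) / (β * ((box N).card : ℝ))) atTop (𝓝 (pressure d β h))) ∧
    (∀ β : ℝ, 0 < β → ConvexOn ℝ Set.univ (pressure d β)) ∧
    (∀ β : ℝ, 0 < β → ∃ m : ℝ, HasDerivWithinAt (pressure d β) m (Set.Ioi 0) 0 ∧ 0 ≤ m ∧
      m ≤ (d : ℝ) / 2) ∧
    ∀ ε : ℝ, 0 < ε → ∃ β₀ : ℝ, 0 < β₀ ∧ ∀ β : ℝ, β₀ ≤ β → ∃ m : ℝ,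
      HasDerivWithinAt (pressure d β) m (Set.Ioi 0) 0 ∧
        (riemannZeta (3 / 2)).re / (8 * Real.pi ^ (3 / 2 : ℝ) * ((d : ℝ) / 2) ^ (3 / 2 : ℝ)) - ε ≤
          β ^ (3 / 2 : ℝ) * ((d : ℝ) / 2 - m) := by
  refine ⟨fun β hβ h => PN_tendsto d β h hβ, fun β hβ => pressure_convex d β hβ, fun β hβ => ?_,
    fun ε hε => ?_⟩
  · exact ⟨_, pressure_right_deriv d β hβ,
      right_deriv_bounds d β hβ _ (pressure_right_deriv d β hβ)⟩
  · obtain ⟨β₀, hβ₀, hb⟩ := bloch_upper d hd ε hε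
    exact ⟨β₀, hβ₀, fun β hβ => ⟨_, pressure_right_deriv d β (hβ₀.trans_le hβ),
      hb β hβ _ (pressure_right_deriv d β (hβ₀.trans_le hβ))⟩⟩

end

end Vale.Agent.Lib.P361.Gen
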