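import Vale.Agent.Lib.P361.GBox

namespace Vale.Agent.Lib.P361.Gen

set_option linter.unusedSectionVars false
set_option linter.unusedVariables false

noncomputable section

open MeasureTheory

theorem sum_Icc_symm (N : ℕ) (g : ℤ → ℝ) :
    ∑ t ∈ Finset.Icc (-(N : ℤ)) N, g t =
      g 0 + ∑ i ∈ Finset.range N, (g ((i : ℤ) + 1) + g (-((i : ℤ) + 1))) := by
  induction N with
  | zero => simp
  | succ N ih =>
    rw [sum_Icc_range] at ih ⊢
    have e : 2 * (N + 1) + 1 = (2 * N + 1) + 1 + 1 := by ring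
    rw [e, Finset.sum_range_succ, Finset.sum_range_succ']
    have e1 : ∀ s : ℕ, g (((s + 1 : ℕ) : ℤ) - ((N + 1 : ℕ) : ℤ)) = g ((s : ℤ) - (N : ℤ)) := by
      intro s
      congr 1
      push_cast
      ring
    have e2 : ((0 : ℕ) : ℤ) - ((N + 1 : ℕ) : ℤ) = -((N : ℤ) + 1) := by
      push_cast
      ring
    have e3 : ((2 * N + 1 + 1 : ℕ) : ℤ) - ((N + 1 : ℕ) : ℤ) = (N : ℤ) + 1 := by
      push_cast
      ring
    rw [Finset.sum_congr rfl fun s _ => e1 s, ih, e2, e3,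
      Finset.sum_range_succ (fun i : ℕ => g ((i : ℤ) + 1) + g (-((i : ℤ) + 1))) N]
    ring

/-- The normalised truncated Gaussian integral `(1/π) ∫₀^π exp(-s y²) dy`. -/
def Jf (s : ℝ) : ℝ := (∫ y in (0 : ℝ)..Real.pi, Real.exp (-(s * y ^ 2))) / Real.pi

theorem cont_gauss (c : ℝ) : Continuous fun x : ℝ => Real.exp (-(c * x ^ 2)) := by
  fun_prop

theorem Jf_nonneg (s : ℝ) : 0 ≤ Jf s := by
  unfold Jf
  apply div_nonneg _ Real.pi_pos.le
  apply intervalIntegral.integral_nonneg Real.pi_pos.le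
  intro u _
  exact (Real.exp_pos _).le

theorem gauss1_ge (N : ℕ) (s : ℝ) (hs : 0 ≤ s) :
    (2 * (N : ℝ) + 1) * Jf s - 2 ≤
      ∑ t ∈ Finset.Icc (-(N : ℤ)) N,
        Real.exp (-(s * (2 * Real.pi / (2 * (N : ℝ) + 1)) ^ 2 * ((t : ℤ) : ℝ) ^ 2)) := by
  have hπ := Real.pi_pos
  have hL : (0 : ℝ) < 2 * (N : ℝ) + 1 := by positivity
  set θ : ℝ := 2 * Real.pi / (2 * (N : ℝ) + 1) with hθ
  have hθpos : 0 < θ := by positivity
  set f : ℝ → ℝ := fun x => Real.exp (-(s * θ ^ 2 * x ^ 2)) with hf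
  have hfc : Continuous f := cont_gauss (s * θ ^ 2)
  have hfpos : ∀ x, 0 ≤ f x := fun x => (Real.exp_pos _).le
  rw [sum_Icc_symm]
  have hsum : ∀ i : ℕ, Real.exp (-(s * θ ^ 2 * (((i : ℤ) + 1 : ℤ) : ℝ) ^ 2)) +
      Real.exp (-(s * θ ^ 2 * ((-((i : ℤ) + 1) : ℤ) : ℝ) ^ 2)) = 2 * f (1 + (i : ℕ)) := by
    intro i
    simp only [hf]
    push_cast
    have e1 : (-((i : ℝ) + 1)) ^ 2 = (1 + (i : ℝ)) ^ 2 := by ring
    have e2 : ((i : ℝ) + 1) ^ 2 = (1 + (i : ℝ)) ^ 2 := by ring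
    rw [e1, e2]
    ring
  rw [Finset.sum_congr rfl fun i _ => hsum i, ← Finset.mul_sum]
  have h0 : 0 ≤ Real.exp (-(s * θ ^ 2 * (((0 : ℤ) : ℤ) : ℝ) ^ 2)) := (Real.exp_pos _).le
  have hanti : AntitoneOn f (Set.Icc (1 : ℝ) (1 + (N : ℕ))) := by
    intro x hx y hy hxy
    simp only [hf]
    rw [Real.exp_le_exp, neg_le_neg_iff]
    have hx0 : 0 ≤ x := by linarith [hx.1]
    have : x ^ 2 ≤ y ^ 2 := by nlinarith
    apply mul_le_mul_of_nonneg_left this (by positivity)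
  have h1 := hanti.integral_le_sum
  have h2 : (∫ x in (0 : ℝ)..(1 + (N : ℕ)), f x) - ∫ x in (0 : ℝ)..1, f x =
      ∫ x in (1 : ℝ)..(1 + (N : ℕ)), f x :=
    intervalIntegral.integral_interval_sub_left (hfc.intervalIntegrable _ _)
      (hfc.intervalIntegrable _ _)
  have h3 : ∫ x in (0 : ℝ)..1, f x ≤ 1 := by
    have := intervalIntegral.integral_mono_on (μ := volume) (zero_le_one' ℝ)
      (hfc.intervalIntegrable 0 1) ((continuous_const (y := (1 : ℝ))).intervalIntegrable 0 1)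
      (fun x _ => by
        simp only [hf]
        rw [Real.exp_le_one_iff]
        have : 0 ≤ s * θ ^ 2 * x ^ 2 := by positivity
        linarith)
    simpa using this
  have h4 : ∫ x in (0 : ℝ)..(1 + (N : ℕ)), f x =
      θ⁻¹ * ∫ y in (0 : ℝ)..(θ * (1 + (N : ℕ))), Real.exp (-(s * y ^ 2)) := by
    have := intervalIntegral.integral_comp_mul_left (a := (0 : ℝ)) (b := 1 + (N : ℕ))
      (fun y => Real.exp (-(s * y ^ 2))) hθpos.ne'
    rw [mul_zero, smul_eq_mul] at this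
    rw [← this]
    refine intervalIntegral.integral_congr fun x _ => ?_
    simp only [hf]
    congr 2
    ring
  have h5 : ∫ y in (0 : ℝ)..Real.pi, Real.exp (-(s * y ^ 2)) ≤
      ∫ y in (0 : ℝ)..(θ * (1 + (N : ℕ))), Real.exp (-(s * y ^ 2)) := by
    apply intervalIntegral.integral_mono_interval le_rfl hπ.le
    · rw [hθ]
      rw [div_mul_eq_mul_div, le_div_iff₀ hL]
      push_cast
      nlinarith
    · exact Filter.Eventually.of_forall fun x => (Real.exp_pos _).le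
    · exact (cont_gauss s).intervalIntegrable _ _
  have h6 : Jf s * Real.pi = ∫ y in (0 : ℝ)..Real.pi, Real.exp (-(s * y ^ 2)) := by
    unfold Jf
    field_simp
  have h7 : θ⁻¹ * (Jf s * Real.pi) = (2 * (N : ℝ) + 1) * Jf s / 2 := by
    rw [hθ]
    field_simp
  have h8 : θ⁻¹ * (Jf s * Real.pi) ≤
      θ⁻¹ * ∫ y in (0 : ℝ)..(θ * (1 + (N : ℕ))), Real.exp (-(s * y ^ 2)) := by
    rw [h6]
    exact mul_le_mul_of_nonneg_left h5 (inv_nonneg.2 hθpos.le)
  linarith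

theorem box_sum_gauss (N : ℕ) (c : ℝ) :
    ∑ q : box N, Real.exp (-(c * qsq q.1)) =
      (∑ t ∈ Finset.Icc (-(N : ℤ)) N, Real.exp (-(c * ((t : ℤ) : ℝ) ^ 2))) ^ 3 := by
  rw [Finset.sum_coe_sort (box N) (fun q => Real.exp (-(c * qsq q)))]
  unfold box
  rw [Finset.sum_product]
  simp only [Finset.sum_product]
  have e : ∀ a b t : ℤ, Real.exp (-(c * qsq (a, b, t))) =
      Real.exp (-(c * (a : ℝ) ^ 2)) * Real.exp (-(c * (b : ℝ) ^ 2)) * Real.exp (-(c * (t : ℝ) ^ 2)) := by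
    intro a b t
    unfold qsq
    rw [← Real.exp_add, ← Real.exp_add]
    congr 1
    ring
  simp only [e]
  rw [pow_succ, pow_two, mul_assoc, Finset.sum_mul]
  refine Finset.sum_congr rfl fun a _ => ?_
  rw [Finset.sum_mul_sum, Finset.mul_sum]
  refine Finset.sum_congr rfl fun b _ => ?_
  rw [Finset.mul_sum]
  exact Finset.sum_congr rfl fun t _ => by ring

/-- The finite-volume inequality after expanding the Bose function and summing the Gaussians. -/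
theorem fv_gauss (d N : ℕ) (β h : ℝ) (hβ : 0 < β) (hh : 0 < h) (a : ℝ) (ha : 0 < a)
    (hle : a * h ≤ PN d N β h - PN d N β 0) (n₀ : ℕ) :
    2 * a * ∑ n ∈ Finset.range n₀, Real.exp (-(((n : ℝ) + 1) * β * h)) *
      (Jf (((n : ℝ) + 1) * β * ((d : ℝ) ^ 2 / 4) / a) - 2 / (2 * (N : ℝ) + 1)) ^ 3 ≤
        (d : ℝ) * ((d : ℝ) / 2 - a) := by
  have hmono := fv_mono d N β h hβ hh a ha hle
  have hπ := Real.pi_pos
  have hL : (0 : ℝ) < 2 * (N : ℝ) + 1 := by positivity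
  set θ : ℝ := 2 * Real.pi / (2 * (N : ℝ) + 1) with hθ
  have hq : ∀ q : box N, ∑ n ∈ Finset.range n₀, Real.exp (-(((n : ℝ) + 1) * β * h)) *
      Real.exp (-(((n : ℝ) + 1) * β * ((d : ℝ) ^ 2 / 4) / a * θ ^ 2 * qsq q.1)) ≤
      bose (β * ((d : ℝ) ^ 2 / 4 * θ ^ 2 * qsq q.1 / a + h)) := by
    intro q
    have hqs := qsq_nonneg q.1
    have hx : 0 < β * ((d : ℝ) ^ 2 / 4 * θ ^ 2 * qsq q.1 / a + h) := by
      have : 0 ≤ (d : ℝ) ^ 2 / 4 * θ ^ 2 * qsq q.1 / a := by positivity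
      have : 0 < (d : ℝ) ^ 2 / 4 * θ ^ 2 * qsq q.1 / a + h := by linarith
      positivity
    refine le_trans (le_of_eq ?_) (bose_ge_sum hx n₀)
    refine Finset.sum_congr rfl fun n _ => ?_
    rw [← Real.exp_nat_mul, ← Real.exp_add]
    congr 1
    push_cast
    field_simp
    ring
  have hsum : ∑ n ∈ Finset.range n₀, Real.exp (-(((n : ℝ) + 1) * β * h)) *
      ((2 * (N : ℝ) + 1) * Jf (((n : ℝ) + 1) * β * ((d : ℝ) ^ 2 / 4) / a) - 2) ^ 3 ≤
      ∑ q : box N, bose (β * ((d : ℝ) ^ 2 / 4 * θ ^ 2 * qsq q.1 / a + h)) := by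
    refine le_trans ?_ (Finset.sum_le_sum fun q _ => hq q)
    rw [Finset.sum_comm]
    refine Finset.sum_le_sum fun n _ => ?_
    rw [← Finset.mul_sum, box_sum_gauss]
    apply mul_le_mul_of_nonneg_left _ (Real.exp_pos _).le
    have hs : 0 ≤ ((n : ℝ) + 1) * β * ((d : ℝ) ^ 2 / 4) / a := by positivity
    have hg := gauss1_ge N _ hs
    rw [← hθ] at hg
    exact (Odd.strictMono_pow (R := ℝ) (by decide : Odd 3)).monotone hg
  have hfin : (2 * a * ∑ n ∈ Finset.range n₀, Real.exp (-(((n : ℝ) + 1) * β * h)) *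
      (Jf (((n : ℝ) + 1) * β * ((d : ℝ) ^ 2 / 4) / a) - 2 / (2 * (N : ℝ) + 1)) ^ 3) *
        (2 * (N : ℝ) + 1) ^ 3 =
      2 * a * ∑ n ∈ Finset.range n₀, Real.exp (-(((n : ℝ) + 1) * β * h)) *
      ((2 * (N : ℝ) + 1) * Jf (((n : ℝ) + 1) * β * ((d : ℝ) ^ 2 / 4) / a) - 2) ^ 3 := by
    rw [mul_assoc, Finset.sum_mul]
    congr 1
    refine Finset.sum_congr rfl fun n _ => ?_
    field_simp
  have hL3 : (0 : ℝ) < (2 * (N : ℝ) + 1) ^ 3 := by positivity
  refine le_of_mul_le_mul_right ?_ hL3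
  rw [hfin]
  refine le_trans ?_ hmono
  rw [← Finset.mul_sum]
  exact mul_le_mul_of_nonneg_left hsum (by positivity)

end

end Vale.Agent.Lib.P361.Gen
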