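import Vale.Agent.Lib.P361.GConvex

namespace Vale.Agent.Lib.P361.Gen

open Matrix

set_option linter.unusedSectionVars false
set_option linter.unusedVariables false

noncomputable section

variable {V V' : Type} [Fintype V] [DecidableEq V] [Fintype V'] [DecidableEq V'] {d : ℕ}

theorem hamH_herm (adj : V → V → Prop) [DecidableRel adj] (hirr : ∀ x, ¬ adj x x) (h : ℝ) :
    (hamH d adj h).IsHermitian := by
  unfold Matrix.IsHermitian
  rw [Matrix.conjTranspose_eq_transpose_of_trivial]
  exact hamH_transpose d adj hirr h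

/-- If the Hamiltonian of one model is a reindexing of that of another, the partition functions
agree. -/
theorem partG_reindex (adj : V → V → Prop) [DecidableRel adj] (hirr : ∀ x, ¬ adj x x)
    (adj' : V' → V' → Prop) [DecidableRel adj'] (β h h' : ℝ)
    (τ : (V' → Fin (d + 1)) ≃ (V → Fin (d + 1)))
    (hτ : hamH d adj' h' = (hamH d adj h).submatrix τ τ) :
    partG d adj' β h' = partG d adj β h := by
  obtain ⟨U, E, hU1, hU2, hH, _⟩ := spectral_real (hamH d adj h) (hamH_herm adj hirr h)
  have hH' : hamH d adj' h' =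
      U.submatrix τ τ * Matrix.diagonal (E ∘ τ) * (U.submatrix τ τ)ᵀ := by
    rw [hτ, hH, Matrix.transpose_submatrix, ← Matrix.submatrix_diagonal_equiv,
      Matrix.submatrix_mul_equiv, Matrix.submatrix_mul_equiv]
  have hV1 : U.submatrix τ τ * (U.submatrix τ τ)ᵀ = 1 := by
    rw [Matrix.transpose_submatrix, Matrix.submatrix_mul_equiv, hU1, Matrix.submatrix_one_equiv]
  have hV2 : (U.submatrix τ τ)ᵀ * U.submatrix τ τ = 1 := by
    rw [Matrix.transpose_submatrix, Matrix.submatrix_mul_equiv, hU2, Matrix.submatrix_one_equiv]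
  rw [partG_eq_sum adj' β h' _ _ hV1 hV2 hH', partG_eq_sum adj β h U E hU1 hU2 hH]
  exact Equiv.sum_comp τ (fun k => Real.exp (-(β * E k)))

/-- Transfer of the bond operators along a multiplicative linear map compatible with the site
operators. -/
theorem hbond_transfer
    (Φ : Matrix (V → Fin (d + 1)) (V → Fin (d + 1)) ℝ →ₗ[ℝ]
      Matrix (V' → Fin (d + 1)) (V' → Fin (d + 1)) ℝ)
    (hmul : ∀ A B, Φ (A * B) = Φ A * Φ B) (f : V → V')
    (hΦ : ∀ (x : V) (A : Matrix (Fin (d + 1)) (Fin (d + 1)) ℝ), Φ (siteOp x A) = siteOp (f x) A)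
    (x y : V) : Φ (hbond d x y) = hbond d (f x) (f y) := by
  unfold hbond hb2 Sz Sp Sm
  simp only [map_smul, map_add, hmul, hΦ]

/-- Reindexing as a linear map. -/
def reidx {n n' : Type} (τ : n' ≃ n) : Matrix n n ℝ →ₗ[ℝ] Matrix n' n' ℝ where
  toFun M := M.submatrix τ τ
  map_add' := fun A B => rfl
  map_smul' := fun c A => rfl

theorem reidx_apply {n n' : Type} (τ : n' ≃ n) (M : Matrix n n ℝ) :
    reidx τ M = M.submatrix τ τ := rfl

theorem reidx_mul {n n' : Type} [Fintype n] [Fintype n'] (τ : n' ≃ n) (A B : Matrix n n ℝ) :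
    reidx τ (A * B) = reidx τ A * reidx τ B :=
  (Matrix.submatrix_mul_equiv A B τ τ τ).symm

/-- The equivalence of configuration spaces induced by an equivalence of vertex sets. -/
def cfgEquiv (e : V ≃ V') (q : ℕ) : (V' → Fin q) ≃ (V → Fin q) where
  toFun s := fun z => s (e z)
  invFun s := fun z => s (e.symm z)
  left_inv := by
    intro s
    funext z
    simp
  right_inv := by
    intro s
    funext z
    simp

theorem siteOp_cfgEquiv (e : V ≃ V') {q : ℕ} (x : V) (A : Matrix (Fin q) (Fin q) ℝ) :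
    reidx (cfgEquiv e q) (siteOp x A) = siteOp (e x) A := by
  ext s t
  simp only [reidx_apply, Matrix.submatrix_apply, siteOp_apply, cfgEquiv, Equiv.coe_fn_mk]
  have hiff : (∀ z, z ≠ x → s (e z) = t (e z)) ↔ (∀ z', z' ≠ e x → s z' = t z') := by
    constructor
    · intro h z' hz'
      have := h (e.symm z') (by
        intro hh
        apply hz'
        rw [← hh]
        simp)
      simpa using this
    · intro h z hz
      exact h (e z) (by simpa using hz)
  simp only [hiff]

theorem hamH_iso (e : V ≃ V') (adj : V → V → Prop) [DecidableRel adj]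
    (adj' : V' → V' → Prop) [DecidableRel adj'] (hadj : ∀ x y, adj' (e x) (e y) ↔ adj x y) (h : ℝ) :
    hamH d adj' h = (hamH d adj h).submatrix (cfgEquiv e (d + 1)) (cfgEquiv e (d + 1)) := by
  have hb : ∀ x y, reidx (cfgEquiv e (d + 1)) (hbond d x y) = hbond d (e x) (e y) :=
    hbond_transfer (reidx (cfgEquiv e (d + 1))) (reidx_mul _) e (siteOp_cfgEquiv e)
  have hR : hamR d adj' = reidx (cfgEquiv e (d + 1)) (hamR d adj) := by
    unfold hamR
    rw [map_smul, map_sum]
    congr 1
    rw [← Equiv.sum_comp e]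
    refine Finset.sum_congr rfl fun x _ => ?_
    rw [map_sum, ← Equiv.sum_comp e]
    refine Finset.sum_congr rfl fun y _ => ?_
    by_cases hxy : adj x y
    · rw [if_pos hxy, if_pos ((hadj x y).2 hxy), hb]
    · rw [if_neg hxy, if_neg (fun hh => hxy ((hadj x y).1 hh)), map_zero]
  have hM : (magR d : Matrix (V' → Fin (d + 1)) (V' → Fin (d + 1)) ℝ) =
      reidx (cfgEquiv e (d + 1)) (magR d) := by
    unfold magR
    rw [map_sum, ← Equiv.sum_comp e]
    refine Finset.sum_congr rfl fun x _ => ?_
    unfold Sz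
    exact (siteOp_cfgEquiv e x _).symm
  unfold hamH
  rw [hR, hM, ← reidx_apply, map_sub, map_smul]

/-- The partition function is invariant under graph isomorphisms. -/
theorem partG_iso (e : V ≃ V') (adj : V → V → Prop) [DecidableRel adj] (hirr : ∀ x, ¬ adj x x)
    (adj' : V' → V' → Prop) [DecidableRel adj'] (hadj : ∀ x y, adj' (e x) (e y) ↔ adj x y)
    (β h : ℝ) : partG d adj' β h = partG d adj β h :=
  partG_reindex adj hirr adj' β h h (cfgEquiv e (d + 1)) (hamH_iso e adj adj' hadj h)

end

end Vale.Agent.Lib.P361.Gen
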