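import Vale.Agent.Lib.P361.GGauss

namespace Vale.Agent.Lib.P361.Gen

set_option linter.unusedSectionVars false
set_option linter.unusedVariables false

noncomputable section

open Filter Topology

theorem degree_le (N : ℕ) (x : box N) :
    ∑ y : box N, (if adjB N x y then (1 : ℝ) else 0) ≤ 6 := by
  have h1 := dir_sum1 N x
  have h2 := dir_sum2 N x
  have h3 := dir_sum3 N x
  have hle : ∀ y : box N, (if adjB N x y then (1 : ℝ) else 0) =
      (if adjB N x y then (((x.1.1 - y.1.1 : ℤ) : ℝ)) ^ 2 else 0) +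
      (if adjB N x y then (((x.1.2.1 - y.1.2.1 : ℤ) : ℝ)) ^ 2 else 0) +
      (if adjB N x y then (((x.1.2.2 - y.1.2.2 : ℤ) : ℝ)) ^ 2 else 0) := by
    intro y
    by_cases hxy : adjB N x y
    · simp only [if_pos hxy]
      unfold adjB at hxy
      rcases adj_cases _ _ _ hxy with ⟨h1 | h1, h2, h3⟩ | ⟨h1, h2 | h2, h3⟩ | ⟨h1, h2, h3 | h3⟩ <;>
        rw [h1, h2, h3] <;> norm_num
    · simp [hxy]
  rw [Finset.sum_congr rfl fun y _ => hle y, Finset.sum_add_distrib, Finset.sum_add_distrib]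
  linarith

theorem nadj_le (N : ℕ) : nadj (adjB N) ≤ 6 * (Fintype.card (box N) : ℝ) := by
  unfold nadj
  calc ∑ x : box N, ∑ y : box N, (if adjB N x y then (1 : ℝ) else 0)
      ≤ ∑ _x : box N, (6 : ℝ) := Finset.sum_le_sum fun x _ => degree_le N x
    _ = 6 * (Fintype.card (box N) : ℝ) := by
      rw [Finset.sum_const, Finset.card_univ, nsmul_eq_mul]
      ring

theorem PN_bound (d N : ℕ) (β h : ℝ) (hβ : 0 < β) :
    |PN d N β h - Real.log ((d : ℝ) + 1) / β| ≤ 9 * ((d : ℝ) ^ 2 / 4) + |h| * ((d : ℝ) / 2) := by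
  unfold PN
  rw [partitionFn_eq]
  have hb := log_partG_bounds (d := d) (adjB N) (adjB_irrefl N) β h hβ
  have hn := nadj_le N
  have hcard : (Fintype.card (box N) : ℝ) = ((box N).card : ℝ) := by
    rw [Fintype.card_coe]
  rw [hcard] at hb hn
  obtain ⟨c, hc⟩ : ∃ c : ℝ, ((box N).card : ℝ) = c := ⟨_, rfl⟩
  have hcpos : 0 < c := by
    rw [← hc, card_box']
    positivity
  rw [hc] at hb hn ⊢
  obtain ⟨lz, hlz⟩ : ∃ lz : ℝ, Real.log (partG d (adjB N) β h) = lz := ⟨_, rfl⟩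
  rw [hlz] at hb ⊢
  have e : lz / (β * c) - Real.log ((d : ℝ) + 1) / β = (lz - c * Real.log ((d : ℝ) + 1)) / (β * c) := by
    field_simp
  rw [e, abs_div, abs_of_pos (mul_pos hβ hcpos), div_le_iff₀ (mul_pos hβ hcpos)]
  refine hb.trans ?_
  have hd : (0 : ℝ) ≤ (d : ℝ) ^ 2 / 4 := by positivity
  have h1 : 3 / 2 * ((d : ℝ) ^ 2 / 4) * nadj (adjB N) ≤ 3 / 2 * ((d : ℝ) ^ 2 / 4) * (6 * c) :=
    mul_le_mul_of_nonneg_left hn (by positivity)
  have h2 : β * (3 / 2 * ((d : ℝ) ^ 2 / 4) * nadj (adjB N) + |h| * ((d : ℝ) / 2) * c) ≤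
      β * (3 / 2 * ((d : ℝ) ^ 2 / 4) * (6 * c) + |h| * ((d : ℝ) / 2) * c) :=
    mul_le_mul_of_nonneg_left (by linarith) hβ.le
  refine h2.trans (le_of_eq ?_)
  ring

theorem pressure_eq (d : ℕ) (β h : ℝ) :
    pressure d β h = limsup (fun N : ℕ => PN d N β h) atTop := rfl

theorem PN_bdd_above (d : ℕ) (β h : ℝ) (hβ : 0 < β) :
    IsBoundedUnder (· ≤ ·) atTop (fun N : ℕ => PN d N β h) :=
  isBoundedUnder_of ⟨Real.log ((d : ℝ) + 1) / β + (9 * ((d : ℝ) ^ 2 / 4) + |h| * ((d : ℝ) / 2)),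
    fun N => by
      have := (abs_le.1 (PN_bound d N β h hβ)).2
      linarith⟩

theorem PN_bdd_below (d : ℕ) (β h : ℝ) (hβ : 0 < β) :
    IsBoundedUnder (· ≥ ·) atTop (fun N : ℕ => PN d N β h) :=
  isBoundedUnder_of ⟨Real.log ((d : ℝ) + 1) / β - (9 * ((d : ℝ) ^ 2 / 4) + |h| * ((d : ℝ) / 2)),
    fun N => by
      have := (abs_le.1 (PN_bound d N β h hβ)).1
      show _ ≤ _
      linarith⟩

theorem freq_slope (d : ℕ) (β h a : ℝ) (hβ : 0 < β)
    (hlt : a * h < pressure d β h - pressure d β 0) :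
    ∃ᶠ N in atTop, a * h ≤ PN d N β h - PN d N β 0 := by
  by_contra hcon
  rw [not_frequently] at hcon
  have hev : (fun N : ℕ => PN d N β h) ≤ᶠ[atTop] (fun N : ℕ => PN d N β 0 + a * h) := by
    filter_upwards [hcon] with N hN
    have := not_le.1 hN
    linarith
  have hb0 := PN_bdd_above d β 0 hβ
  have hc0 := (PN_bdd_below d β 0 hβ).isCoboundedUnder_le
  have hch := (PN_bdd_below d β h hβ).isCoboundedUnder_le
  have hadd := limsup_add_const atTop (fun N : ℕ => PN d N β 0) (a * h) hb0 hc0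
  have hle : pressure d β h ≤ pressure d β 0 + a * h := by
    rw [pressure_eq, pressure_eq, ← hadd]
    refine limsup_le_limsup hev hch ?_
    obtain ⟨b, hb⟩ := hb0
    refine ⟨b + a * h, ?_⟩
    rw [eventually_map] at hb ⊢
    filter_upwards [hb] with N hN
    linarith
  linarith

theorem lim_N (d : ℕ) (β h : ℝ) (hβ : 0 < β) (hh : 0 < h) (a : ℝ) (ha : 0 < a)
    (hlt : a * h < pressure d β h - pressure d β 0) (n₀ : ℕ) :
    2 * a * ∑ n ∈ Finset.range n₀, Real.exp (-(((n : ℝ) + 1) * β * h)) *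
      (Jf (((n : ℝ) + 1) * β * ((d : ℝ) ^ 2 / 4) / a)) ^ 3 ≤ (d : ℝ) * ((d : ℝ) / 2 - a) := by
  have hfreq := freq_slope d β h a hβ hlt
  have h0 : Tendsto (fun N : ℕ => (2 : ℝ) / (2 * (N : ℝ) + 1)) atTop (𝓝 0) := by
    apply Tendsto.div_atTop tendsto_const_nhds
    apply tendsto_atTop_add_const_right
    exact Tendsto.const_mul_atTop (by norm_num) tendsto_natCast_atTop_atTop
  have hlim : Tendsto (fun N : ℕ => 2 * a * ∑ n ∈ Finset.range n₀,
      Real.exp (-(((n : ℝ) + 1) * β * h)) *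
      (Jf (((n : ℝ) + 1) * β * ((d : ℝ) ^ 2 / 4) / a) - 2 / (2 * (N : ℝ) + 1)) ^ 3) atTop
      (𝓝 (2 * a * ∑ n ∈ Finset.range n₀, Real.exp (-(((n : ℝ) + 1) * β * h)) *
      (Jf (((n : ℝ) + 1) * β * ((d : ℝ) ^ 2 / 4) / a) - 0) ^ 3)) := by
    apply Tendsto.const_mul
    apply tendsto_finset_sum
    intro n _
    apply Tendsto.const_mul
    apply Tendsto.pow
    exact Tendsto.const_sub _ h0
  simp only [sub_zero] at hlim
  exact le_of_tendsto_of_frequently hlim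
    (hfreq.mono fun N hN => fv_gauss d N β h hβ hh a ha hN n₀)

/-- The implicit inequality for the right derivative `m` of the pressure at zero field. -/
theorem lim_h (d : ℕ) (β : ℝ) (hβ : 0 < β) (m : ℝ)
    (hm : HasDerivWithinAt (pressure d β) m (Set.Ioi 0) 0) (a : ℝ) (ha : 0 < a) (ham : a < m)
    (n₀ : ℕ) :
    2 * a * ∑ n ∈ Finset.range n₀, (Jf (((n : ℝ) + 1) * β * ((d : ℝ) ^ 2 / 4) / a)) ^ 3 ≤
      (d : ℝ) * ((d : ℝ) / 2 - a) := by
  rw [hasDerivWithinAt_iff_tendsto_slope' (Set.self_notMem_Ioi)] at hm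
  have hev : ∀ᶠ h in 𝓝[>] (0 : ℝ), a < slope (pressure d β) 0 h := hm.eventually (lt_mem_nhds ham)
  have hcont : Continuous (fun h : ℝ => 2 * a * ∑ n ∈ Finset.range n₀,
      Real.exp (-(((n : ℝ) + 1) * β * h)) *
      (Jf (((n : ℝ) + 1) * β * ((d : ℝ) ^ 2 / 4) / a)) ^ 3) := by
    fun_prop
  have hlim := (hcont.tendsto 0).mono_left (nhdsWithin_le_nhds (s := Set.Ioi (0 : ℝ)))
  simp only [mul_zero, neg_zero, Real.exp_zero, one_mul] at hlim
  refine le_of_tendsto hlim ?_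
  filter_upwards [hev, self_mem_nhdsWithin] with h hslope hpos
  have hpos' : 0 < h := hpos
  rw [slope_def_field, sub_zero, lt_div_iff₀ hpos'] at hslope
  exact lim_N d β h hβ hpos' a ha hslope n₀

end

end Vale.Agent.Lib.P361.Gen
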