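import Vale.Agent.Lib.P361.GSite

namespace Vale.Agent.Lib.P361.Gen

open Matrix

noncomputable section

/-- Real raising matrix. -/
def spR (d : ℕ) : Matrix (Fin (d + 1)) (Fin (d + 1)) ℝ :=
  Matrix.of fun i j =>
    if (i : ℕ) + 1 = (j : ℕ) then Real.sqrt ((((i : ℕ) : ℝ) + 1) * ((d : ℝ) - ((i : ℕ) : ℝ))) else 0

def szR (d : ℕ) : Matrix (Fin (d + 1)) (Fin (d + 1)) ℝ :=
  Matrix.diagonal fun k => (d : ℝ) / 2 - ((k : ℕ) : ℝ)

def shU (d : ℕ) : Matrix (Fin (d + 1)) (Fin (d + 1)) ℝ :=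
  Matrix.of fun i j => if (i : ℕ) + 1 = (j : ℕ) then (1 : ℝ) else 0

def dgK (d : ℕ) : Matrix (Fin (d + 1)) (Fin (d + 1)) ℝ :=
  Matrix.diagonal fun k => Real.sqrt ((k : ℕ) : ℝ)

def dgE (d : ℕ) : Matrix (Fin (d + 1)) (Fin (d + 1)) ℝ :=
  Matrix.diagonal fun k => Real.sqrt ((d : ℝ) - ((k : ℕ) : ℝ))

def prD (d : ℕ) : Matrix (Fin (d + 1)) (Fin (d + 1)) ℝ :=
  Matrix.diagonal fun k => if (k : ℕ) = d then (1 : ℝ) else 0

def dgR (d : ℕ) : Matrix (Fin (d + 1)) (Fin (d + 1)) ℝ :=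
  Matrix.diagonal fun k => Real.sqrt (((k : ℕ) : ℝ) * (((k : ℕ) : ℝ) - 1))

theorem sum_succ_eq (d : ℕ) (i : Fin (d + 1)) (g : Fin (d + 1) → ℝ) :
    ∑ k : Fin (d + 1), (if (i : ℕ) + 1 = (k : ℕ) then g k else 0) =
      if h : (i : ℕ) + 1 < d + 1 then g ⟨(i : ℕ) + 1, h⟩ else 0 := by
  by_cases h : (i : ℕ) + 1 < d + 1
  · rw [dif_pos h]
    rw [Finset.sum_eq_single (⟨(i : ℕ) + 1, h⟩ : Fin (d + 1))]
    · simp
    · intro k _ hk
      have : ¬ ((i : ℕ) + 1 = (k : ℕ)) := by
        intro h'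
        apply hk
        exact Fin.ext h'.symm
      rw [if_neg this]
    · intro h'; exact absurd (Finset.mem_univ _) h'
  · rw [dif_neg h]
    apply Finset.sum_eq_zero
    intro k _
    have : ¬ ((i : ℕ) + 1 = (k : ℕ)) := by
      intro h'
      have := k.2
      omega
    rw [if_neg this]

theorem sum_pred_eq (d : ℕ) (i : Fin (d + 1)) (g : Fin (d + 1) → ℝ) :
    ∑ k : Fin (d + 1), (if (k : ℕ) + 1 = (i : ℕ) then g k else 0) =
      if h : 0 < (i : ℕ) then g ⟨(i : ℕ) - 1, by have := i.2; omega⟩ else 0 := by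
  by_cases h : 0 < (i : ℕ)
  · rw [dif_pos h]
    rw [Finset.sum_eq_single (⟨(i : ℕ) - 1, by have := i.2; omega⟩ : Fin (d + 1))]
    · have : (i : ℕ) - 1 + 1 = (i : ℕ) := by omega
      simp [this]
    · intro k _ hk
      have : ¬ ((k : ℕ) + 1 = (i : ℕ)) := by
        intro h'
        apply hk
        apply Fin.ext
        simp only
        omega
      rw [if_neg this]
    · intro h'; exact absurd (Finset.mem_univ _) h'
  · rw [dif_neg h]
    apply Finset.sum_eq_zero
    intro k _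
    have : ¬ ((k : ℕ) + 1 = (i : ℕ)) := by omega
    rw [if_neg this]

theorem spR_apply (d : ℕ) (i j : Fin (d + 1)) : spR d i j =
    if (i : ℕ) + 1 = (j : ℕ) then Real.sqrt ((((i : ℕ) : ℝ) + 1) * ((d : ℝ) - ((i : ℕ) : ℝ))) else 0 :=
  rfl

theorem shU_apply (d : ℕ) (i j : Fin (d + 1)) : shU d i j =
    if (i : ℕ) + 1 = (j : ℕ) then (1 : ℝ) else 0 := rfl

theorem fin_le_cast (d : ℕ) (i : Fin (d + 1)) : ((i : ℕ) : ℝ) ≤ (d : ℝ) := by
  have := i.2
  exact_mod_cast Nat.lt_succ_iff.1 this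

/-- `[S^3, S^+] = S^+`. -/
theorem local_comm_zp (d : ℕ) : szR d * spR d - spR d * szR d = spR d := by
  ext i j
  rw [Matrix.sub_apply, szR, Matrix.diagonal_mul, Matrix.mul_diagonal, spR_apply]
  by_cases h : (i : ℕ) + 1 = (j : ℕ)
  · rw [if_pos h]
    have : ((j : ℕ) : ℝ) = ((i : ℕ) : ℝ) + 1 := by exact_mod_cast h.symm
    rw [this]
    ring
  · rw [if_neg h]
    ring

theorem local_pm (d : ℕ) : spR d * (spR d)ᵀ =
    Matrix.diagonal fun i : Fin (d + 1) => (((i : ℕ) : ℝ) + 1) * ((d : ℝ) - ((i : ℕ) : ℝ)) := by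
  ext i j
  rw [Matrix.mul_apply]
  have e : ∀ k : Fin (d + 1), spR d i k * (spR d)ᵀ k j =
      if (i : ℕ) + 1 = (k : ℕ) then
        Real.sqrt ((((i : ℕ) : ℝ) + 1) * ((d : ℝ) - ((i : ℕ) : ℝ))) * spR d j k else 0 := by
    intro k
    rw [Matrix.transpose_apply, spR_apply d i k]
    split_ifs <;> simp
  rw [Finset.sum_congr rfl fun k _ => e k, sum_succ_eq, Matrix.diagonal_apply]
  have hi := fin_le_cast d i
  by_cases h : (i : ℕ) + 1 < d + 1
  · rw [dif_pos h, spR_apply]
    by_cases hij : i = j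
    · subst hij
      simp only [if_true]
      rw [Real.mul_self_sqrt]
      apply mul_nonneg
      · positivity
      · linarith
    · rw [if_neg hij]
      have : ¬ ((j : ℕ) = (i : ℕ)) := by
        intro h'
        apply hij
        apply Fin.ext
        omega
      simp [this]
  · rw [dif_neg h]
    by_cases hij : i = j
    · subst hij
      simp only [if_true]
      have : (i : ℕ) = d := by have := i.2; omega
      rw [this]
      ring
    · rw [if_neg hij]

theorem local_mp (d : ℕ) : (spR d)ᵀ * spR d =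
    Matrix.diagonal fun i : Fin (d + 1) => ((i : ℕ) : ℝ) * ((d : ℝ) - ((i : ℕ) : ℝ) + 1) := by
  ext i j
  rw [Matrix.mul_apply]
  have e : ∀ k : Fin (d + 1), (spR d)ᵀ i k * spR d k j =
      if (k : ℕ) + 1 = (i : ℕ) then
        Real.sqrt ((((k : ℕ) : ℝ) + 1) * ((d : ℝ) - ((k : ℕ) : ℝ))) * spR d k j else 0 := by
    intro k
    rw [Matrix.transpose_apply, spR_apply d k i]
    split_ifs <;> simp
  rw [Finset.sum_congr rfl fun k _ => e k, sum_pred_eq, Matrix.diagonal_apply]
  have hi := fin_le_cast d i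
  by_cases h : 0 < (i : ℕ)
  · rw [dif_pos h, spR_apply]
    have hc : (((i : ℕ) - 1 : ℕ) : ℝ) = ((i : ℕ) : ℝ) - 1 := by
      rw [Nat.cast_sub (by omega)]
      simp
    have h1 : (1 : ℝ) ≤ ((i : ℕ) : ℝ) := by exact_mod_cast h
    by_cases hij : i = j
    · subst hij
      have : (i : ℕ) - 1 + 1 = (i : ℕ) := by omega
      simp only [this, if_true]
      rw [Real.mul_self_sqrt, hc]
      · ring
      · rw [hc]
        apply mul_nonneg <;> linarith
    · rw [if_neg hij]
      have : ¬ ((i : ℕ) - 1 + 1 = (j : ℕ)) := by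
        intro h'
        apply hij
        apply Fin.ext
        omega
      simp [this]
  · rw [dif_neg h]
    by_cases hij : i = j
    · subst hij
      simp only [if_true]
      have : (i : ℕ) = 0 := by omega
      rw [this]
      simp
    · rw [if_neg hij]

/-- `[S^+, S^-] = 2 S^3`. -/
theorem local_comm_pm (d : ℕ) : spR d * (spR d)ᵀ - (spR d)ᵀ * spR d = (2 : ℝ) • szR d := by
  rw [local_pm, local_mp, szR]
  ext i j
  simp only [Matrix.sub_apply, Matrix.diagonal_apply, Matrix.smul_apply, smul_eq_mul]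
  split_ifs
  · ring
  · ring

theorem local_factor (d : ℕ) : spR d = dgE d * shU d * dgK d := by
  ext i j
  rw [dgK, Matrix.mul_diagonal, dgE, Matrix.diagonal_mul, spR_apply, shU_apply]
  by_cases h : (i : ℕ) + 1 = (j : ℕ)
  · rw [if_pos h, if_pos h]
    have hj : ((j : ℕ) : ℝ) = ((i : ℕ) : ℝ) + 1 := by exact_mod_cast h.symm
    rw [hj, mul_one, mul_comm (((i : ℕ) : ℝ) + 1), Real.sqrt_mul]
    have := fin_le_cast d i
    linarith
  · rw [if_neg h, if_neg h]
    ring

theorem local_shift (d : ℕ) : shU d * (shU d)ᵀ = 1 - prD d := by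
  ext i j
  rw [Matrix.mul_apply]
  have e : ∀ k : Fin (d + 1), shU d i k * (shU d)ᵀ k j =
      if (i : ℕ) + 1 = (k : ℕ) then shU d j k else 0 := by
    intro k
    rw [Matrix.transpose_apply, shU_apply d i k]
    split_ifs <;> simp
  rw [Finset.sum_congr rfl fun k _ => e k, sum_succ_eq, Matrix.sub_apply, Matrix.one_apply, prD,
    Matrix.diagonal_apply]
  by_cases h : (i : ℕ) + 1 < d + 1
  · rw [dif_pos h, shU_apply]
    by_cases hij : i = j
    · subst hij
      have : ¬ ((i : ℕ) = d) := by omega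
      simp [this]
    · have : ¬ ((j : ℕ) = (i : ℕ)) := by
        intro h'
        apply hij
        apply Fin.ext
        omega
      simp [this, hij]
  · rw [dif_neg h]
    by_cases hij : i = j
    · subst hij
      have : (i : ℕ) = d := by have := i.2; omega
      simp [this]
    · simp [hij]

theorem local_prD (d : ℕ) : (prD d)ᵀ * prD d = prD d := by
  rw [prD, Matrix.diagonal_transpose, Matrix.diagonal_mul_diagonal]
  congr 1
  funext k
  split_ifs <;> simp

theorem local_dgK (d : ℕ) : dgK d * dgK d = ((d : ℝ) / 2) • (1 : Matrix (Fin (d + 1)) (Fin (d + 1)) ℝ) - szR d := by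
  rw [dgK, Matrix.diagonal_mul_diagonal, szR]
  ext i j
  simp only [Matrix.sub_apply, Matrix.diagonal_apply, Matrix.smul_apply, Matrix.one_apply, smul_eq_mul]
  by_cases hij : i = j
  · subst hij
    simp only [if_true]
    rw [Real.mul_self_sqrt (Nat.cast_nonneg _)]
    ring
  · simp [hij]

theorem local_dgE (d : ℕ) : dgE d * dgE d = ((d : ℝ) / 2) • (1 : Matrix (Fin (d + 1)) (Fin (d + 1)) ℝ) + szR d := by
  rw [dgE, Matrix.diagonal_mul_diagonal, szR]
  ext i j
  simp only [Matrix.add_apply, Matrix.diagonal_apply, Matrix.smul_apply, Matrix.one_apply, smul_eq_mul]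
  by_cases hij : i = j
  · subst hij
    simp only [if_true]
    have := fin_le_cast d i
    rw [Real.mul_self_sqrt (by linarith)]
    ring
  · simp [hij]

theorem local_sumrule (d : ℕ) :
    (d : ℝ) • (((d : ℝ) / 2) • (1 : Matrix (Fin (d + 1)) (Fin (d + 1)) ℝ) - szR d) - (spR d)ᵀ * spR d =
      (dgR d)ᵀ * dgR d := by
  rw [local_mp, dgR, Matrix.diagonal_transpose, Matrix.diagonal_mul_diagonal, szR]
  ext i j
  simp only [Matrix.sub_apply, Matrix.diagonal_apply, Matrix.smul_apply, Matrix.one_apply, smul_eq_mul]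
  by_cases hij : i = j
  · subst hij
    simp only [if_true]
    have h0 : 0 ≤ ((i : ℕ) : ℝ) * (((i : ℕ) : ℝ) - 1) := by
      rcases Nat.eq_zero_or_pos (i : ℕ) with h | h
      · rw [h]; simp
      · have : (1 : ℝ) ≤ ((i : ℕ) : ℝ) := by exact_mod_cast h
        apply mul_nonneg <;> linarith
    rw [Real.mul_self_sqrt h0]
    ring
  · simp [hij]

theorem dgK_transpose (d : ℕ) : (dgK d)ᵀ = dgK d := by
  rw [dgK, Matrix.diagonal_transpose]

theorem dgE_transpose (d : ℕ) : (dgE d)ᵀ = dgE d := by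
  rw [dgE, Matrix.diagonal_transpose]

theorem szR_transpose (d : ℕ) : (szR d)ᵀ = szR d := by
  rw [szR, Matrix.diagonal_transpose]

end

end Vale.Agent.Lib.P361.Gen
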