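import Vale.Agent.Lib.P361.GFinal

namespace Vale.Agent.Lib.P361.Gen

noncomputable section

/-- One-sided Bloch law with the sharp constant, for every spin `S = d/2`. -/
theorem bloch_upper (d : ℕ) (hd : 1 ≤ d) (ε : ℝ) (hε : 0 < ε) :
    ∃ β₀ : ℝ, 0 < β₀ ∧ ∀ β : ℝ, β₀ ≤ β → ∀ m : ℝ,
      HasDerivWithinAt (pressure d β) m (Set.Ioi 0) 0 →
        (riemannZeta (3 / 2)).re / (8 * Real.pi ^ (3 / 2 : ℝ) * ((d : ℝ) / 2) ^ (3 / 2 : ℝ)) - ε ≤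
          β ^ (3 / 2 : ℝ) * ((d : ℝ) / 2 - m) := by
  obtain ⟨β₀, hβ₀, h⟩ := bloch_sqrt d hd ε hε
  refine ⟨β₀, hβ₀, ?_⟩
  intro β hβ m hm
  have hdpos : (0 : ℝ) < (d : ℝ) / 2 := by
    have : 0 < d := by omega
    have : (0 : ℝ) < (d : ℝ) := by exact_mod_cast this
    positivity
  rw [zeta_eq_zval, rpow_three_half Real.pi_pos, rpow_three_half hdpos,
    rpow_three_half (lt_of_lt_of_le hβ₀ hβ)]
  exact h β hβ m hm

end

end Vale.Agent.Lib.P361.Gen
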