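import Vale.Agent.Lib.P361.GThermo

namespace Vale.Agent.Lib.P361.Gen

set_option linter.unusedSectionVars false
set_option linter.unusedVariables false

noncomputable section

open Filter Topology

/-- Logarithm of the partition function of a rectangular box. -/
def uR (d : ℕ) (β h : ℝ) (a b c : ℕ) : ℝ := Real.log (partG d (adjR a b c) β h)

theorem uR_H1 (d : ℕ) (β h : ℝ) (hβ : 0 ≤ β) (a₁ a₂ b c : ℕ) :
    |uR d β h (a₁ + a₂) b c - uR d β h a₁ b c - uR d β h a₂ b c| ≤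
      3 * β * ((d : ℝ) ^ 2 / 4) * ((b : ℝ) * c) := by
  have hs := log_partG_sub (d := d) (adjR (a₁ + a₂) b c) (adjCut a₁ a₂ b c) (adjR_irrefl _ _ _)
    (fun x y hh => hh.1) β h hβ
  have hc := cut_count a₁ a₂ b c
  rw [partG_cut, Real.log_mul (partG_pos _ (adjR_irrefl _ _ _) β h).ne'
    (partG_pos _ (adjR_irrefl _ _ _) β h).ne'] at hs
  unfold uR
  have e : Real.log (partG d (adjR (a₁ + a₂) b c) β h) - Real.log (partG d (adjR a₁ b c) β h) -
      Real.log (partG d (adjR a₂ b c) β h) = Real.log (partG d (adjR (a₁ + a₂) b c) β h) -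
      (Real.log (partG d (adjR a₁ b c) β h) + Real.log (partG d (adjR a₂ b c) β h)) := by ring
  rw [e]
  refine hs.trans ?_
  have hd : (0 : ℝ) ≤ 3 / 2 * ((d : ℝ) ^ 2 / 4) := by positivity
  have h1 := mul_le_mul_of_nonneg_left hc hd
  have h2 := mul_le_mul_of_nonneg_left h1 hβ
  refine h2.trans (le_of_eq ?_)
  ring

theorem uR_H2 (d : ℕ) (β h : ℝ) (a b c : ℕ) : uR d β h a b c = uR d β h b c a := by
  unfold uR
  exact congrArg Real.log (partG_cyc d a b c β h).symm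

theorem uR_H3 (d : ℕ) (β h : ℝ) (hβ : 0 < β) (a b c : ℕ) :
    |uR d β h a b c| ≤ (Real.log ((d : ℝ) + 1) + β * (41 * ((d : ℝ) ^ 2 / 4) + |h| * ((d : ℝ) / 2))) *
      ((a : ℝ) * b * c) := by
  have hb := log_partG_bounds (d := d) (adjR a b c) (adjR_irrefl a b c) β h hβ
  have hn := nadj_rect a b c
  have hcard : (Fintype.card (Fin a × Fin b × Fin c) : ℝ) = (a : ℝ) * b * c := by
    rw [Fintype.card_prod, Fintype.card_prod, Fintype.card_fin, Fintype.card_fin, Fintype.card_fin]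
    push_cast
    ring
  rw [hcard] at hb
  unfold uR
  obtain ⟨v, hv⟩ : ∃ v : ℝ, (a : ℝ) * b * c = v := ⟨_, rfl⟩
  have hv0 : 0 ≤ v := by
    rw [← hv]
    positivity
  rw [hv] at hb hn ⊢
  have hlog : 0 ≤ Real.log ((d : ℝ) + 1) := Real.log_nonneg (by
    have : (0 : ℝ) ≤ (d : ℝ) := Nat.cast_nonneg d
    linarith)
  have hd : (0 : ℝ) ≤ (d : ℝ) ^ 2 / 4 := by positivity
  have h1 : 3 / 2 * ((d : ℝ) ^ 2 / 4) * nadj (adjR a b c) ≤ 3 / 2 * ((d : ℝ) ^ 2 / 4) * (27 * v) :=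
    mul_le_mul_of_nonneg_left hn (by positivity)
  have h2 : β * (3 / 2 * ((d : ℝ) ^ 2 / 4) * nadj (adjR a b c) + |h| * ((d : ℝ) / 2) * v) ≤
      β * (3 / 2 * ((d : ℝ) ^ 2 / 4) * (27 * v) + |h| * ((d : ℝ) / 2) * v) :=
    mul_le_mul_of_nonneg_left (by linarith) hβ.le
  have h3 : (0 : ℝ) ≤ β * ((d : ℝ) ^ 2 / 4) * v := by positivity
  have hb' := abs_le.1 (hb.trans h2)
  rw [abs_le]
  constructor <;> nlinarith [mul_nonneg hlog hv0]

theorem PN_eq_uR (d N : ℕ) (β h : ℝ) :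
    PN d N β h = uR d β h (2 * N + 1) (2 * N + 1) (2 * N + 1) / ((2 * N + 1 : ℕ) : ℝ) ^ 3 / β := by
  unfold PN uR
  rw [partitionFn_eq, partG_box, card_box']
  push_cast
  rw [div_div, mul_comm]

/-- Comparison of the finite-volume pressures of two cubes. -/
theorem PN_close (d k N : ℕ) (β h : ℝ) (hβ : 0 < β) :
    |PN d N β h - PN d k β h| ≤
      (3 * (3 * β * ((d : ℝ) ^ 2 / 4)) / (2 * (k : ℝ) + 1) +
        6 * (Real.log ((d : ℝ) + 1) + β * (41 * ((d : ℝ) ^ 2 / 4) + |h| * ((d : ℝ) / 2))) *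
          (2 * (k : ℝ) + 1) / (2 * (N : ℝ) + 1)) / β := by
  set K : ℝ := 3 * β * ((d : ℝ) ^ 2 / 4) with hK
  set C : ℝ := Real.log ((d : ℝ) + 1) + β * (41 * ((d : ℝ) ^ 2 / 4) + |h| * ((d : ℝ) / 2)) with hC
  have hK0 : 0 ≤ K := by positivity
  have hC0 : 0 ≤ C := by
    have hlog : 0 ≤ Real.log ((d : ℝ) + 1) := Real.log_nonneg (by
      have : (0 : ℝ) ≤ (d : ℝ) := Nat.cast_nonneg d
      linarith)
    positivity
  set L : ℕ := 2 * N + 1 with hL
  set l : ℕ := 2 * k + 1 with hl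
  have hdm : L = L / l * l + L % l := (Nat.div_add_mod' L l).symm
  have hlpos : 0 < l := by omega
  have hLpos : 0 < L := by omega
  have key := cube_pressure (uR d β h) K C hK0 hC0 (uR_H1 d β h hβ.le) (uR_H2 d β h)
    (uR_H3 d β h hβ) (L / l) l (L % l) L hdm hlpos hLpos
  have hLr : ((L : ℕ) : ℝ) = 2 * (N : ℝ) + 1 := by
    rw [hL]
    push_cast
    ring
  have hlr : ((l : ℕ) : ℝ) = 2 * (k : ℝ) + 1 := by
    rw [hl]
    push_cast
    ring
  have hLp : (0 : ℝ) < (L : ℝ) := by exact_mod_cast hLpos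
  have hlp : (0 : ℝ) < (l : ℝ) := by exact_mod_cast hlpos
  rw [PN_eq_uR, PN_eq_uR, ← sub_div, abs_div, abs_of_pos hβ, ← hLr, ← hlr]
  apply div_le_div_of_nonneg_right _ hβ.le
  refine key.trans ?_
  have hq : ((L / l : ℕ) : ℝ) ≤ (L : ℝ) / l := by
    rw [le_div_iff₀ hlp]
    have : L / l * l ≤ L := Nat.div_mul_le_self L l
    exact_mod_cast this
  have hr : ((L % l : ℕ) : ℝ) ≤ (l : ℝ) := by
    have : L % l ≤ l := (Nat.mod_lt L hlpos).le
    exact_mod_cast this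
  have e : 3 * K / (l : ℝ) + 6 * C * (l : ℝ) / (L : ℝ) =
      (3 * K * ((L : ℝ) / l) + 6 * C * (l : ℝ)) / (L : ℝ) := by
    field_simp
  rw [e]
  apply div_le_div_of_nonneg_right _ hLp.le
  have h1 : 3 * K * ((L / l : ℕ) : ℝ) ≤ 3 * K * ((L : ℝ) / l) :=
    mul_le_mul_of_nonneg_left hq (by positivity)
  have h2 : 6 * C * ((L % l : ℕ) : ℝ) ≤ 6 * C * (l : ℝ) :=
    mul_le_mul_of_nonneg_left hr (by positivity)
  linarith

/-- The finite-volume pressures form a Cauchy sequence. -/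
theorem PN_cauchy (d : ℕ) (β h : ℝ) (hβ : 0 < β) : CauchySeq (fun N : ℕ => PN d N β h) := by
  rw [Metric.cauchySeq_iff']
  intro ε hε
  set K : ℝ := 3 * β * ((d : ℝ) ^ 2 / 4) with hK
  set C : ℝ := Real.log ((d : ℝ) + 1) + β * (41 * ((d : ℝ) ^ 2 / 4) + |h| * ((d : ℝ) / 2)) with hC
  have hK0 : 0 ≤ K := by positivity
  have hC0 : 0 ≤ C := by
    have hlog : 0 ≤ Real.log ((d : ℝ) + 1) := Real.log_nonneg (by
      have : (0 : ℝ) ≤ (d : ℝ) := Nat.cast_nonneg d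
      linarith)
    positivity
  obtain ⟨k, hk⟩ := exists_nat_gt (12 * K / (ε * β))
  obtain ⟨N₀, hN₀⟩ := exists_nat_gt (24 * C * (2 * (k : ℝ) + 1) / (ε * β))
  have hεβ : 0 < ε * β := mul_pos hε hβ
  have hk0 : (0 : ℝ) ≤ k := Nat.cast_nonneg k
  have hk' : 12 * K < (k : ℝ) * (ε * β) := by
    rwa [div_lt_iff₀ hεβ] at hk
  have hN₀' : 24 * C * (2 * (k : ℝ) + 1) < (N₀ : ℝ) * (ε * β) := by
    rwa [div_lt_iff₀ hεβ] at hN₀
  have hbound : ∀ N : ℕ, N₀ ≤ N → |PN d N β h - PN d k β h| < ε / 2 := by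
    intro N hN
    have hNr : (N₀ : ℝ) ≤ (N : ℝ) := by exact_mod_cast hN
    have hN0 : (0 : ℝ) ≤ (N₀ : ℝ) := Nat.cast_nonneg N₀
    refine lt_of_le_of_lt (PN_close d k N β h hβ) ?_
    rw [div_lt_iff₀ hβ]
    have h1 : 3 * K / (2 * (k : ℝ) + 1) < ε / 4 * β := by
      rw [div_lt_iff₀ (by positivity)]
      nlinarith
    have h2 : 6 * C * (2 * (k : ℝ) + 1) / (2 * (N : ℝ) + 1) < ε / 4 * β := by
      rw [div_lt_iff₀ (by positivity)]
      have : (N₀ : ℝ) * (ε * β) ≤ (N : ℝ) * (ε * β) := mul_le_mul_of_nonneg_right hNr hεβ.le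
      nlinarith
    linarith
  refine ⟨N₀, fun N hN => ?_⟩
  rw [Real.dist_eq]
  have e : PN d N β h - PN d N₀ β h = (PN d N β h - PN d k β h) - (PN d N₀ β h - PN d k β h) := by
    ring
  rw [e]
  refine lt_of_le_of_lt (abs_sub _ _) ?_
  have := hbound N hN
  have := hbound N₀ le_rfl
  linarith

/-- Existence of the thermodynamic limit: the finite-volume pressures converge to the pressure. -/
theorem PN_tendsto (d : ℕ) (β h : ℝ) (hβ : 0 < β) :
    Tendsto (fun N : ℕ => PN d N β h) atTop (𝓝 (pressure d β h)) := by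
  obtain ⟨x, hx⟩ := cauchySeq_tendsto_of_complete (PN_cauchy d β h hβ)
  rw [pressure_eq, hx.limsup_eq]
  exact hx

end

end Vale.Agent.Lib.P361.Gen
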