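import Vale.Agent.Lib.P361.GFull

namespace Vale.Agent.Lib.P361.Gen

set_option linter.unusedSectionVars false
set_option linter.unusedVariables false

noncomputable section

open Filter Topology

/-- Limit form of `bloch_a`: the inequality at `a = m`, with the full series. -/
theorem bloch_m (d : ℕ) (hd : 1 ≤ d) (β : ℝ) (hβ : 0 < β) (m : ℝ)
    (hm : HasDerivWithinAt (pressure d β) m (Set.Ioi 0) 0) :
    16 * (m ^ 2 * Real.sqrt m) * Gf (Real.pi * Real.sqrt (β * (d : ℝ) / 2)) ^ 3 * zval /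
        (Real.pi ^ 3 * (d : ℝ) ^ 4) ≤ β * Real.sqrt β * ((d : ℝ) / 2 - m) := by
  obtain ⟨hm0, hm1⟩ := right_deriv_bounds d β hβ m hm
  rcases hm0.eq_or_lt with h0 | hpos
  · rw [← h0]
    have hd0 : (0 : ℝ) ≤ (d : ℝ) := Nat.cast_nonneg d
    have : (0 : ℝ) ≤ β * Real.sqrt β * ((d : ℝ) / 2) := by positivity
    simpa using this
  · have hstep : ∀ n₀ : ℕ, 16 * (m ^ 2 * Real.sqrt m) *
        Gf (Real.pi * Real.sqrt (β * (d : ℝ) / 2)) ^ 3 * zsum n₀ / (Real.pi ^ 3 * (d : ℝ) ^ 4) ≤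
          β * Real.sqrt β * ((d : ℝ) / 2 - m) := by
      intro n₀
      have hcont : Continuous (fun a : ℝ => β * Real.sqrt β * ((d : ℝ) / 2 - a) -
          16 * (a ^ 2 * Real.sqrt a) * Gf (Real.pi * Real.sqrt (β * (d : ℝ) / 2)) ^ 3 * zsum n₀ /
            (Real.pi ^ 3 * (d : ℝ) ^ 4)) := by
        fun_prop
      have hlim := (hcont.tendsto m).mono_left (nhdsWithin_le_nhds (s := Set.Iio m))
      have hev : ∀ᶠ a in 𝓝[<] m, 0 ≤ β * Real.sqrt β * ((d : ℝ) / 2 - a) -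
          16 * (a ^ 2 * Real.sqrt a) * Gf (Real.pi * Real.sqrt (β * (d : ℝ) / 2)) ^ 3 * zsum n₀ /
            (Real.pi ^ 3 * (d : ℝ) ^ 4) := by
        filter_upwards [Ioo_mem_nhdsLT hpos] with a ha
        have := bloch_a d hd β hβ m hm a ha.1 ha.2 n₀
        unfold zsum
        linarith
      have := ge_of_tendsto hlim hev
      linarith
    have hlim2 : Tendsto (fun n₀ : ℕ => 16 * (m ^ 2 * Real.sqrt m) *
        Gf (Real.pi * Real.sqrt (β * (d : ℝ) / 2)) ^ 3 * zsum n₀ / (Real.pi ^ 3 * (d : ℝ) ^ 4)) atTop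
        (𝓝 (16 * (m ^ 2 * Real.sqrt m) * Gf (Real.pi * Real.sqrt (β * (d : ℝ) / 2)) ^ 3 * zval /
          (Real.pi ^ 3 * (d : ℝ) ^ 4))) :=
      (zsum_tendsto.const_mul _).div_const _
    exact le_of_tendsto' hlim2 hstep

theorem exp_neg_sq_le {u : ℝ} (hu : 0 < u) : Real.exp (-u ^ 2) ≤ 2 * u ^ (-4 : ℤ) := by
  have h := Real.quadratic_le_exp_of_nonneg (sq_nonneg u)
  have e : u ^ (-4 : ℤ) = (u ^ 4)⁻¹ := by
    rw [zpow_neg]
    norm_cast
  have hu4 : 0 < u ^ 4 := by positivity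
  rw [e, Real.exp_neg]
  have h2 : u ^ 4 / 2 ≤ Real.exp (u ^ 2) := by nlinarith [sq_nonneg u]
  have h3 := inv_anti₀ (by positivity : (0 : ℝ) < u ^ 4 / 2) h2
  refine h3.trans (le_of_eq ?_)
  field_simp

theorem Gf_le {R : ℝ} (hR : 0 ≤ R) : Gf R ≤ Real.sqrt Real.pi / 2 :=
  ge_of_tendsto Gf_tendsto ((eventually_ge_atTop R).mono fun R' hR' => Gf_mono hR hR')

/-- Gaussian tail bound. -/
theorem gauss_tail {R : ℝ} (hR : 0 < R) : Real.sqrt Real.pi / 2 - 2 / (3 * R ^ 3) ≤ Gf R := by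
  have hstep : ∀ R' : ℝ, R ≤ R' → Gf R' ≤ Gf R + 2 / (3 * R ^ 3) := by
    intro R' hRR'
    have hR' : 0 < R' := lt_of_lt_of_le hR hRR'
    have hsub : Gf R' - Gf R = ∫ u in R..R', Real.exp (-u ^ 2) := by
      unfold Gf
      exact intervalIntegral.integral_interval_sub_left (cont_gauss1.intervalIntegrable _ _)
        (cont_gauss1.intervalIntegrable _ _)
    have h0 : (0 : ℝ) ∉ Set.uIcc R R' := by
      rw [Set.uIcc_of_le hRR']
      intro h
      exact absurd h.1 (not_le.2 hR)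
    have hint : IntervalIntegrable (fun u : ℝ => 2 * u ^ (-4 : ℤ)) MeasureTheory.volume R R' :=
      (intervalIntegral.intervalIntegrable_zpow (Or.inr h0)).const_mul 2
    have hmono : ∫ u in R..R', Real.exp (-u ^ 2) ≤ ∫ u in R..R', 2 * u ^ (-4 : ℤ) := by
      apply intervalIntegral.integral_mono_on hRR' (cont_gauss1.intervalIntegrable _ _) hint
      intro u hu
      exact exp_neg_sq_le (lt_of_lt_of_le hR hu.1)
    have hval : ∫ u in R..R', 2 * u ^ (-4 : ℤ) = 2 * ((R' ^ (-3 : ℤ) - R ^ (-3 : ℤ)) / (-3)) := by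
      rw [intervalIntegral.integral_const_mul, integral_zpow (Or.inr ⟨by norm_num, h0⟩)]
      norm_num
    have e3 : R ^ (-3 : ℤ) = (R ^ 3)⁻¹ := by
      rw [zpow_neg]
      norm_cast
    have e3' : R' ^ (-3 : ℤ) = (R' ^ 3)⁻¹ := by
      rw [zpow_neg]
      norm_cast
    have hpos' : 0 ≤ (R' ^ 3)⁻¹ := by positivity
    rw [hval, e3, e3'] at hmono
    have e4 : 2 / (3 * R ^ 3) = 2 / 3 * (R ^ 3)⁻¹ := by
      field_simp
    rw [e4]
    linarith
  have := le_of_tendsto Gf_tendsto ((eventually_ge_atTop R).mono fun R' hR' => hstep R' hR')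
  linarith

/-- Elementary algebra behind the rate. -/
theorem rate_alg (S c b t x X : ℝ) (hS : 0 < S) (hc : 0 ≤ c) (hb : 0 < b) (ht0 : 0 ≤ t)
    (ht1 : t ≤ 1) (hx0 : 0 ≤ x) (hx1 : x ≤ 1) (hX : X = b * S * (1 - t))
    (hmain : c * (t ^ 2 * Real.sqrt t) * x ^ 3 ≤ X) :
    c - (3 * c * (1 - x) + 5 * c ^ 2 / (2 * S) / b) ≤ X := by
  obtain ⟨s, hs⟩ : ∃ s : ℝ, Real.sqrt t = s := ⟨_, rfl⟩
  have hs0 : 0 ≤ s := by
    rw [← hs]
    exact Real.sqrt_nonneg t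
  have hs1 : s ≤ 1 := by
    rw [← hs]
    exact Real.sqrt_le_one.2 ht1
  have ht : t = s ^ 2 := by
    rw [← hs, Real.sq_sqrt ht0]
  rw [hs] at hmain
  have hT : 1 - 5 / 2 * (1 - t) ≤ t ^ 2 * s := by
    rw [ht]
    nlinarith [mul_nonneg (sq_nonneg (s - 1)) (by positivity : 0 ≤ 2 * s ^ 3 + 4 * s ^ 2 + 6 * s + 3)]
  have hT0 : 0 ≤ t ^ 2 * s := by positivity
  have hT1 : t ^ 2 * s ≤ 1 := by
    have h1 : t ^ 2 ≤ 1 := pow_le_one₀ ht0 ht1
    calc t ^ 2 * s ≤ 1 * 1 := mul_le_mul h1 hs1 hs0 (by norm_num)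
      _ = 1 := by norm_num
  have hx3 : 1 - 3 * (1 - x) ≤ x ^ 3 := by
    nlinarith [mul_nonneg (sq_nonneg (x - 1)) (by linarith : 0 ≤ x + 2)]
  have hx31 : x ^ 3 ≤ 1 := pow_le_one₀ hx0 hx1
  have hprod : t ^ 2 * s + x ^ 3 - 1 ≤ t ^ 2 * s * x ^ 3 := by
    nlinarith [mul_nonneg (sub_nonneg.2 hT1) (sub_nonneg.2 hx31)]
  have h1 : c * (1 - 5 / 2 * (1 - t) - 3 * (1 - x)) ≤ X := by
    have : c * (1 - 5 / 2 * (1 - t) - 3 * (1 - x)) ≤ c * (t ^ 2 * s * x ^ 3) :=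
      mul_le_mul_of_nonneg_left (by linarith) hc
    refine this.trans (le_trans (le_of_eq ?_) hmain)
    ring
  have hx1' : 0 ≤ 1 - x := by linarith
  by_cases hXc : c ≤ X
  · have : 0 ≤ 3 * c * (1 - x) + 5 * c ^ 2 / (2 * S) / b := by positivity
    linarith
  · rw [not_le] at hXc
    have h1t : 1 - t = X / (b * S) := by
      rw [hX]
      field_simp
    have h2 : X / (b * S) ≤ c / (b * S) := div_le_div_of_nonneg_right hXc.le (by positivity)
    have h3 : c * (5 / 2 * (1 - t)) ≤ 5 * c ^ 2 / (2 * S) / b := by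
      rw [h1t]
      have := mul_le_mul_of_nonneg_left h2 (by positivity : (0 : ℝ) ≤ c * (5 / 2))
      refine le_trans (le_of_eq (by ring)) (this.trans (le_of_eq ?_))
      field_simp
    nlinarith

end

end Vale.Agent.Lib.P361.Gen
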