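import Vale.Agent.Lib.P361.GRate

namespace Vale.Agent.Lib.P361.Gen

set_option linter.unusedSectionVars false
set_option linter.unusedVariables false

noncomputable section

open Filter Topology

theorem zval_nonneg : 0 ≤ zval := by
  unfold zval
  exact tsum_nonneg fun n => by positivity

/-- The constant in the error term. -/
def rateC (d : ℕ) : ℝ :=
  4 * (zval / (8 * (Real.pi * Real.sqrt Real.pi) * ((d : ℝ) / 2 * Real.sqrt ((d : ℝ) / 2)))) /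
      (Real.sqrt Real.pi * Real.pi ^ 3 * ((d : ℝ) / 2 * Real.sqrt ((d : ℝ) / 2))) +
    5 * (zval / (8 * (Real.pi * Real.sqrt Real.pi) * ((d : ℝ) / 2 * Real.sqrt ((d : ℝ) / 2)))) ^ 2 /
      (2 * ((d : ℝ) / 2))

/-- Quantitative one-sided Bloch law, in square-root form. -/
theorem bloch_rate_sqrt (d : ℕ) (hd : 1 ≤ d) (β : ℝ) (hβ : 0 < β) (m : ℝ)
    (hm : HasDerivWithinAt (pressure d β) m (Set.Ioi 0) 0) :
    zval / (8 * (Real.pi * Real.sqrt Real.pi) * ((d : ℝ) / 2 * Real.sqrt ((d : ℝ) / 2))) -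
      rateC d / (β * Real.sqrt β) ≤ β * Real.sqrt β * ((d : ℝ) / 2 - m) := by
  obtain ⟨hm0, hm1⟩ := right_deriv_bounds d β hβ m hm
  have hbm := bloch_m d hd β hβ m hm
  have hdpos : (0 : ℝ) < (d : ℝ) := by
    have : 0 < d := by omega
    exact_mod_cast this
  obtain ⟨S, hSdef⟩ : ∃ S : ℝ, (d : ℝ) / 2 = S := ⟨_, rfl⟩
  have hS : 0 < S := by
    rw [← hSdef]
    positivity
  have hdS : (d : ℝ) = 2 * S := by
    rw [← hSdef]
    ring
  have hβS : β * (d : ℝ) / 2 = β * S := by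
    rw [hdS]
    ring
  unfold rateC
  rw [hβS, hSdef, hdS] at hbm
  rw [hSdef] at hm1 ⊢
  have hπ := Real.pi_pos
  obtain ⟨rp, hrp⟩ : ∃ rp : ℝ, Real.sqrt Real.pi = rp := ⟨_, rfl⟩
  obtain ⟨rs, hrs⟩ : ∃ rs : ℝ, Real.sqrt S = rs := ⟨_, rfl⟩
  obtain ⟨rb, hrb⟩ : ∃ rb : ℝ, Real.sqrt β = rb := ⟨_, rfl⟩
  obtain ⟨rm, hrm⟩ : ∃ rm : ℝ, Real.sqrt m = rm := ⟨_, rfl⟩
  have hrp0 : 0 < rp := by
    rw [← hrp]
    exact Real.sqrt_pos.2 hπ
  have hrs0 : 0 < rs := by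
    rw [← hrs]
    exact Real.sqrt_pos.2 hS
  have hrb0 : 0 < rb := by
    rw [← hrb]
    exact Real.sqrt_pos.2 hβ
  have hrm0 : 0 ≤ rm := by
    rw [← hrm]
    exact Real.sqrt_nonneg m
  have eπ : Real.pi = rp ^ 2 := by rw [← hrp, Real.sq_sqrt hπ.le]
  have eS : S = rs ^ 2 := by rw [← hrs, Real.sq_sqrt hS.le]
  have eβ : β = rb ^ 2 := by rw [← hrb, Real.sq_sqrt hβ.le]
  have em : m = rm ^ 2 := by rw [← hrm, Real.sq_sqrt hm0]
  have hsqβS : Real.sqrt (β * S) = rb * rs := by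
    rw [Real.sqrt_mul hβ.le, hrb, hrs]
  rw [hsqβS] at hbm
  obtain ⟨G, hG⟩ : ∃ G : ℝ, Gf (Real.pi * (rb * rs)) = G := ⟨_, rfl⟩
  have hRpos : 0 < Real.pi * (rb * rs) := by positivity
  have hG0 : 0 ≤ G := by
    rw [← hG]
    exact Gf_nonneg hRpos.le
  have hG1 : G ≤ rp / 2 := by
    rw [← hG, ← hrp]
    exact Gf_le hRpos.le
  have hGt : rp / 2 - 2 / (3 * (Real.pi * (rb * rs)) ^ 3) ≤ G := by
    rw [← hG, ← hrp]
    exact gauss_tail hRpos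
  rw [hG, hrm, hrb] at hbm
  rw [hrp, hrs, hrb]
  obtain ⟨c, hc⟩ : ∃ c : ℝ, zval / (8 * (Real.pi * rp) * (S * rs)) = c := ⟨_, rfl⟩
  have hc0 : 0 ≤ c := by
    rw [← hc]
    exact div_nonneg zval_nonneg (by positivity)
  rw [hc]
  have hb : 0 < β * rb := by positivity
  have hsqt : Real.sqrt (m / S) = rm / rs := by
    rw [Real.sqrt_div hm0, hrm, hrs]
  have hmain : c * ((m / S) ^ 2 * Real.sqrt (m / S)) * (2 * G / rp) ^ 3 ≤ β * rb * (S - m) := by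
    refine le_trans (le_of_eq ?_) hbm
    rw [hsqt, ← hc, eπ, eS]
    field_simp
    ring
  have key := rate_alg S c (β * rb) (m / S) (2 * G / rp) (β * rb * (S - m)) hS hc0 hb
    (div_nonneg hm0 hS.le) ((div_le_one hS).2 hm1) (by positivity)
    (by
      rw [div_le_one hrp0]
      linarith)
    (by
      field_simp) hmain
  have htail : 3 * c * (1 - 2 * G / rp) ≤
      4 * c / (rp * Real.pi ^ 3 * (S * rs)) / (β * rb) := by
    have h1 : 1 - 2 * G / rp ≤ 2 / rp * (2 / (3 * (Real.pi * (rb * rs)) ^ 3)) := by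
      have : 1 - 2 * G / rp = 2 / rp * (rp / 2 - G) := by
        field_simp
      rw [this]
      exact mul_le_mul_of_nonneg_left (by linarith) (by positivity)
    have h2 := mul_le_mul_of_nonneg_left h1 (by positivity : (0 : ℝ) ≤ 3 * c)
    refine h2.trans (le_of_eq ?_)
    rw [eβ, eS]
    field_simp
    ring
  have e : 4 * c / (rp * Real.pi ^ 3 * (S * rs)) / (β * rb) + 5 * c ^ 2 / (2 * S) / (β * rb) =
      (4 * c / (rp * Real.pi ^ 3 * (S * rs)) + 5 * c ^ 2 / (2 * S)) / (β * rb) := by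
    rw [add_div]
  linarith

/-- Quantitative one-sided Bloch law: `S - m ≥ c_S β^{-3/2} - C β^{-3}` for all `β > 0`. -/
theorem bloch_rate (d : ℕ) (hd : 1 ≤ d) :
    ∃ C : ℝ, ∀ β : ℝ, 0 < β → ∃ m : ℝ, HasDerivWithinAt (pressure d β) m (Set.Ioi 0) 0 ∧ 0 ≤ m ∧
      m ≤ (d : ℝ) / 2 ∧
      (riemannZeta (3 / 2)).re / (8 * Real.pi ^ (3 / 2 : ℝ) * ((d : ℝ) / 2) ^ (3 / 2 : ℝ)) -
        C / β ^ (3 / 2 : ℝ) ≤ β ^ (3 / 2 : ℝ) * ((d : ℝ) / 2 - m) := by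
  refine ⟨rateC d, fun β hβ => ?_⟩
  have hder := pressure_right_deriv d β hβ
  obtain ⟨h0, h1⟩ := right_deriv_bounds d β hβ _ hder
  refine ⟨_, hder, h0, h1, ?_⟩
  have hdpos : (0 : ℝ) < (d : ℝ) / 2 := by
    have : 0 < d := by omega
    have : (0 : ℝ) < (d : ℝ) := by exact_mod_cast this
    positivity
  rw [zeta_eq_zval, rpow_three_half Real.pi_pos, rpow_three_half hdpos, rpow_three_half hβ]
  exact bloch_rate_sqrt d hd β hβ _ hder

/-- Full quantitative statement. -/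
theorem bloch_full_rate (d : ℕ) (hd : 1 ≤ d) :
    (∀ β : ℝ, 0 < β → ∀ h : ℝ, Tendsto (fun N : ℕ =>
      Real.log (partitionFn d N β h) / (β * ((box N).card : ℝ))) atTop (𝓝 (pressure d β h))) ∧
    (∀ β : ℝ, 0 < β → ConvexOn ℝ Set.univ (pressure d β)) ∧
    ∃ C : ℝ, ∀ β : ℝ, 0 < β → ∃ m : ℝ, HasDerivWithinAt (pressure d β) m (Set.Ioi 0) 0 ∧ 0 ≤ m ∧
      m ≤ (d : ℝ) / 2 ∧
      (riemannZeta (3 / 2)).re / (8 * Real.pi ^ (3 / 2 : ℝ) * ((d : ℝ) / 2) ^ (3 / 2 : ℝ)) -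
        C / β ^ (3 / 2 : ℝ) ≤ β ^ (3 / 2 : ℝ) * ((d : ℝ) / 2 - m) :=
  ⟨fun β hβ h => PN_tendsto d β h hβ, fun β hβ => pressure_convex d β hβ, bloch_rate d hd⟩

end

end Vale.Agent.Lib.P361.Gen
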