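import Vale.Agent.Lib.P361.GComm
import Vale.Agent.Lib.P361.GEnergy

namespace Vale.Agent.Lib.P361.Gen

open Matrix

set_option linter.unusedSectionVars false
set_option linter.unusedVariables false

noncomputable section

theorem spinPlus_eq (d : ℕ) : spinPlus d = (spR d).map (algebraMap ℝ ℂ) := by
  ext i j
  simp only [spinPlus, spR, Matrix.map_apply, Matrix.of_apply, Complex.coe_algebraMap]
  split_ifs <;> simp

theorem spinMinus_eq (d : ℕ) : spinMinus d = ((spR d)ᵀ).map (algebraMap ℝ ℂ) := by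
  unfold spinMinus
  rw [spinPlus_eq]
  rfl

theorem spinZ_eq (d : ℕ) : spinZ d = (szR d).map (algebraMap ℝ ℂ) := by
  ext i j
  simp only [spinZ, szR, Matrix.map_apply, Matrix.diagonal_apply, Complex.coe_algebraMap]
  split_ifs <;> simp

variable {V : Type} [Fintype V] [DecidableEq V]

theorem heisDot_eq (d : ℕ) (x y : V) : heisDot d x y = (hbond d x y).map (algebraMap ℝ ℂ) := by
  have hP : ∀ z : V, (siteOp z (spinPlus d) : Matrix (V → Fin (d + 1)) (V → Fin (d + 1)) ℂ) =
      (Sp d z).map (algebraMap ℝ ℂ) := by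
    intro z
    unfold Sp
    rw [siteOp_map, spinPlus_eq]
  have hM : ∀ z : V, (siteOp z (spinMinus d) : Matrix (V → Fin (d + 1)) (V → Fin (d + 1)) ℂ) =
      (Sm d z).map (algebraMap ℝ ℂ) := by
    intro z
    unfold Sm
    rw [siteOp_map, spinMinus_eq]
  have hZ : ∀ z : V, (siteOp z (spinZ d) : Matrix (V → Fin (d + 1)) (V → Fin (d + 1)) ℂ) =
      (Sz d z).map (algebraMap ℝ ℂ) := by
    intro z
    unfold Sz
    rw [siteOp_map, spinZ_eq]
  unfold heisDot spinX spinY
  rw [siteOp_smul, siteOp_smul, siteOp_smul, siteOp_smul, siteOp_add, siteOp_add, siteOp_sub,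
    siteOp_sub, smul_mul_smul_comm, smul_mul_smul_comm]
  have hI : (-(Complex.I / 2)) * (-(Complex.I / 2)) = -(1 / 4 : ℂ) := by
    have := Complex.I_mul_I
    linear_combination (1 / 4 : ℂ) * this
  rw [hI]
  set Px := (siteOp x (spinPlus d) : Matrix (V → Fin (d + 1)) (V → Fin (d + 1)) ℂ) with hPx
  set Py := (siteOp y (spinPlus d) : Matrix (V → Fin (d + 1)) (V → Fin (d + 1)) ℂ) with hPy
  set Mx := (siteOp x (spinMinus d) : Matrix (V → Fin (d + 1)) (V → Fin (d + 1)) ℂ) with hMx
  set My := (siteOp y (spinMinus d) : Matrix (V → Fin (d + 1)) (V → Fin (d + 1)) ℂ) with hMy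
  have e : ((1 / 2 : ℂ) * (1 / 2)) • ((Px + Mx) * (Py + My)) + (-(1 / 4 : ℂ)) • ((Px - Mx) * (Py - My)) =
      (1 / 2 : ℂ) • (Px * My + Mx * Py) := by
    rw [show (1 / 2 : ℂ) * (1 / 2) = 1 / 4 by norm_num, neg_smul, ← sub_eq_add_neg, ← smul_sub]
    have h2 : (Px + Mx) * (Py + My) - (Px - Mx) * (Py - My) = (2 : ℂ) • (Px * My + Mx * Py) := by
      rw [two_smul]
      noncomm_ring
    rw [h2, smul_smul]
    norm_num
  rw [e, hPx, hPy, hMx, hMy, hP, hP, hM, hM, hZ, hZ, ← Matrix.map_mul, ← Matrix.map_mul,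
    ← Matrix.map_mul]
  unfold hbond hb2
  ext s t
  simp only [Matrix.add_apply, Matrix.smul_apply, Matrix.map_apply, smul_eq_mul,
    Complex.coe_algebraMap]
  push_cast
  ring

/-- The complex Hamiltonian for a general finite graph. -/
def hamC (d : ℕ) (adj : V → V → Prop) [DecidableRel adj] :
    Matrix (V → Fin (d + 1)) (V → Fin (d + 1)) ℂ :=
  -(1 / 2 : ℂ) • ∑ x : V, ∑ y : V, if adj x y then heisDot d x y else 0

def magC (d : ℕ) : Matrix (V → Fin (d + 1)) (V → Fin (d + 1)) ℂ := ∑ x : V, siteOp x (spinZ d)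

theorem hamC_eq (d : ℕ) (adj : V → V → Prop) [DecidableRel adj] :
    hamC d adj = (hamR d adj).map (algebraMap ℝ ℂ) := by
  unfold hamC hamR
  ext s t
  simp only [Matrix.smul_apply, Matrix.sum_apply, Matrix.map_apply, smul_eq_mul,
    Complex.coe_algebraMap]
  push_cast
  congr 1
  refine Finset.sum_congr rfl fun x _ => Finset.sum_congr rfl fun y _ => ?_
  by_cases hxy : adj x y
  · rw [if_pos hxy, if_pos hxy, heisDot_eq]
    rfl
  · rw [if_neg hxy, if_neg hxy]
    simp

theorem magC_eq (d : ℕ) :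
    (magC d : Matrix (V → Fin (d + 1)) (V → Fin (d + 1)) ℂ) = (magR d).map (algebraMap ℝ ℂ) := by
  unfold magC magR
  ext s t
  simp only [Matrix.sum_apply, Matrix.map_apply, Complex.coe_algebraMap]
  push_cast
  refine Finset.sum_congr rfl fun x _ => ?_
  unfold Sz
  rw [spinZ_eq, ← siteOp_map]
  rfl

set_option backward.isDefEq.respectTransparency false in
open scoped Matrix.Norms.Operator in
theorem exp_map_ofReal {n : Type*} [Fintype n] [DecidableEq n] (X : Matrix n n ℝ) :
    NormedSpace.exp (X.map (algebraMap ℝ ℂ)) = (NormedSpace.exp X).map (algebraMap ℝ ℂ) := by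
  have h := NormedSpace.map_exp ((algebraMap ℝ ℂ).mapMatrix (m := n))
    (Continuous.matrix_map continuous_id Complex.continuous_ofReal) X
  exact h.symm

theorem trace_map_ofReal {n : Type*} [Fintype n] [DecidableEq n] (X : Matrix n n ℝ) :
    (Matrix.trace (X.map (algebraMap ℝ ℂ))).re = Matrix.trace X := by
  simp [Matrix.trace]

/-- The partition function of the general graph model. -/
def partG (d : ℕ) (adj : V → V → Prop) [DecidableRel adj] (β h : ℝ) : ℝ :=
  (Matrix.trace (NormedSpace.exp (-(β : ℂ) • (hamC d adj - (h : ℂ) • magC d)))).re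

theorem partG_real (d : ℕ) (adj : V → V → Prop) [DecidableRel adj] (β h : ℝ) :
    partG d adj β h = Matrix.trace (NormedSpace.exp ((-β) • hamH d adj h)) := by
  unfold partG
  rw [hamC_eq, magC_eq]
  have : -(β : ℂ) • ((hamR d adj).map (algebraMap ℝ ℂ) - (h : ℂ) • (magR d).map (algebraMap ℝ ℂ)) =
      ((-β) • hamH d adj h).map (algebraMap ℝ ℂ) := by
    unfold hamH
    ext s t
    simp only [Matrix.map_apply, Matrix.smul_apply, Matrix.sub_apply, smul_eq_mul,
      Complex.coe_algebraMap]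
    push_cast
    ring
  rw [this, exp_map_ofReal, trace_map_ofReal]

theorem hamiltonian_eq (d N : ℕ) : hamiltonian d N = hamC d (adjB N) := rfl

theorem magnetization_eq (d N : ℕ) : magnetization d N = magC d := rfl

theorem partitionFn_eq (d N : ℕ) (β h : ℝ) : partitionFn d N β h = partG d (adjB N) β h := rfl

end

end Vale.Agent.Lib.P361.Gen
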