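import Vale.Agent.Lib.P361.GEdge

namespace Vale.Agent.Lib.P361.Gen

open Matrix

set_option linter.unusedSectionVars false
set_option linter.unusedVariables false

noncomputable section

/-- Nearest-neighbour adjacency on the rectangular box `Fin a × Fin b × Fin c`. -/
def adjR (a b c : ℕ) (x y : Fin a × Fin b × Fin c) : Prop :=
  |((x.1 : ℕ) : ℤ) - ((y.1 : ℕ) : ℤ)| + |((x.2.1 : ℕ) : ℤ) - ((y.2.1 : ℕ) : ℤ)| +
    |((x.2.2 : ℕ) : ℤ) - ((y.2.2 : ℕ) : ℤ)| = 1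

instance adjR_decidable (a b c : ℕ) : DecidableRel (adjR a b c) := fun x y =>
  inferInstanceAs (Decidable (|((x.1 : ℕ) : ℤ) - ((y.1 : ℕ) : ℤ)| +
    |((x.2.1 : ℕ) : ℤ) - ((y.2.1 : ℕ) : ℤ)| + |((x.2.2 : ℕ) : ℤ) - ((y.2.2 : ℕ) : ℤ)| = 1))

theorem adjR_irrefl (a b c : ℕ) (x : Fin a × Fin b × Fin c) : ¬ adjR a b c x x := by
  unfold adjR
  simp

/-- Cyclic permutation of the coordinates. -/
def cycEquiv (a b c : ℕ) : Fin a × Fin b × Fin c ≃ Fin b × Fin c × Fin a where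
  toFun p := (p.2.1, p.2.2, p.1)
  invFun p := (p.2.2, p.1, p.2.1)
  left_inv := fun p => rfl
  right_inv := fun p => rfl

theorem partG_cyc (d a b c : ℕ) (β h : ℝ) :
    partG d (adjR b c a) β h = partG d (adjR a b c) β h := by
  refine partG_iso (cycEquiv a b c) (adjR a b c) (adjR_irrefl a b c) (adjR b c a) ?_ β h
  intro x y
  unfold adjR cycEquiv
  simp only [Equiv.coe_fn_mk]
  constructor <;> intro hh <;> linarith

/-- The cube `Λ_N` as a rectangular box. -/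
def boxEquiv (N : ℕ) : box N ≃ Fin (2 * N + 1) × Fin (2 * N + 1) × Fin (2 * N + 1) where
  toFun x := (⟨(x.1.1 + N).toNat, by
      have hx := x.2
      simp only [box, Finset.mem_product, Finset.mem_Icc] at hx
      omega⟩, ⟨(x.1.2.1 + N).toNat, by
      have hx := x.2
      simp only [box, Finset.mem_product, Finset.mem_Icc] at hx
      omega⟩, ⟨(x.1.2.2 + N).toNat, by
      have hx := x.2
      simp only [box, Finset.mem_product, Finset.mem_Icc] at hx
      omega⟩)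
  invFun p := ⟨(((p.1 : ℕ) : ℤ) - N, ((p.2.1 : ℕ) : ℤ) - N, ((p.2.2 : ℕ) : ℤ) - N), by
      have h1 := p.1.2
      have h2 := p.2.1.2
      have h3 := p.2.2.2
      simp only [box, Finset.mem_product, Finset.mem_Icc]
      omega⟩
  left_inv := by
    intro x
    have hx := x.2
    simp only [box, Finset.mem_product, Finset.mem_Icc] at hx
    apply Subtype.ext
    apply Prod.ext
    · show (((x.1.1 + N).toNat : ℕ) : ℤ) - N = x.1.1
      omega
    · apply Prod.ext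
      · show (((x.1.2.1 + N).toNat : ℕ) : ℤ) - N = x.1.2.1
        omega
      · show (((x.1.2.2 + N).toNat : ℕ) : ℤ) - N = x.1.2.2
        omega
  right_inv := by
    intro p
    have h1 := p.1.2
    have h2 := p.2.1.2
    have h3 := p.2.2.2
    apply Prod.ext
    · apply Fin.ext
      show ((((p.1 : ℕ) : ℤ) - N) + N).toNat = (p.1 : ℕ)
      omega
    · apply Prod.ext
      · apply Fin.ext
        show ((((p.2.1 : ℕ) : ℤ) - N) + N).toNat = (p.2.1 : ℕ)
        omega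
      · apply Fin.ext
        show ((((p.2.2 : ℕ) : ℤ) - N) + N).toNat = (p.2.2 : ℕ)
        omega

theorem partG_box (d N : ℕ) (β h : ℝ) :
    partG d (adjR (2 * N + 1) (2 * N + 1) (2 * N + 1)) β h = partG d (adjB N) β h := by
  refine partG_iso (boxEquiv N) (adjB N) (adjB_irrefl N) _ ?_ β h
  intro x y
  have hx := x.2
  have hy := y.2
  simp only [box, Finset.mem_product, Finset.mem_Icc] at hx hy
  unfold adjR adjB
  have e1 : ((((boxEquiv N x).1 : ℕ) : ℤ)) - (((boxEquiv N y).1 : ℕ) : ℤ) = x.1.1 - y.1.1 := by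
    show (((x.1.1 + N).toNat : ℕ) : ℤ) - (((y.1.1 + N).toNat : ℕ) : ℤ) = x.1.1 - y.1.1
    omega
  have e2 : ((((boxEquiv N x).2.1 : ℕ) : ℤ)) - (((boxEquiv N y).2.1 : ℕ) : ℤ) =
      x.1.2.1 - y.1.2.1 := by
    show (((x.1.2.1 + N).toNat : ℕ) : ℤ) - (((y.1.2.1 + N).toNat : ℕ) : ℤ) = x.1.2.1 - y.1.2.1
    omega
  have e3 : ((((boxEquiv N x).2.2 : ℕ) : ℤ)) - (((boxEquiv N y).2.2 : ℕ) : ℤ) =
      x.1.2.2 - y.1.2.2 := by
    show (((x.1.2.2 + N).toNat : ℕ) : ℤ) - (((y.1.2.2 + N).toNat : ℕ) : ℤ) = x.1.2.2 - y.1.2.2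
    omega
  rw [e1, e2, e3]

/-- Splitting a box along the first coordinate. -/
def splitEquiv (a₁ a₂ b c : ℕ) :
    (Fin a₁ × Fin b × Fin c) ⊕ (Fin a₂ × Fin b × Fin c) ≃ Fin (a₁ + a₂) × Fin b × Fin c :=
  (Equiv.sumProdDistrib (Fin a₁) (Fin a₂) (Fin b × Fin c)).symm.trans
    (Equiv.prodCongr finSumFinEquiv (Equiv.refl _))

theorem split_inl (a₁ a₂ b c : ℕ) (p : Fin a₁ × Fin b × Fin c) :
    splitEquiv a₁ a₂ b c (Sum.inl p) = (Fin.castAdd a₂ p.1, p.2) := rfl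

theorem split_inr (a₁ a₂ b c : ℕ) (p : Fin a₂ × Fin b × Fin c) :
    splitEquiv a₁ a₂ b c (Sum.inr p) = (Fin.natAdd a₁ p.1, p.2) := rfl

/-- The box with the bonds across the cut removed. -/
def adjCut (a₁ a₂ b c : ℕ) (x y : Fin (a₁ + a₂) × Fin b × Fin c) : Prop :=
  adjR (a₁ + a₂) b c x y ∧ ((x.1 : ℕ) < a₁ ↔ (y.1 : ℕ) < a₁)

instance adjCut_decidable (a₁ a₂ b c : ℕ) : DecidableRel (adjCut a₁ a₂ b c) := fun x y =>
  inferInstanceAs (Decidable (adjR (a₁ + a₂) b c x y ∧ ((x.1 : ℕ) < a₁ ↔ (y.1 : ℕ) < a₁)))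

theorem cut_iso (a₁ a₂ b c : ℕ) (u v : (Fin a₁ × Fin b × Fin c) ⊕ (Fin a₂ × Fin b × Fin c)) :
    adjCut a₁ a₂ b c (splitEquiv a₁ a₂ b c u) (splitEquiv a₁ a₂ b c v) ↔
      adjSum (adjR a₁ b c) (adjR a₂ b c) u v := by
  rcases u with p | p <;> rcases v with p' | p'
  · rw [split_inl, split_inl]
    have h1 := p.1.2
    have h2 := p'.1.2
    show (adjR (a₁ + a₂) b c _ _ ∧ _) ↔ adjR a₁ b c p p'
    unfold adjR
    simp only [Fin.val_castAdd]
    constructor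
    · intro hh
      exact hh.1
    · intro hh
      exact ⟨hh, ⟨fun _ => h2, fun _ => h1⟩⟩
  · rw [split_inl, split_inr]
    have h1 := p.1.2
    show (adjR (a₁ + a₂) b c _ _ ∧ _) ↔ False
    simp only [Fin.val_castAdd, Fin.val_natAdd]
    constructor
    · intro hh
      have := hh.2.1 h1
      omega
    · intro hh
      exact hh.elim
  · rw [split_inr, split_inl]
    have h1 := p'.1.2
    show (adjR (a₁ + a₂) b c _ _ ∧ _) ↔ False
    simp only [Fin.val_castAdd, Fin.val_natAdd]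
    constructor
    · intro hh
      have := hh.2.2 h1
      omega
    · intro hh
      exact hh.elim
  · rw [split_inr, split_inr]
    show (adjR (a₁ + a₂) b c _ _ ∧ _) ↔ adjR a₂ b c p p'
    unfold adjR
    simp only [Fin.val_natAdd]
    have e : (((a₁ + (p.1 : ℕ) : ℕ) : ℤ)) - (((a₁ + (p'.1 : ℕ) : ℕ) : ℤ)) =
        ((p.1 : ℕ) : ℤ) - ((p'.1 : ℕ) : ℤ) := by
      push_cast
      ring
    rw [e]
    constructor
    · intro hh
      exact hh.1
    · intro hh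
      refine ⟨hh, ⟨fun h3 => ?_, fun h3 => ?_⟩⟩ <;> omega

theorem adjCut_irrefl (a₁ a₂ b c : ℕ) (x : Fin (a₁ + a₂) × Fin b × Fin c) :
    ¬ adjCut a₁ a₂ b c x x := fun hh => adjR_irrefl _ _ _ x hh.1

/-- The partition function of the cut box factorizes. -/
theorem partG_cut (d a₁ a₂ b c : ℕ) (β h : ℝ) :
    partG d (adjCut a₁ a₂ b c) β h = partG d (adjR a₁ b c) β h * partG d (adjR a₂ b c) β h := by
  rw [← partG_sum (adjR a₁ b c) (adjR a₂ b c) (adjR_irrefl a₁ b c) (adjR_irrefl a₂ b c) β h]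
  exact partG_iso (splitEquiv a₁ a₂ b c) (adjSum (adjR a₁ b c) (adjR a₂ b c))
    (adjSum_irrefl _ _ (adjR_irrefl a₁ b c) (adjR_irrefl a₂ b c)) (adjCut a₁ a₂ b c)
    (cut_iso a₁ a₂ b c) β h

end

end Vale.Agent.Lib.P361.Gen
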