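import Vale.Agent.Lib.P361.GDefs

namespace Vale.Agent.Lib.P361.Gen

open Matrix

variable {V : Type} [Fintype V] [DecidableEq V] {q : ℕ} {R : Type} [CommRing R]

theorem siteOp_apply (x : V) (A : Matrix (Fin q) (Fin q) R) (s t : V → Fin q) :
    siteOp x A s t = if ∀ z, z ≠ x → s z = t z then A (s x) (t x) else 0 := rfl

theorem siteOp_add (x : V) (A B : Matrix (Fin q) (Fin q) R) :
    siteOp x (A + B) = siteOp x A + siteOp x B := by
  ext s t
  simp only [siteOp_apply, Matrix.add_apply]
  split_ifs <;> simp

theorem siteOp_sub (x : V) (A B : Matrix (Fin q) (Fin q) R) :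
    siteOp x (A - B) = siteOp x A - siteOp x B := by
  ext s t
  simp only [siteOp_apply, Matrix.sub_apply]
  split_ifs <;> simp

theorem siteOp_smul (x : V) (c : R) (A : Matrix (Fin q) (Fin q) R) :
    siteOp x (c • A) = c • siteOp x A := by
  ext s t
  simp only [siteOp_apply, Matrix.smul_apply]
  split_ifs <;> simp

theorem siteOp_transpose (x : V) (A : Matrix (Fin q) (Fin q) R) :
    (siteOp x A)ᵀ = siteOp x Aᵀ := by
  ext s t
  simp only [siteOp_apply, Matrix.transpose_apply]
  have : (∀ z, z ≠ x → t z = s z) ↔ (∀ z, z ≠ x → s z = t z) :=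
    ⟨fun h z hz => (h z hz).symm, fun h z hz => (h z hz).symm⟩
  simp only [this]

theorem siteOp_one (x : V) : siteOp x (1 : Matrix (Fin q) (Fin q) R) = 1 := by
  ext s t
  simp only [siteOp_apply, Matrix.one_apply]
  by_cases hst : s = t
  · subst hst
    simp
  · rw [if_neg hst]
    by_cases hag : ∀ z, z ≠ x → s z = t z
    · rw [if_pos hag]
      have hx : s x ≠ t x := by
        intro hx
        apply hst
        funext z
        by_cases hzx : z = x
        · subst hzx; exact hx
        · exact hag z hzx
      rw [if_neg hx]
    · rw [if_neg hag]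

theorem siteOp_diagonal (x : V) (f : Fin q → R) :
    siteOp x (Matrix.diagonal f) = Matrix.diagonal (fun s : V → Fin q => f (s x)) := by
  ext s t
  simp only [siteOp_apply, Matrix.diagonal_apply]
  by_cases hst : s = t
  · subst hst
    simp
  · rw [if_neg hst]
    by_cases hag : ∀ z, z ≠ x → s z = t z
    · rw [if_pos hag]
      have hx : s x ≠ t x := by
        intro hx
        apply hst
        funext z
        by_cases hzx : z = x
        · subst hzx; exact hx
        · exact hag z hzx
      rw [if_neg hx]
    · rw [if_neg hag]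

theorem siteOp_map {R' : Type} [CommRing R'] (f : R →+* R') (x : V) (A : Matrix (Fin q) (Fin q) R) :
    (siteOp x A).map f = siteOp x (A.map f) := by
  ext s t
  simp only [siteOp_apply, Matrix.map_apply]
  split_ifs <;> simp

theorem siteOp_mul (x : V) (A B : Matrix (Fin q) (Fin q) R) :
    siteOp x (A * B) = siteOp x A * siteOp x B := by
  ext s t
  rw [Matrix.mul_apply]
  by_cases hag : ∀ z, z ≠ x → s z = t z
  · rw [siteOp_apply, if_pos hag, Matrix.mul_apply]
    have hsub : ∀ r ∈ (Finset.univ : Finset (V → Fin q)),
        r ∉ (Finset.univ : Finset (Fin q)).image (Function.update s x) →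
          siteOp x A s r * siteOp x B r t = 0 := by
      intro r _ hr
      by_cases h1 : ∀ z, z ≠ x → s z = r z
      · exfalso
        apply hr
        rw [Finset.mem_image]
        refine ⟨r x, Finset.mem_univ _, ?_⟩
        funext z
        by_cases hzx : z = x
        · subst hzx; simp
        · rw [Function.update_of_ne hzx]; exact h1 z hzx
      · rw [siteOp_apply, if_neg h1, zero_mul]
    rw [← Finset.sum_subset (Finset.subset_univ _) hsub]
    rw [Finset.sum_image]
    · refine Finset.sum_congr rfl fun k _ => ?_
      have h1 : ∀ z, z ≠ x → s z = Function.update s x k z := by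
        intro z hz
        rw [Function.update_of_ne hz]
      have h2 : ∀ z, z ≠ x → Function.update s x k z = t z := by
        intro z hz
        rw [Function.update_of_ne hz]
        exact hag z hz
      rw [siteOp_apply, if_pos h1, siteOp_apply, if_pos h2]
      simp
    · intro k _ k' _ hkk
      have := congrFun hkk x
      simpa using this
  · rw [siteOp_apply, if_neg hag]
    symm
    apply Finset.sum_eq_zero
    intro r _
    by_cases h1 : ∀ z, z ≠ x → s z = r z
    · by_cases h2 : ∀ z, z ≠ x → r z = t z
      · exfalso
        apply hag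
        intro z hz
        rw [h1 z hz, h2 z hz]
      · rw [siteOp_apply (A := B), if_neg h2, mul_zero]
    · rw [siteOp_apply, if_neg h1, zero_mul]

theorem siteOp_mul_siteOp (x y : V) (hxy : x ≠ y) (A B : Matrix (Fin q) (Fin q) R)
    (s t : V → Fin q) :
    (siteOp x A * siteOp y B) s t =
      if ∀ z, z ≠ x → z ≠ y → s z = t z then A (s x) (t x) * B (s y) (t y) else 0 := by
  rw [Matrix.mul_apply]
  by_cases hag : ∀ z, z ≠ x → z ≠ y → s z = t z
  · rw [if_pos hag]
    rw [Finset.sum_eq_single (Function.update s x (t x))]
    · have h1 : ∀ z, z ≠ x → s z = Function.update s x (t x) z := by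
        intro z hz
        rw [Function.update_of_ne hz]
      have h2 : ∀ z, z ≠ y → Function.update s x (t x) z = t z := by
        intro z hz
        by_cases hzx : z = x
        · subst hzx; simp
        · rw [Function.update_of_ne hzx]; exact hag z hzx hz
      simp only [siteOp, Matrix.of_apply]
      rw [if_pos h1, if_pos h2]
      simp [Function.update_of_ne hxy.symm]
    · intro r _ hr
      simp only [siteOp, Matrix.of_apply]
      by_cases h1 : ∀ z, z ≠ x → s z = r z
      · by_cases h2 : ∀ z, z ≠ y → r z = t z
        · exfalso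
          apply hr
          funext z
          by_cases hzx : z = x
          · subst hzx; simp; exact h2 z hxy
          · rw [Function.update_of_ne hzx]; exact (h1 z hzx).symm
        · rw [if_neg h2]; simp
      · rw [if_neg h1]; simp
    · intro h; exact absurd (Finset.mem_univ _) h
  · rw [if_neg hag]
    apply Finset.sum_eq_zero
    intro r _
    simp only [siteOp, Matrix.of_apply]
    by_cases h1 : ∀ z, z ≠ x → s z = r z
    · by_cases h2 : ∀ z, z ≠ y → r z = t z
      · exfalso
        apply hag
        intro z hzx hzy
        rw [h1 z hzx, h2 z hzy]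
      · rw [if_neg h2]; simp
    · rw [if_neg h1]; simp

theorem siteOp_comm (x y : V) (hxy : x ≠ y) (A B : Matrix (Fin q) (Fin q) R) :
    siteOp x A * siteOp y B = siteOp y B * siteOp x A := by
  ext s t
  rw [siteOp_mul_siteOp x y hxy, siteOp_mul_siteOp y x hxy.symm]
  have : (∀ z, z ≠ y → z ≠ x → s z = t z) ↔ (∀ z, z ≠ x → z ≠ y → s z = t z) :=
    ⟨fun h z h1 h2 => h z h2 h1, fun h z h1 h2 => h z h2 h1⟩
  simp only [this]
  split_ifs
  · ring
  · rfl

theorem siteOp_commute (x y : V) (hxy : x ≠ y) (A B : Matrix (Fin q) (Fin q) R) :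
    Commute (siteOp x A) (siteOp y B) := siteOp_comm x y hxy A B

end Vale.Agent.Lib.P361.Gen
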