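import Vale.Agent.Lib.P361.GFlip

namespace Vale.Agent.Lib.P361.Gen

open Matrix

set_option linter.unusedSectionVars false
set_option linter.unusedVariables false

noncomputable section

variable {V₁ V₂ : Type} [Fintype V₁] [DecidableEq V₁] [Fintype V₂] [DecidableEq V₂] {d : ℕ}

/-- Disjoint union of two graphs. -/
def adjSum (adj₁ : V₁ → V₁ → Prop) (adj₂ : V₂ → V₂ → Prop) : V₁ ⊕ V₂ → V₁ ⊕ V₂ → Prop
  | Sum.inl x, Sum.inl y => adj₁ x y
  | Sum.inr x, Sum.inr y => adj₂ x y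
  | Sum.inl _, Sum.inr _ => False
  | Sum.inr _, Sum.inl _ => False

instance adjSum_decidable (adj₁ : V₁ → V₁ → Prop) (adj₂ : V₂ → V₂ → Prop) [DecidableRel adj₁]
    [DecidableRel adj₂] : DecidableRel (adjSum adj₁ adj₂) := fun u v =>
  match u, v with
  | Sum.inl x, Sum.inl y => inferInstanceAs (Decidable (adj₁ x y))
  | Sum.inr x, Sum.inr y => inferInstanceAs (Decidable (adj₂ x y))
  | Sum.inl _, Sum.inr _ => inferInstanceAs (Decidable False)
  | Sum.inr _, Sum.inl _ => inferInstanceAs (Decidable False)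

theorem adjSum_irrefl (adj₁ : V₁ → V₁ → Prop) (adj₂ : V₂ → V₂ → Prop) (h1 : ∀ x, ¬ adj₁ x x)
    (h2 : ∀ x, ¬ adj₂ x x) : ∀ u, ¬ adjSum adj₁ adj₂ u u := by
  intro u
  cases u with
  | inl x => exact h1 x
  | inr x => exact h2 x

/-- The Kronecker product, as a matrix on the configurations of the disjoint union. -/
def kron {q : ℕ} (A : Matrix (V₁ → Fin q) (V₁ → Fin q) ℝ) (B : Matrix (V₂ → Fin q) (V₂ → Fin q) ℝ) :
    Matrix (V₁ ⊕ V₂ → Fin q) (V₁ ⊕ V₂ → Fin q) ℝ :=
  (Matrix.kroneckerMap (· * ·) A B).submatrix (Equiv.sumArrowEquivProdArrow V₁ V₂ (Fin q))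
    (Equiv.sumArrowEquivProdArrow V₁ V₂ (Fin q))

theorem kron_apply {q : ℕ} (A : Matrix (V₁ → Fin q) (V₁ → Fin q) ℝ)
    (B : Matrix (V₂ → Fin q) (V₂ → Fin q) ℝ) (s t : V₁ ⊕ V₂ → Fin q) :
    kron A B s t = A (fun x => s (Sum.inl x)) (fun x => t (Sum.inl x)) *
      B (fun y => s (Sum.inr y)) (fun y => t (Sum.inr y)) := rfl

theorem kron_mul {q : ℕ} (A A' : Matrix (V₁ → Fin q) (V₁ → Fin q) ℝ)
    (B B' : Matrix (V₂ → Fin q) (V₂ → Fin q) ℝ) :
    kron A B * kron A' B' = kron (A * A') (B * B') := by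
  unfold kron
  rw [Matrix.submatrix_mul_equiv]
  congr 1
  exact (Matrix.mul_kronecker_mul A A' B B').symm

theorem kron_transpose {q : ℕ} (A : Matrix (V₁ → Fin q) (V₁ → Fin q) ℝ)
    (B : Matrix (V₂ → Fin q) (V₂ → Fin q) ℝ) : (kron A B)ᵀ = kron Aᵀ Bᵀ := by
  ext s t
  simp only [Matrix.transpose_apply, kron_apply]

theorem kron_one {q : ℕ} : kron (1 : Matrix (V₁ → Fin q) (V₁ → Fin q) ℝ)
    (1 : Matrix (V₂ → Fin q) (V₂ → Fin q) ℝ) = 1 := by
  unfold kron
  have h := Matrix.one_kronecker_one (α := ℝ) (m := V₁ → Fin q) (n := V₂ → Fin q)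
  have h' : Matrix.kroneckerMap (fun x1 x2 : ℝ => x1 * x2) (1 : Matrix (V₁ → Fin q) (V₁ → Fin q) ℝ)
      (1 : Matrix (V₂ → Fin q) (V₂ → Fin q) ℝ) = 1 := h
  rw [h', Matrix.submatrix_one_equiv]

theorem kron_add_left {q : ℕ} (A A' : Matrix (V₁ → Fin q) (V₁ → Fin q) ℝ)
    (B : Matrix (V₂ → Fin q) (V₂ → Fin q) ℝ) : kron (A + A') B = kron A B + kron A' B := by
  ext s t
  simp only [Matrix.add_apply, kron_apply]
  ring

theorem kron_add_right {q : ℕ} (A : Matrix (V₁ → Fin q) (V₁ → Fin q) ℝ)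
    (B B' : Matrix (V₂ → Fin q) (V₂ → Fin q) ℝ) : kron A (B + B') = kron A B + kron A B' := by
  ext s t
  simp only [Matrix.add_apply, kron_apply]
  ring

theorem kron_smul_left {q : ℕ} (c : ℝ) (A : Matrix (V₁ → Fin q) (V₁ → Fin q) ℝ)
    (B : Matrix (V₂ → Fin q) (V₂ → Fin q) ℝ) : kron (c • A) B = c • kron A B := by
  ext s t
  simp only [Matrix.smul_apply, kron_apply, smul_eq_mul]
  ring

theorem kron_smul_right {q : ℕ} (c : ℝ) (A : Matrix (V₁ → Fin q) (V₁ → Fin q) ℝ)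
    (B : Matrix (V₂ → Fin q) (V₂ → Fin q) ℝ) : kron A (c • B) = c • kron A B := by
  ext s t
  simp only [Matrix.smul_apply, kron_apply, smul_eq_mul]
  ring

/-- Lift of an operator of the first graph. -/
def liftL (V₂ : Type) [Fintype V₂] [DecidableEq V₂] {q : ℕ} :
    Matrix (V₁ → Fin q) (V₁ → Fin q) ℝ →ₗ[ℝ] Matrix (V₁ ⊕ V₂ → Fin q) (V₁ ⊕ V₂ → Fin q) ℝ where
  toFun A := kron A 1
  map_add' := fun A A' => kron_add_left A A' 1
  map_smul' := fun c A => kron_smul_left c A 1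

/-- Lift of an operator of the second graph. -/
def liftR (V₁ : Type) [Fintype V₁] [DecidableEq V₁] {q : ℕ} :
    Matrix (V₂ → Fin q) (V₂ → Fin q) ℝ →ₗ[ℝ] Matrix (V₁ ⊕ V₂ → Fin q) (V₁ ⊕ V₂ → Fin q) ℝ where
  toFun B := kron 1 B
  map_add' := fun B B' => kron_add_right 1 B B'
  map_smul' := fun c B => kron_smul_right c 1 B

theorem liftL_apply {q : ℕ} (A : Matrix (V₁ → Fin q) (V₁ → Fin q) ℝ) :
    liftL V₂ A = kron A 1 := rfl

theorem liftR_apply {q : ℕ} (B : Matrix (V₂ → Fin q) (V₂ → Fin q) ℝ) :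
    liftR V₁ B = kron 1 B := rfl

theorem liftL_mul {q : ℕ} (A A' : Matrix (V₁ → Fin q) (V₁ → Fin q) ℝ) :
    liftL V₂ (A * A') = liftL V₂ A * liftL V₂ A' := by
  rw [liftL_apply, liftL_apply, liftL_apply, kron_mul, Matrix.one_mul]

theorem liftR_mul {q : ℕ} (B B' : Matrix (V₂ → Fin q) (V₂ → Fin q) ℝ) :
    liftR V₁ (B * B') = liftR V₁ B * liftR V₁ B' := by
  rw [liftR_apply, liftR_apply, liftR_apply, kron_mul, Matrix.one_mul]

theorem siteOp_inl {q : ℕ} (x : V₁) (A : Matrix (Fin q) (Fin q) ℝ) :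
    liftL V₂ (siteOp x A) = siteOp (Sum.inl x) A := by
  ext s t
  simp only [liftL_apply, kron_apply, siteOp_apply, Matrix.one_apply]
  by_cases h1 : ∀ z : V₁ ⊕ V₂, z ≠ Sum.inl x → s z = t z
  · have h2 : ∀ z : V₁, z ≠ x → s (Sum.inl z) = t (Sum.inl z) := by
      intro z hz
      exact h1 (Sum.inl z) (by simpa using hz)
    have h3 : (fun y : V₂ => s (Sum.inr y)) = (fun y : V₂ => t (Sum.inr y)) := by
      funext y
      exact h1 (Sum.inr y) (by simp)
    rw [if_pos h1, if_pos h2, if_pos h3, mul_one]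
  · rw [if_neg h1]
    by_cases h2 : ∀ z : V₁, z ≠ x → s (Sum.inl z) = t (Sum.inl z)
    · have h3 : ¬ ((fun y : V₂ => s (Sum.inr y)) = (fun y : V₂ => t (Sum.inr y))) := by
        intro h3
        apply h1
        intro z hz
        cases z with
        | inl z => exact h2 z (by simpa using hz)
        | inr y => exact congrFun h3 y
      rw [if_neg h3, mul_zero]
    · rw [if_neg h2, zero_mul]

theorem siteOp_inr {q : ℕ} (y : V₂) (A : Matrix (Fin q) (Fin q) ℝ) :
    liftR V₁ (siteOp y A) = siteOp (Sum.inr y) A := by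
  ext s t
  simp only [liftR_apply, kron_apply, siteOp_apply, Matrix.one_apply]
  by_cases h1 : ∀ z : V₁ ⊕ V₂, z ≠ Sum.inr y → s z = t z
  · have h2 : ∀ z : V₂, z ≠ y → s (Sum.inr z) = t (Sum.inr z) := by
      intro z hz
      exact h1 (Sum.inr z) (by simpa using hz)
    have h3 : (fun x : V₁ => s (Sum.inl x)) = (fun x : V₁ => t (Sum.inl x)) := by
      funext x
      exact h1 (Sum.inl x) (by simp)
    rw [if_pos h1, if_pos h2, if_pos h3, one_mul]
  · rw [if_neg h1]
    by_cases h2 : ∀ z : V₂, z ≠ y → s (Sum.inr z) = t (Sum.inr z)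
    · have h3 : ¬ ((fun x : V₁ => s (Sum.inl x)) = (fun x : V₁ => t (Sum.inl x))) := by
        intro h3
        apply h1
        intro z hz
        cases z with
        | inl x => exact congrFun h3 x
        | inr z => exact h2 z (by simpa using hz)
      rw [if_neg h3, zero_mul]
    · rw [if_neg h2, mul_zero]

theorem hamH_sum (adj₁ : V₁ → V₁ → Prop) (adj₂ : V₂ → V₂ → Prop) [DecidableRel adj₁]
    [DecidableRel adj₂] (h : ℝ) :
    hamH d (adjSum adj₁ adj₂) h = kron (hamH d adj₁ h) 1 + kron 1 (hamH d adj₂ h) := by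
  have hbL : ∀ x y : V₁, liftL V₂ (hbond d x y) = hbond d (Sum.inl x) (Sum.inl y) :=
    hbond_transfer (liftL V₂) liftL_mul Sum.inl siteOp_inl
  have hbR : ∀ x y : V₂, liftR V₁ (hbond d x y) = hbond d (Sum.inr x) (Sum.inr y) :=
    hbond_transfer (liftR V₁) liftR_mul Sum.inr siteOp_inr
  have hR : hamR d (adjSum adj₁ adj₂) = liftL V₂ (hamR d adj₁) + liftR V₁ (hamR d adj₂) := by
    unfold hamR
    rw [map_smul, map_smul, map_sum, map_sum, ← smul_add, Fintype.sum_sum_type]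
    congr 2
    · refine Finset.sum_congr rfl fun x _ => ?_
      rw [Fintype.sum_sum_type, map_sum]
      have hz : ∑ y : V₂, (if adjSum adj₁ adj₂ (Sum.inl x) (Sum.inr y) then
          hbond d (Sum.inl x) (Sum.inr y) else 0) = 0 := by
        apply Finset.sum_eq_zero
        intro y _
        rw [if_neg]
        exact fun hh => hh
      rw [hz, add_zero]
      refine Finset.sum_congr rfl fun y _ => ?_
      by_cases hxy : adj₁ x y
      · have : adjSum adj₁ adj₂ (Sum.inl x) (Sum.inl y) := hxy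
        rw [if_pos this, if_pos hxy, hbL]
      · have : ¬ adjSum adj₁ adj₂ (Sum.inl x) (Sum.inl y) := hxy
        rw [if_neg this, if_neg hxy, map_zero]
    · refine Finset.sum_congr rfl fun x _ => ?_
      rw [Fintype.sum_sum_type, map_sum]
      have hz : ∑ y : V₁, (if adjSum adj₁ adj₂ (Sum.inr x) (Sum.inl y) then
          hbond d (Sum.inr x) (Sum.inl y) else 0) = 0 := by
        apply Finset.sum_eq_zero
        intro y _
        rw [if_neg]
        exact fun hh => hh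
      rw [hz, zero_add]
      refine Finset.sum_congr rfl fun y _ => ?_
      by_cases hxy : adj₂ x y
      · have : adjSum adj₁ adj₂ (Sum.inr x) (Sum.inr y) := hxy
        rw [if_pos this, if_pos hxy, hbR]
      · have : ¬ adjSum adj₁ adj₂ (Sum.inr x) (Sum.inr y) := hxy
        rw [if_neg this, if_neg hxy, map_zero]
  have hM : (magR d : Matrix (V₁ ⊕ V₂ → Fin (d + 1)) (V₁ ⊕ V₂ → Fin (d + 1)) ℝ) =
      liftL V₂ (magR d) + liftR V₁ (magR d) := by
    unfold magR
    rw [Fintype.sum_sum_type, map_sum, map_sum]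
    congr 1
    · refine Finset.sum_congr rfl fun x _ => ?_
      unfold Sz
      exact (siteOp_inl x _).symm
    · refine Finset.sum_congr rfl fun x _ => ?_
      unfold Sz
      exact (siteOp_inr x _).symm
  unfold hamH
  rw [hR, hM, ← liftL_apply, ← liftR_apply, map_sub, map_sub, map_smul, map_smul, smul_add]
  abel

/-- The partition function of a disjoint union is the product of the partition functions. -/
theorem partG_sum (adj₁ : V₁ → V₁ → Prop) (adj₂ : V₂ → V₂ → Prop) [DecidableRel adj₁]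
    [DecidableRel adj₂] (h1 : ∀ x, ¬ adj₁ x x) (h2 : ∀ x, ¬ adj₂ x x) (β h : ℝ) :
    partG d (adjSum adj₁ adj₂) β h = partG d adj₁ β h * partG d adj₂ β h := by
  obtain ⟨U₁, E₁, hU1, hU2, hH₁, _⟩ := spectral_real (hamH d adj₁ h) (hamH_herm adj₁ h1 h)
  obtain ⟨U₂, E₂, hW1, hW2, hH₂, _⟩ := spectral_real (hamH d adj₂ h) (hamH_herm adj₂ h2 h)
  set E : (V₁ ⊕ V₂ → Fin (d + 1)) → ℝ :=
    fun s => E₁ (fun x => s (Sum.inl x)) + E₂ (fun y => s (Sum.inr y)) with hE
  have hD : kron (Matrix.diagonal E₁) 1 + kron 1 (Matrix.diagonal E₂) = Matrix.diagonal E := by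
    ext s t
    simp only [Matrix.add_apply, kron_apply, Matrix.diagonal_apply, Matrix.one_apply, hE]
    by_cases hst : s = t
    · subst hst
      simp
    · rw [if_neg hst]
      by_cases hl : (fun x : V₁ => s (Sum.inl x)) = (fun x : V₁ => t (Sum.inl x))
      · have hr : ¬ ((fun y : V₂ => s (Sum.inr y)) = (fun y : V₂ => t (Sum.inr y))) := by
          intro hr
          apply hst
          funext z
          cases z with
          | inl x => exact congrFun hl x
          | inr y => exact congrFun hr y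
        rw [if_neg hr, if_neg hr]
        simp
      · rw [if_neg hl, if_neg hl]
        simp
  have hH : hamH d (adjSum adj₁ adj₂) h = kron U₁ U₂ * Matrix.diagonal E * (kron U₁ U₂)ᵀ := by
    rw [hamH_sum, ← hD, kron_transpose, Matrix.mul_add, Matrix.add_mul, kron_mul, kron_mul,
      kron_mul, kron_mul, Matrix.mul_one, Matrix.mul_one, hW1, hU1, ← hH₁, ← hH₂]
  have hK1 : kron U₁ U₂ * (kron U₁ U₂)ᵀ = 1 := by
    rw [kron_transpose, kron_mul, hU1, hW1, kron_one]
  have hK2 : (kron U₁ U₂)ᵀ * kron U₁ U₂ = 1 := by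
    rw [kron_transpose, kron_mul, hU2, hW2, kron_one]
  rw [partG_eq_sum (adjSum adj₁ adj₂) β h _ E hK1 hK2 hH, partG_eq_sum adj₁ β h U₁ E₁ hU1 hU2 hH₁,
    partG_eq_sum adj₂ β h U₂ E₂ hW1 hW2 hH₂, Finset.sum_mul_sum]
  rw [← Equiv.sum_comp (Equiv.sumArrowEquivProdArrow V₁ V₂ (Fin (d + 1))).symm, Fintype.sum_prod_type]
  refine Finset.sum_congr rfl fun k₁ _ => Finset.sum_congr rfl fun k₂ _ => ?_
  rw [← Real.exp_add]
  congr 1
  simp only [hE]
  have e1 : (fun x : V₁ => (Equiv.sumArrowEquivProdArrow V₁ V₂ (Fin (d + 1))).symm (k₁, k₂)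
      (Sum.inl x)) = k₁ := rfl
  have e2 : (fun y : V₂ => (Equiv.sumArrowEquivProdArrow V₁ V₂ (Fin (d + 1))).symm (k₁, k₂)
      (Sum.inr y)) = k₂ := rfl
  rw [e1, e2]
  ring

end

end Vale.Agent.Lib.P361.Gen
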