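import Vale.Agent.Lib.P361.GCount

namespace Vale.Agent.Lib.P361.Gen

set_option linter.unusedSectionVars false
set_option linter.unusedVariables false

noncomputable section

open Filter Topology

/-- Near-additivity along the first coordinate, iterated. -/
theorem rect_step (u : ℕ → ℕ → ℕ → ℝ) (K C : ℝ)
    (H1 : ∀ a₁ a₂ b c : ℕ, |u (a₁ + a₂) b c - u a₁ b c - u a₂ b c| ≤ K * ((b : ℝ) * c))
    (H3 : ∀ a b c : ℕ, |u a b c| ≤ C * ((a : ℝ) * b * c)) (q l r b c : ℕ) :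
    |u (q * l + r) b c - (q : ℝ) * u l b c| ≤
      (q : ℝ) * K * ((b : ℝ) * c) + C * ((r : ℝ) * b * c) := by
  induction q with
  | zero =>
    simp only [Nat.zero_mul, Nat.zero_add, Nat.cast_zero, zero_mul, sub_zero, zero_add]
    exact H3 r b c
  | succ q ih =>
    have e : (q + 1) * l + r = l + (q * l + r) := by ring
    rw [e]
    have h1 := H1 l (q * l + r) b c
    have e2 : u (l + (q * l + r)) b c - ((q + 1 : ℕ) : ℝ) * u l b c =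
        (u (l + (q * l + r)) b c - u l b c - u (q * l + r) b c) +
          (u (q * l + r) b c - (q : ℝ) * u l b c) := by
      push_cast
      ring
    rw [e2]
    refine (abs_add_le _ _).trans ?_
    push_cast
    linarith

theorem cube_compare (u : ℕ → ℕ → ℕ → ℝ) (K C : ℝ) (hK : 0 ≤ K) (hC : 0 ≤ C)
    (H1 : ∀ a₁ a₂ b c : ℕ, |u (a₁ + a₂) b c - u a₁ b c - u a₂ b c| ≤ K * ((b : ℝ) * c))
    (H2 : ∀ a b c : ℕ, u a b c = u b c a)
    (H3 : ∀ a b c : ℕ, |u a b c| ≤ C * ((a : ℝ) * b * c)) (q l r L : ℕ) (hL : L = q * l + r) :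
    |u L L L - (q : ℝ) ^ 3 * u l l l| ≤ (3 * K * q + 3 * C * r) * (L : ℝ) ^ 2 := by
  have s1 := rect_step u K C H1 H3 q l r L L
  have s2 := rect_step u K C H1 H3 q l r L l
  have s3 := rect_step u K C H1 H3 q l r l l
  rw [← hL] at s1 s2 s3
  have c1 : u l L L = u L L l := H2 l L L
  have c2 : u l L l = u L l l := H2 l L l
  rw [← c1] at s2
  rw [← c2] at s3
  have hLr : (L : ℝ) = (q : ℝ) * l + r := by
    rw [hL]
    push_cast
    ring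
  have hq : (0 : ℝ) ≤ q := Nat.cast_nonneg q
  have hl : (0 : ℝ) ≤ l := Nat.cast_nonneg l
  have hr : (0 : ℝ) ≤ r := Nat.cast_nonneg r
  have hL0 : (0 : ℝ) ≤ L := Nat.cast_nonneg L
  have hql : (q : ℝ) * l ≤ L := by
    rw [hLr]
    linarith
  have hql0 : (0 : ℝ) ≤ (q : ℝ) * l := mul_nonneg hq hl
  have e : u L L L - (q : ℝ) ^ 3 * u l l l = (u L L L - q * u l L L) +
      q * (u l L L - q * u l L l) + (q : ℝ) ^ 2 * (u l L l - q * u l l l) := by ring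
  rw [e]
  have t1 : |(q : ℝ) * (u l L L - q * u l L l)| ≤
      q * (q * K * ((L : ℝ) * l) + C * ((r : ℝ) * L * l)) := by
    rw [abs_mul, abs_of_nonneg hq]
    exact mul_le_mul_of_nonneg_left s2 hq
  have t2 : |(q : ℝ) ^ 2 * (u l L l - q * u l l l)| ≤
      (q : ℝ) ^ 2 * (q * K * ((l : ℝ) * l) + C * ((r : ℝ) * l * l)) := by
    rw [abs_mul, abs_of_nonneg (by positivity)]
    exact mul_le_mul_of_nonneg_left s3 (by positivity)
  refine (abs_add_three _ _ _).trans ?_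
  have a1 : (q : ℝ) * l * L ≤ (L : ℝ) * L := mul_le_mul_of_nonneg_right hql hL0
  have a2 : ((q : ℝ) * l) * ((q : ℝ) * l) ≤ (L : ℝ) * L := mul_le_mul hql hql hql0 hL0
  have b1 : K * q * ((q : ℝ) * l * L) ≤ K * q * ((L : ℝ) * L) :=
    mul_le_mul_of_nonneg_left a1 (by positivity)
  have b2 : K * q * (((q : ℝ) * l) * ((q : ℝ) * l)) ≤ K * q * ((L : ℝ) * L) :=
    mul_le_mul_of_nonneg_left a2 (by positivity)
  have b3 : C * r * ((q : ℝ) * l * L) ≤ C * r * ((L : ℝ) * L) :=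
    mul_le_mul_of_nonneg_left a1 (by positivity)
  have b4 : C * r * (((q : ℝ) * l) * ((q : ℝ) * l)) ≤ C * r * ((L : ℝ) * L) :=
    mul_le_mul_of_nonneg_left a2 (by positivity)
  nlinarith [s1, t1, t2, b1, b2, b3, b4]

theorem cube_pressure (u : ℕ → ℕ → ℕ → ℝ) (K C : ℝ) (hK : 0 ≤ K) (hC : 0 ≤ C)
    (H1 : ∀ a₁ a₂ b c : ℕ, |u (a₁ + a₂) b c - u a₁ b c - u a₂ b c| ≤ K * ((b : ℝ) * c))
    (H2 : ∀ a b c : ℕ, u a b c = u b c a)
    (H3 : ∀ a b c : ℕ, |u a b c| ≤ C * ((a : ℝ) * b * c)) (q l r L : ℕ) (hL : L = q * l + r)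
    (hl : 0 < l) (hLpos : 0 < L) :
    |u L L L / (L : ℝ) ^ 3 - u l l l / (l : ℝ) ^ 3| ≤ (3 * K * q + 6 * C * r) / (L : ℝ) := by
  have hc := cube_compare u K C hK hC H1 H2 H3 q l r L hL
  have hLr : (L : ℝ) = (q : ℝ) * l + r := by
    rw [hL]
    push_cast
    ring
  have hLp : (0 : ℝ) < L := by exact_mod_cast hLpos
  have hlp : (0 : ℝ) < l := by exact_mod_cast hl
  have hq : (0 : ℝ) ≤ q := Nat.cast_nonneg q
  have hr : (0 : ℝ) ≤ r := Nat.cast_nonneg r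
  have hql : (q : ℝ) * l ≤ L := by
    rw [hLr]
    linarith
  have hql0 : (0 : ℝ) ≤ (q : ℝ) * l := mul_nonneg hq hlp.le
  have h3 := H3 l l l
  have e : u L L L / (L : ℝ) ^ 3 - u l l l / (l : ℝ) ^ 3 =
      ((l : ℝ) ^ 3 * (u L L L - (q : ℝ) ^ 3 * u l l l) +
        ((q : ℝ) ^ 3 * (l : ℝ) ^ 3 - (L : ℝ) ^ 3) * u l l l) / ((L : ℝ) ^ 3 * (l : ℝ) ^ 3) := by
    field_simp
    ring
  have hden : (0 : ℝ) < (L : ℝ) ^ 3 * (l : ℝ) ^ 3 := by positivity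
  rw [e, abs_div, abs_of_pos hden, div_le_div_iff₀ hden hLp]
  have hD : |(l : ℝ) ^ 3 * (u L L L - (q : ℝ) ^ 3 * u l l l)| ≤
      (l : ℝ) ^ 3 * ((3 * K * q + 3 * C * r) * (L : ℝ) ^ 2) := by
    rw [abs_mul, abs_of_pos (by positivity)]
    exact mul_le_mul_of_nonneg_left hc (by positivity)
  have hP : (q : ℝ) ^ 3 * (l : ℝ) ^ 3 - (L : ℝ) ^ 3 =
      -((r : ℝ) * ((L : ℝ) * L + L * ((q : ℝ) * l) + ((q : ℝ) * l) * ((q : ℝ) * l))) := by
    rw [hLr]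
    ring
  have a1 : (L : ℝ) * ((q : ℝ) * l) ≤ (L : ℝ) * L := mul_le_mul_of_nonneg_left hql hLp.le
  have a2 : ((q : ℝ) * l) * ((q : ℝ) * l) ≤ (L : ℝ) * L := mul_le_mul hql hql hql0 hLp.le
  have hdiff : |(q : ℝ) ^ 3 * (l : ℝ) ^ 3 - (L : ℝ) ^ 3| ≤ 3 * r * ((L : ℝ) * L) := by
    rw [hP, abs_neg, abs_of_nonneg (by positivity)]
    have : (L : ℝ) * L + L * ((q : ℝ) * l) + ((q : ℝ) * l) * ((q : ℝ) * l) ≤ 3 * ((L : ℝ) * L) := by
      linarith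
    have := mul_le_mul_of_nonneg_left this hr
    linarith
  have hE : |((q : ℝ) ^ 3 * (l : ℝ) ^ 3 - (L : ℝ) ^ 3) * u l l l| ≤
      3 * r * ((L : ℝ) * L) * (C * ((l : ℝ) * l * l)) := by
    rw [abs_mul]
    exact mul_le_mul hdiff h3 (abs_nonneg _) (by positivity)
  have hsum := (abs_add_le ((l : ℝ) ^ 3 * (u L L L - (q : ℝ) ^ 3 * u l l l))
    (((q : ℝ) ^ 3 * (l : ℝ) ^ 3 - (L : ℝ) ^ 3) * u l l l)).trans (add_le_add hD hE)
  calc |(l : ℝ) ^ 3 * (u L L L - (q : ℝ) ^ 3 * u l l l) +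
        ((q : ℝ) ^ 3 * (l : ℝ) ^ 3 - (L : ℝ) ^ 3) * u l l l| * (L : ℝ)
      ≤ ((l : ℝ) ^ 3 * ((3 * K * q + 3 * C * r) * (L : ℝ) ^ 2) +
          3 * r * ((L : ℝ) * L) * (C * ((l : ℝ) * l * l))) * (L : ℝ) :=
        mul_le_mul_of_nonneg_right hsum hLp.le
    _ = (3 * K * q + 6 * C * r) * ((L : ℝ) ^ 3 * (l : ℝ) ^ 3) := by ring

end

end Vale.Agent.Lib.P361.Gen
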