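import Vale.Agent.Lib.P361.Finite

namespace Vale.Agent.Lib.P361

open Filter

theorem PN_lower (N : ℕ) (β h : ℝ) (hβ : 0 < β) (hh : 0 ≤ h) : -(h / 2) ≤ PN N β h := by
  unfold PN
  rw [partitionFn_eq]
  have hirr := adjB_irrefl N
  have hge := partG_ge (adjB N) hirr β h hβ.le hh
  have hlog := Real.log_le_log (Real.exp_pos _) hge
  rw [Real.log_exp] at hlog
  have hcard : (Fintype.card (box N) : ℝ) = ((box N).card : ℝ) := by
    rw [Fintype.card_coe]
  rw [hcard] at hlog
  have hc3 : (0 : ℝ) < ((box N).card : ℝ) := by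
    rw [card_box']
    positivity
  rw [le_div_iff₀ (mul_pos hβ hc3)]
  have e : -(h / 2) * (β * ((box N).card : ℝ)) = -(β * h * (((box N).card : ℝ) / 2)) := by ring
  rw [e]
  exact hlog

theorem PN_upper (N : ℕ) (β h : ℝ) (hβ : 0 < β) :
    PN N β h ≤ 3 / 4 + (1 / β) * Real.log (Real.exp (β * h / 2) + Real.exp (-(β * h / 2))) := by
  unfold PN
  rw [partitionFn_eq]
  have hirr := adjB_irrefl N
  have hup := partG_upper (adjB N) hirr β h hβ.le
  have hZ := partG_pos (adjB N) hirr β h hβ.le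
  have hA : 0 < Real.exp (β * h / 2) + Real.exp (-(β * h / 2)) :=
    add_pos (Real.exp_pos _) (Real.exp_pos _)
  have hlog := Real.log_le_log hZ hup
  rw [Real.log_mul (Real.exp_pos _).ne' (pow_pos hA _).ne', Real.log_exp, Real.log_pow] at hlog
  have hcard : (Fintype.card (box N) : ℝ) = ((box N).card : ℝ) := by
    rw [Fintype.card_coe]
  have hn := nadj_le N
  rw [hcard] at hlog hn
  have hc3 : (0 : ℝ) < ((box N).card : ℝ) := by
    rw [card_box']
    positivity
  rw [div_le_iff₀ (mul_pos hβ hc3)]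
  have e : (3 / 4 + 1 / β * Real.log (Real.exp (β * h / 2) + Real.exp (-(β * h / 2)))) *
      (β * ((box N).card : ℝ)) = β * (6 * ((box N).card : ℝ) / 8) +
        ((box N).card : ℝ) * Real.log (Real.exp (β * h / 2) + Real.exp (-(β * h / 2))) := by
    field_simp
    ring
  rw [e]
  have : β * (nadj (adjB N) / 8) ≤ β * (6 * ((box N).card : ℝ) / 8) := by
    apply mul_le_mul_of_nonneg_left _ hβ.le
    linarith
  push_cast at hlog
  linarith

theorem pressure_eq (β h : ℝ) : pressure β h = limsup (fun N : ℕ => PN N β h) atTop := rfl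

theorem PN_bdd_above (β h : ℝ) (hβ : 0 < β) :
    IsBoundedUnder (· ≤ ·) atTop (fun N : ℕ => PN N β h) :=
  isBoundedUnder_of ⟨_, fun N => PN_upper N β h hβ⟩

theorem PN_bdd_below (β h : ℝ) (hβ : 0 < β) (hh : 0 ≤ h) :
    IsBoundedUnder (· ≥ ·) atTop (fun N : ℕ => PN N β h) :=
  isBoundedUnder_of ⟨_, fun N => PN_lower N β h hβ hh⟩

/-- The chord bound for the (limsup) pressure. -/
theorem pressure_chord (q : ℕ) (hq : 1 ≤ q) (β h h₀ : ℝ) (hβ : 0 < β) (hh : 0 < h) (hh₀ : h ≤ h₀) :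
    pressure β h ≤ pressure β 0 + h * Cc β q h₀ := by
  rw [pressure_eq, pressure_eq]
  have hev : (fun N : ℕ => PN N β h) ≤ᶠ[atTop] (fun N : ℕ => PN N β 0 + h * Cc β q h₀) := by
    filter_upwards [eventually_ge_atTop (12 * q)] with N hN
    exact pressure_step q hq β h h₀ hβ hh hh₀ N hN
  have hb0 := PN_bdd_above β 0 hβ
  have hc0 := (PN_bdd_below β 0 hβ le_rfl).isCoboundedUnder_le
  have hbh := PN_bdd_above β h hβ
  have hch := (PN_bdd_below β h hβ hh.le).isCoboundedUnder_le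
  have hadd := limsup_add_const atTop (fun N : ℕ => PN N β 0) (h * Cc β q h₀) hb0 hc0
  rw [← hadd]
  refine limsup_le_limsup hev hch ?_
  obtain ⟨b, hb⟩ := hb0
  refine ⟨b + h * Cc β q h₀, ?_⟩
  rw [eventually_map] at hb ⊢
  filter_upwards [hb] with N hN
  linarith

/-- The right derivative of the pressure at `h = 0` is bounded by the chord constant. -/
theorem deriv_le (q : ℕ) (hq : 1 ≤ q) (β h₀ : ℝ) (hβ : 0 < β) (hh₀ : 0 < h₀) (m : ℝ)
    (hm : HasDerivWithinAt (pressure β) m (Set.Ioi 0) 0) : m ≤ Cc β q h₀ := by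
  rw [hasDerivWithinAt_iff_tendsto_slope' (Set.self_notMem_Ioi)] at hm
  refine le_of_tendsto hm ?_
  filter_upwards [Ioc_mem_nhdsGT hh₀] with h hh
  rw [slope_def_field, sub_zero]
  rw [div_le_iff₀ hh.1]
  have := pressure_chord q hq β h h₀ hβ hh.1 hh.2
  linarith

end Vale.Agent.Lib.P361
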