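import Mathlib

namespace Vale.Agent.Lib.P361

open Matrix

/-- Real spectral theorem in matrix form. -/
theorem spectral_real {n : Type*} [Fintype n] [DecidableEq n] (A : Matrix n n ℝ) (hA : A.IsHermitian) :
    ∃ (U : Matrix n n ℝ) (d : n → ℝ), U * Uᵀ = 1 ∧ Uᵀ * U = 1 ∧ A = U * Matrix.diagonal d * Uᵀ ∧
      (A.PosSemidef → ∀ k, 0 ≤ d k) := by
  refine ⟨(hA.eigenvectorUnitary : Matrix n n ℝ), hA.eigenvalues, ?_, ?_, ?_, ?_⟩
  · have := Unitary.coe_mul_star_self hA.eigenvectorUnitary
    simpa [Matrix.star_eq_conjTranspose] using this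
  · have := Unitary.coe_star_mul_self hA.eigenvectorUnitary
    simpa [Matrix.star_eq_conjTranspose] using this
  · have := hA.spectral_theorem
    rw [Unitary.conjStarAlgAut_apply] at this
    simpa [Matrix.star_eq_conjTranspose] using this
  · intro hpsd k
    exact hpsd.eigenvalues_nonneg k

theorem exp_conj_orth {n : Type*} [Fintype n] [DecidableEq n] (U : Matrix n n ℝ) (d : n → ℝ)
    (h1 : U * Uᵀ = 1) :
    NormedSpace.exp (U * Matrix.diagonal d * Uᵀ) =
      U * Matrix.diagonal (fun k => Real.exp (d k)) * Uᵀ := by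
  have hinv : U⁻¹ = Uᵀ := Matrix.inv_eq_right_inv h1
  have hu : IsUnit U := by
    rw [Matrix.isUnit_iff_isUnit_det]
    exact Matrix.isUnit_det_of_right_inverse h1
  have := Matrix.exp_conj U (Matrix.diagonal d) hu
  rw [hinv] at this
  have hd : NormedSpace.exp d = fun k => Real.exp (d k) := by
    rw [Pi.exp_def]
    funext k
    rw [Real.exp_eq_exp_ℝ]
  rw [this, Matrix.exp_diagonal, hd]

theorem conj_diag_apply {ι n : Type*} [Fintype n] [DecidableEq n] (C : Matrix ι n ℝ) (d : n → ℝ)
    (i : ι) : (C * Matrix.diagonal d * Cᵀ) i i = ∑ k, (C i k) ^ 2 * d k := by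
  rw [Matrix.mul_apply]
  refine Finset.sum_congr rfl fun k _ => ?_
  rw [Matrix.mul_diagonal, Matrix.transpose_apply]
  ring

/-- Peierls inequality: for a family of orthonormal vectors (the rows of `Ψ`) and a symmetric matrix `A`,
`∑ᵢ exp ⟨ψᵢ, A ψᵢ⟩ ≤ Tr exp A`. -/
theorem peierls {ι n : Type*} [Fintype ι] [DecidableEq ι] [Fintype n] [DecidableEq n]
    (A : Matrix n n ℝ) (hA : A.IsHermitian) (Ψ : Matrix ι n ℝ) (hΨ : Ψ * Ψᵀ = 1) :
    ∑ i, Real.exp ((Ψ * A * Ψᵀ) i i) ≤ Matrix.trace (NormedSpace.exp A) := by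
  obtain ⟨U, d, h1, h2, hA', _⟩ := spectral_real A hA
  set C : Matrix ι n ℝ := Ψ * U with hC
  have hCC : C * Cᵀ = 1 := by
    rw [hC, Matrix.transpose_mul, Matrix.mul_assoc, ← Matrix.mul_assoc U, h1, Matrix.one_mul, hΨ]
  have hconj : Ψ * A * Ψᵀ = C * Matrix.diagonal d * Cᵀ := by
    rw [hC, Matrix.transpose_mul, hA']
    simp only [Matrix.mul_assoc]
  have hrow : ∀ i, ∑ k, (C i k) ^ 2 = 1 := by
    intro i
    have := congrFun (congrFun hCC i) i
    rw [Matrix.mul_apply] at this
    simp only [Matrix.transpose_apply, Matrix.one_apply_eq] at this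
    rw [← this]
    exact Finset.sum_congr rfl fun k _ => by ring
  have hcol : ∀ k, ∑ i, (C i k) ^ 2 ≤ 1 := by
    intro k
    set P : Matrix n n ℝ := Cᵀ * C with hP
    have hPP : P * P = P := by
      rw [hP, Matrix.mul_assoc, ← Matrix.mul_assoc C, hCC, Matrix.one_mul]
    have hPsymm : ∀ a b, P a b = P b a := by
      intro a b
      simp only [hP, Matrix.mul_apply, Matrix.transpose_apply]
      exact Finset.sum_congr rfl fun i _ => by ring
    have hPkk : P k k = ∑ i, (C i k) ^ 2 := by
      simp only [hP, Matrix.mul_apply, Matrix.transpose_apply]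
      exact Finset.sum_congr rfl fun i _ => by ring
    have hsq : (P k k) ^ 2 ≤ P k k := by
      have h3 := congrFun (congrFun hPP k) k
      rw [Matrix.mul_apply] at h3
      have h4 : (P k k) ^ 2 ≤ ∑ j, P k j * P j k := by
        have h5 : P k k * P k k ≤ ∑ j, P k j * P j k := by
          have h6 : ∀ j ∈ Finset.univ, 0 ≤ P k j * P j k := by
            intro j _
            rw [hPsymm j k]
            exact mul_self_nonneg _
          exact Finset.single_le_sum h6 (Finset.mem_univ k)
        calc (P k k) ^ 2 = P k k * P k k := by ring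
          _ ≤ _ := h5
      rw [h3] at h4
      exact h4
    rw [← hPkk]
    nlinarith [sq_nonneg (P k k - 1)]
  have htr : Matrix.trace (NormedSpace.exp A) = ∑ k, Real.exp (d k) := by
    rw [hA', exp_conj_orth U d h1, Matrix.trace_mul_cycle, h2, Matrix.one_mul, Matrix.trace_diagonal]
  rw [htr, hconj]
  calc ∑ i, Real.exp ((C * Matrix.diagonal d * Cᵀ) i i)
      ≤ ∑ i, ∑ k, (C i k) ^ 2 * Real.exp (d k) := by
        refine Finset.sum_le_sum fun i _ => ?_
        rw [conj_diag_apply]
        have := convexOn_exp.map_sum_le (t := Finset.univ) (w := fun k => (C i k) ^ 2) (p := d)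
          (fun k _ => sq_nonneg _) (hrow i) (fun k _ => Set.mem_univ _)
        simpa [smul_eq_mul] using this
    _ = ∑ k, (∑ i, (C i k) ^ 2) * Real.exp (d k) := by
        rw [Finset.sum_comm]
        exact Finset.sum_congr rfl fun k _ => by rw [Finset.sum_mul]
    _ ≤ ∑ k, 1 * Real.exp (d k) := by
        refine Finset.sum_le_sum fun k _ => ?_
        exact mul_le_mul_of_nonneg_right (hcol k) (Real.exp_pos _).le
    _ = ∑ k, Real.exp (d k) := by simp

/-- Diagonal entries of `exp (-(t • A))` lie in `[0, 1]` for positive semidefinite `A` and `t ≥ 0`. -/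
theorem exp_neg_psd_diag {n : Type*} [Fintype n] [DecidableEq n] (A : Matrix n n ℝ)
    (hA : A.PosSemidef) (t : ℝ) (ht : 0 ≤ t) (s : n) :
    0 ≤ (NormedSpace.exp (-(t • A))) s s ∧ (NormedSpace.exp (-(t • A))) s s ≤ 1 := by
  obtain ⟨U, d, h1, h2, hA', hd⟩ := spectral_real A hA.isHermitian
  have hd' := hd hA
  have hneg : -(t • A) = U * Matrix.diagonal (fun k => -(t * d k)) * Uᵀ := by
    rw [hA']
    have : Matrix.diagonal (fun k => -(t * d k)) = -(t • Matrix.diagonal d) := by
      ext a b
      by_cases hab : a = b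
      · subst hab; simp
      · simp [hab]
    rw [this]
    simp
  rw [hneg, exp_conj_orth U _ h1, conj_diag_apply]
  have hrow : ∑ k, (U s k) ^ 2 = 1 := by
    have := congrFun (congrFun h1 s) s
    rw [Matrix.mul_apply] at this
    simp only [Matrix.transpose_apply, Matrix.one_apply_eq] at this
    rw [← this]
    exact Finset.sum_congr rfl fun k _ => by ring
  refine ⟨Finset.sum_nonneg fun k _ => mul_nonneg (sq_nonneg _) (Real.exp_pos _).le, ?_⟩
  calc ∑ k, (U s k) ^ 2 * Real.exp (-(t * d k)) ≤ ∑ k, (U s k) ^ 2 * 1 := by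
        refine Finset.sum_le_sum fun k _ => ?_
        refine mul_le_mul_of_nonneg_left ?_ (sq_nonneg _)
        rw [Real.exp_le_one_iff]
        have := mul_nonneg ht (hd' k)
        linarith
    _ = 1 := by simp [hrow]

end Vale.Agent.Lib.P361
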