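import Vale.Agent.Lib.P361.Spin

namespace Vale.Agent.Lib.P361

open Matrix

variable {V : Type} [Fintype V] [DecidableEq V]

/-- Composition with a transposition as an equivalence of configurations. -/
def swapEquiv (x y : V) : (V → Fin 2) ≃ (V → Fin 2) where
  toFun s := s ∘ Equiv.swap x y
  invFun s := s ∘ Equiv.swap x y
  left_inv s := by
    funext z
    simp
  right_inv s := by
    funext z
    simp

theorem sum_comp_swap (x y : V) (g : (V → Fin 2) → ℝ) :
    ∑ s : V → Fin 2, g (s ∘ Equiv.swap x y) = ∑ s : V → Fin 2, g s :=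
  Equiv.sum_comp (swapEquiv x y) g

/-- The quadratic form of `H - E₀`. -/
noncomputable def Q (adj : V → V → Prop) [DecidableRel adj] (f : (V → Fin 2) → ℝ) : ℝ :=
  (1 / 8 : ℝ) * ∑ x : V, ∑ y : V, if adj x y then
    ∑ s : V → Fin 2, (f s - f (s ∘ Equiv.swap x y)) ^ 2 else 0

theorem AR_mulVec (adj : V → V → Prop) [DecidableRel adj] (f : (V → Fin 2) → ℝ) (s : V → Fin 2) :
    (AR adj *ᵥ f) s = (1 / 4 : ℝ) * ∑ x : V, ∑ y : V,
      if adj x y then (f s - f (s ∘ Equiv.swap x y)) else 0 := by
  simp only [Matrix.mulVec, dotProduct, AR_apply]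
  simp only [Finset.mul_sum, Finset.sum_mul]
  rw [Finset.sum_comm]
  refine Finset.sum_congr rfl fun x _ => ?_
  rw [Finset.sum_comm]
  refine Finset.sum_congr rfl fun y _ => ?_
  by_cases hxy : adj x y
  · simp only [if_pos hxy]
    have : ∀ t : V → Fin 2, 1 / 4 * ((if s = t then (1 : ℝ) else 0) -
        if t = s ∘ Equiv.swap x y then (1 : ℝ) else 0) * f t =
        1 / 4 * ((if s = t then f t else 0) - if t = s ∘ Equiv.swap x y then f t else 0) := by
      intro t
      split_ifs <;> ring
    simp only [this]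
    rw [← Finset.mul_sum, Finset.sum_sub_distrib]
    simp
  · simp only [if_neg hxy]
    simp

theorem dot_AR (adj : V → V → Prop) [DecidableRel adj] (f : (V → Fin 2) → ℝ) :
    f ⬝ᵥ (AR adj *ᵥ f) = Q adj f := by
  simp only [dotProduct, AR_mulVec, Q]
  simp only [Finset.mul_sum]
  rw [Finset.sum_comm]
  refine Finset.sum_congr rfl fun x _ => ?_
  rw [Finset.sum_comm]
  refine Finset.sum_congr rfl fun y _ => ?_
  by_cases hxy : adj x y
  · simp only [if_pos hxy]
    have h1 := sum_comp_swap x y (fun s => (f s) ^ 2)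
    have h2 : ∑ s : V → Fin 2, (f s - f (s ∘ Equiv.swap x y)) ^ 2 =
        2 * ∑ s : V → Fin 2, f s * (f s - f (s ∘ Equiv.swap x y)) := by
      have : ∀ s : V → Fin 2, (f s - f (s ∘ Equiv.swap x y)) ^ 2 =
          2 * (f s * (f s - f (s ∘ Equiv.swap x y))) +
            ((f (s ∘ Equiv.swap x y)) ^ 2 - (f s) ^ 2) := by
        intro s; ring
      simp only [this]
      rw [Finset.sum_add_distrib, Finset.sum_sub_distrib, h1, ← Finset.mul_sum]
      ring
    rw [h2, Finset.mul_sum, Finset.mul_sum]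
    refine Finset.sum_congr rfl fun s _ => ?_
    ring
  · simp only [if_neg hxy]
    simp

theorem Q_nonneg (adj : V → V → Prop) [DecidableRel adj] (f : (V → Fin 2) → ℝ) : 0 ≤ Q adj f := by
  unfold Q
  refine mul_nonneg (by norm_num) ?_
  refine Finset.sum_nonneg fun x _ => Finset.sum_nonneg fun y _ => ?_
  split_ifs
  · exact Finset.sum_nonneg fun s _ => sq_nonneg _
  · exact le_refl _

theorem AR_symm (adj : V → V → Prop) [DecidableRel adj] (s t : V → Fin 2) :
    AR adj s t = AR adj t s := by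
  rw [AR_apply, AR_apply]
  congr 1
  refine Finset.sum_congr rfl fun x _ => Finset.sum_congr rfl fun y _ => ?_
  have e1 : (s = t) ↔ (t = s) := eq_comm
  have e2 : (t = s ∘ Equiv.swap x y) ↔ (s = t ∘ Equiv.swap x y) := by
    constructor
    · intro h; rw [h]; funext z; simp
    · intro h; rw [h]; funext z; simp
  simp only [e1, e2]

theorem AR_isHermitian (adj : V → V → Prop) [DecidableRel adj] : (AR adj).IsHermitian := by
  ext s t
  simp only [Matrix.conjTranspose_apply, star_trivial]
  exact AR_symm adj t s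

theorem AR_posSemidef (adj : V → V → Prop) [DecidableRel adj] : (AR adj).PosSemidef := by
  refine Matrix.PosSemidef.of_dotProduct_mulVec_nonneg (AR_isHermitian adj) fun f => ?_
  rw [star_trivial, dot_AR]
  exact Q_nonneg adj f

theorem W_nonneg (adj : V → V → Prop) [DecidableRel adj] (β : ℝ) (hβ : 0 ≤ β) (s : V → Fin 2) :
    0 ≤ W adj β s :=
  (exp_neg_psd_diag (AR adj) (AR_posSemidef adj) β hβ s).1

theorem W_le_one (adj : V → V → Prop) [DecidableRel adj] (β : ℝ) (hβ : 0 ≤ β) (s : V → Fin 2) :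
    W adj β s ≤ 1 :=
  (exp_neg_psd_diag (AR adj) (AR_posSemidef adj) β hβ s).2

/-- Peierls lower bound for the sum of the weights in terms of an orthonormal family. -/
theorem sum_W_ge {ι : Type} [Fintype ι] [DecidableEq ι] (adj : V → V → Prop) [DecidableRel adj]
    (β : ℝ) (Ψ : ι → (V → Fin 2) → ℝ)
    (hΨ : ∀ i j, ∑ s, Ψ i s * Ψ j s = if i = j then 1 else 0) :
    ∑ i, Real.exp (-(β * Q adj (Ψ i))) ≤ ∑ s, W adj β s := by
  have hH : (-(β • AR adj)).IsHermitian := by
    ext s t
    simp only [Matrix.conjTranspose_apply, star_trivial, Matrix.neg_apply, Matrix.smul_apply]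
    rw [AR_symm adj t s]
  have hΨ' : (Matrix.of Ψ) * (Matrix.of Ψ)ᵀ = 1 := by
    ext i j
    rw [Matrix.mul_apply, Matrix.one_apply]
    simp only [Matrix.transpose_apply, Matrix.of_apply]
    exact hΨ i j
  have hp := peierls (-(β • AR adj)) hH (Matrix.of Ψ) hΨ'
  have hd : ∀ i, (Matrix.of Ψ * (-(β • AR adj)) * (Matrix.of Ψ)ᵀ) i i = -(β * Q adj (Ψ i)) := by
    intro i
    rw [← dot_AR, Matrix.mul_assoc, Matrix.mul_apply]
    simp only [Matrix.of_apply, dotProduct, Finset.mul_sum]
    rw [← Finset.sum_neg_distrib]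
    refine Finset.sum_congr rfl fun s _ => ?_
    rw [Matrix.mul_apply]
    simp only [Matrix.transpose_apply, Matrix.of_apply, Matrix.neg_apply, Matrix.smul_apply,
      smul_eq_mul, Matrix.mulVec, dotProduct, Finset.mul_sum]
    rw [← Finset.sum_neg_distrib]
    refine Finset.sum_congr rfl fun t _ => ?_
    ring
  simp only [hd] at hp
  refine hp.trans (le_of_eq ?_)
  rfl

end Vale.Agent.Lib.P361
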