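import Vale.Agent.Lib.P361.Defs
import Vale.Agent.Lib.P361.MatrixAux

namespace Vale.Agent.Lib.P361

open Matrix

variable {V : Type} [Fintype V] [DecidableEq V]

theorem siteOp_mul_siteOp (x y : V) (hxy : x ≠ y) (A B : Matrix (Fin 2) (Fin 2) ℂ)
    (s t : V → Fin 2) :
    (siteOp x A * siteOp y B) s t =
      if ∀ z, z ≠ x → z ≠ y → s z = t z then A (s x) (t x) * B (s y) (t y) else 0 := by
  rw [Matrix.mul_apply]
  by_cases hag : ∀ z, z ≠ x → z ≠ y → s z = t z
  · rw [if_pos hag]
    rw [Finset.sum_eq_single (Function.update s x (t x))]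
    · have h1 : ∀ z, z ≠ x → s z = Function.update s x (t x) z := by
        intro z hz
        rw [Function.update_of_ne hz]
      have h2 : ∀ z, z ≠ y → Function.update s x (t x) z = t z := by
        intro z hz
        by_cases hzx : z = x
        · subst hzx; simp
        · rw [Function.update_of_ne hzx]; exact hag z hzx hz
      simp only [siteOp, Matrix.of_apply]
      rw [if_pos h1, if_pos h2]
      simp [Function.update_of_ne hxy.symm]
    · intro r _ hr
      simp only [siteOp, Matrix.of_apply]
      by_cases h1 : ∀ z, z ≠ x → s z = r z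
      · by_cases h2 : ∀ z, z ≠ y → r z = t z
        · exfalso
          apply hr
          funext z
          by_cases hzx : z = x
          · subst hzx; simp; exact h2 z hxy
          · rw [Function.update_of_ne hzx]; exact (h1 z hzx).symm
        · rw [if_neg h2]; simp
      · rw [if_neg h1]; simp
    · intro h; exact absurd (Finset.mem_univ _) h
  · rw [if_neg hag]
    apply Finset.sum_eq_zero
    intro r _
    simp only [siteOp, Matrix.of_apply]
    by_cases h1 : ∀ z, z ≠ x → s z = r z
    · by_cases h2 : ∀ z, z ≠ y → r z = t z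
      · exfalso
        apply hag
        intro z hzx hzy
        rw [h1 z hzx, h2 z hzy]
      · rw [if_neg h2]; simp
    · rw [if_neg h1]; simp

theorem two_site (i j k l : Fin 2) :
    spinX i k * spinX j l + spinY i k * spinY j l + spinZ i k * spinZ j l =
      (if k = j ∧ l = i then (1 / 2 : ℂ) else 0) - (if i = k ∧ j = l then (1 / 4 : ℂ) else 0) := by
  fin_cases i <;> fin_cases j <;> fin_cases k <;> fin_cases l <;>
    simp [spinX, spinY, spinZ] <;> ring_nf <;> simp [Complex.I_sq] <;> norm_num

/-- The Hamiltonian for a general finite graph given by a relation `adj` (ordered pairs). -/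
noncomputable def hamG (adj : V → V → Prop) [DecidableRel adj] : Matrix (V → Fin 2) (V → Fin 2) ℂ :=
  -(1 / 2 : ℂ) • ∑ x : V, ∑ y : V, if adj x y then heisDot x y else 0

noncomputable def magG : Matrix (V → Fin 2) (V → Fin 2) ℂ := ∑ x : V, siteOp x spinZ

/-- The real permutation matrix exchanging the spins at `x` and `y`. -/
def swapR (x y : V) : Matrix (V → Fin 2) (V → Fin 2) ℝ :=
  Matrix.of fun s t => if t = s ∘ Equiv.swap x y then 1 else 0

/-- `H - E₀` as a real matrix. -/
noncomputable def AR (adj : V → V → Prop) [DecidableRel adj] : Matrix (V → Fin 2) (V → Fin 2) ℝ :=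
  (1 / 4 : ℝ) • ∑ x : V, ∑ y : V, if adj x y then (1 - swapR x y) else 0

/-- The number of ordered adjacent pairs. -/
noncomputable def nadj (adj : V → V → Prop) [DecidableRel adj] : ℝ :=
  ∑ x : V, ∑ y : V, if adj x y then (1 : ℝ) else 0

/-- The eigenvalue of `M` on a configuration. -/
noncomputable def magv (s : V → Fin 2) : ℝ := ∑ x : V, (1 / 2 - (((s x : Fin 2) : ℕ) : ℝ))

theorem heisDot_apply (x y : V) (hxy : x ≠ y) (s t : V → Fin 2) :
    heisDot x y s t =
      (if t = s ∘ Equiv.swap x y then (1 / 2 : ℂ) else 0) - (if s = t then (1 / 4 : ℂ) else 0) := by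
  unfold heisDot
  rw [Matrix.add_apply, Matrix.add_apply, siteOp_mul_siteOp x y hxy, siteOp_mul_siteOp x y hxy,
    siteOp_mul_siteOp x y hxy]
  by_cases hag : ∀ z, z ≠ x → z ≠ y → s z = t z
  · rw [if_pos hag, if_pos hag, if_pos hag, two_site]
    have e1 : (t x = s y ∧ t y = s x) ↔ t = s ∘ Equiv.swap x y := by
      constructor
      · rintro ⟨h1, h2⟩
        funext z
        by_cases hzx : z = x
        · subst hzx; simp [h1]
        · by_cases hzy : z = y
          · subst hzy; simp [h2]
          · simp [Equiv.swap_apply_of_ne_of_ne hzx hzy, hag z hzx hzy]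
      · intro h
        subst h
        simp
    have e2 : (s x = t x ∧ s y = t y) ↔ s = t := by
      constructor
      · rintro ⟨h1, h2⟩
        funext z
        by_cases hzx : z = x
        · subst hzx; exact h1
        · by_cases hzy : z = y
          · subst hzy; exact h2
          · exact hag z hzx hzy
      · intro h
        subst h
        simp
    simp only [e1, e2]
  · rw [if_neg hag, if_neg hag, if_neg hag]
    have n1 : ¬ (t = s ∘ Equiv.swap x y) := by
      intro h
      apply hag
      intro z hzx hzy
      rw [h]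
      simp [Equiv.swap_apply_of_ne_of_ne hzx hzy]
    have n2 : ¬ (s = t) := by
      intro h
      apply hag
      intro z _ _
      rw [h]
    rw [if_neg n1, if_neg n2]
    simp

theorem hamG_eq (adj : V → V → Prop) [DecidableRel adj] (hirr : ∀ x, ¬ adj x x) :
    hamG adj = (AR adj - (nadj adj / 8) • (1 : Matrix (V → Fin 2) (V → Fin 2) ℝ)).map
      (algebraMap ℝ ℂ) := by
  ext s t
  simp only [hamG, AR, nadj, Matrix.map_apply, Matrix.smul_apply, Matrix.sub_apply,
    Matrix.sum_apply, Matrix.one_apply, smul_eq_mul]
  have h1 : ∀ x y : V, (if adj x y then heisDot x y else 0) s t =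
      if adj x y then ((if t = s ∘ Equiv.swap x y then (1 / 2 : ℂ) else 0) -
        (if s = t then (1 / 4 : ℂ) else 0)) else 0 := by
    intro x y
    by_cases hxy : adj x y
    · rw [if_pos hxy, if_pos hxy]
      have hne : x ≠ y := by
        rintro rfl
        exact hirr x hxy
      exact heisDot_apply x y hne s t
    · rw [if_neg hxy, if_neg hxy]
      rfl
  have h2 : ∀ x y : V, (if adj x y then (1 - swapR x y) else 0) s t =
      if adj x y then ((if s = t then (1 : ℝ) else 0) -
        (if t = s ∘ Equiv.swap x y then (1 : ℝ) else 0)) else 0 := by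
    intro x y
    by_cases hxy : adj x y
    · rw [if_pos hxy, if_pos hxy]
      simp [swapR, Matrix.one_apply]
    · rw [if_neg hxy, if_neg hxy]
      rfl
  simp only [h1, h2]
  simp only [Complex.coe_algebraMap]
  push_cast
  rw [Finset.mul_sum, Finset.mul_sum, Finset.sum_div, Finset.sum_mul, ← Finset.sum_sub_distrib]
  refine Finset.sum_congr rfl fun x _ => ?_
  rw [Finset.mul_sum, Finset.mul_sum, Finset.sum_div, Finset.sum_mul, ← Finset.sum_sub_distrib]
  refine Finset.sum_congr rfl fun y _ => ?_
  split_ifs <;> simp <;> ring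

theorem magG_eq : (magG : Matrix (V → Fin 2) (V → Fin 2) ℂ) =
    (Matrix.diagonal (magv : (V → Fin 2) → ℝ)).map (algebraMap ℝ ℂ) := by
  ext s t
  simp only [magG, Matrix.map_apply, Matrix.sum_apply, siteOp, Matrix.of_apply,
    Matrix.diagonal_apply, Complex.coe_algebraMap]
  by_cases hst : s = t
  · subst hst
    rw [if_pos rfl]
    simp only [magv]
    push_cast
    refine Finset.sum_congr rfl fun x _ => ?_
    have : ∀ z, z ≠ x → True := fun z _ => trivial
    rw [if_pos this]
    have h2 : ∀ i : Fin 2, spinZ i i = 1 / 2 - (((i : Fin 2) : ℕ) : ℂ) := by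
      intro i
      fin_cases i <;> simp [spinZ] <;> norm_num
    exact h2 (s x)
  · rw [if_neg hst]
    simp only [Complex.ofReal_zero]
    apply Finset.sum_eq_zero
    intro x _
    by_cases hag : ∀ z, z ≠ x → s z = t z
    · rw [if_pos hag]
      have hx : s x ≠ t x := by
        intro hx
        apply hst
        funext z
        by_cases hzx : z = x
        · subst hzx; exact hx
        · exact hag z hzx
      have h2 : ∀ i j : Fin 2, i ≠ j → spinZ i j = 0 := by
        intro i j hij
        fin_cases i <;> fin_cases j <;> simp_all [spinZ]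
      exact h2 _ _ hx
    · rw [if_neg hag]

set_option backward.isDefEq.respectTransparency false in
open scoped Matrix.Norms.Operator in
theorem exp_map_ofReal {n : Type*} [Fintype n] [DecidableEq n] (X : Matrix n n ℝ) :
    NormedSpace.exp (X.map (algebraMap ℝ ℂ)) = (NormedSpace.exp X).map (algebraMap ℝ ℂ) := by
  have h := NormedSpace.map_exp ((algebraMap ℝ ℂ).mapMatrix (m := n))
    (Continuous.matrix_map continuous_id Complex.continuous_ofReal) X
  exact h.symm

theorem trace_map_ofReal {n : Type*} [Fintype n] [DecidableEq n] (X : Matrix n n ℝ) :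
    (Matrix.trace (X.map (algebraMap ℝ ℂ))).re = Matrix.trace X := by
  simp [Matrix.trace]

/-- The partition function of the general graph model. -/
noncomputable def partG (adj : V → V → Prop) [DecidableRel adj] (β h : ℝ) : ℝ :=
  (Matrix.trace (NormedSpace.exp (-(β : ℂ) • (hamG adj - (h : ℂ) • magG)))).re

theorem partG_real (adj : V → V → Prop) [DecidableRel adj] (hirr : ∀ x, ¬ adj x x) (β h : ℝ) :
    partG adj β h = Matrix.trace (NormedSpace.exp
      (-(β • AR adj) + Matrix.diagonal (fun s : V → Fin 2 => β * (nadj adj / 8) + β * h * magv s))) := by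
  unfold partG
  rw [hamG_eq adj hirr, magG_eq]
  have : -(β : ℂ) • ((AR adj - (nadj adj / 8) • (1 : Matrix (V → Fin 2) (V → Fin 2) ℝ)).map
      (algebraMap ℝ ℂ) - (h : ℂ) • (Matrix.diagonal (magv : (V → Fin 2) → ℝ)).map (algebraMap ℝ ℂ)) =
      (-(β • AR adj) + Matrix.diagonal
        (fun s : V → Fin 2 => β * (nadj adj / 8) + β * h * magv s)).map (algebraMap ℝ ℂ) := by
    ext s t
    simp only [Matrix.map_apply, Matrix.smul_apply, Matrix.sub_apply, Matrix.add_apply,
      Matrix.neg_apply, Matrix.one_apply, Matrix.diagonal_apply, smul_eq_mul,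
      Complex.coe_algebraMap]
    by_cases hst : s = t
    · subst hst
      simp only [if_true]
      push_cast
      ring
    · simp only [if_neg hst]
      push_cast
      ring
  rw [this, exp_map_ofReal, trace_map_ofReal]

theorem commute_diagonal_of {n : Type*} [Fintype n] [DecidableEq n] (A : Matrix n n ℝ) (d : n → ℝ)
    (h : ∀ s t, A s t ≠ 0 → d s = d t) : Commute A (Matrix.diagonal d) := by
  unfold Commute SemiconjBy
  ext s t
  rw [Matrix.mul_diagonal, Matrix.diagonal_mul]
  by_cases h0 : A s t = 0
  · rw [h0]; ring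
  · rw [h s t h0]; ring

theorem magv_swap (x y : V) (s : V → Fin 2) : magv (s ∘ Equiv.swap x y) = magv s := by
  unfold magv
  exact Equiv.sum_comp (Equiv.swap x y) (fun z => (1 / 2 - (((s z : Fin 2) : ℕ) : ℝ)))

theorem AR_apply (adj : V → V → Prop) [DecidableRel adj] (s t : V → Fin 2) :
    AR adj s t = (1 / 4 : ℝ) * ∑ x : V, ∑ y : V, if adj x y then
      ((if s = t then (1 : ℝ) else 0) - (if t = s ∘ Equiv.swap x y then (1 : ℝ) else 0)) else 0 := by
  simp only [AR, Matrix.smul_apply, Matrix.sum_apply, smul_eq_mul]
  congr 1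
  refine Finset.sum_congr rfl fun x _ => Finset.sum_congr rfl fun y _ => ?_
  by_cases hxy : adj x y
  · rw [if_pos hxy, if_pos hxy]
    simp [swapR, Matrix.one_apply]
  · rw [if_neg hxy, if_neg hxy]
    rfl

theorem AR_magv (adj : V → V → Prop) [DecidableRel adj] (s t : V → Fin 2) (h : AR adj s t ≠ 0) :
    magv s = magv t := by
  by_contra hne
  apply h
  rw [AR_apply]
  have h1 : s ≠ t := by
    rintro rfl
    exact hne rfl
  have h2 : ∀ x y : V, t ≠ s ∘ Equiv.swap x y := by
    intro x y heq
    apply hne
    rw [heq, magv_swap]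
  simp [h1, h2]

/-- The diagonal weights `W s = (exp (-β (H - E₀))) s s`. -/
noncomputable def W (adj : V → V → Prop) [DecidableRel adj] (β : ℝ) (s : V → Fin 2) : ℝ :=
  (NormedSpace.exp (-(β • AR adj))) s s

theorem partG_sum (adj : V → V → Prop) [DecidableRel adj] (hirr : ∀ x, ¬ adj x x) (β h : ℝ) :
    partG adj β h = ∑ s : V → Fin 2, W adj β s * Real.exp (β * (nadj adj / 8) + β * h * magv s) := by
  rw [partG_real adj hirr]
  have hc : Commute (-(β • AR adj))
      (Matrix.diagonal (fun s : V → Fin 2 => β * (nadj adj / 8) + β * h * magv s)) := by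
    apply commute_diagonal_of
    intro s t hst
    have : AR adj s t ≠ 0 := by
      intro h0
      apply hst
      simp [h0]
    rw [AR_magv adj s t this]
  rw [Matrix.exp_add_of_commute _ _ hc, Matrix.exp_diagonal]
  have hd : NormedSpace.exp (fun s : V → Fin 2 => β * (nadj adj / 8) + β * h * magv s) =
      fun s => Real.exp (β * (nadj adj / 8) + β * h * magv s) := by
    rw [Pi.exp_def]
    funext k
    rw [Real.exp_eq_exp_ℝ]
  rw [hd, Matrix.trace]
  refine Finset.sum_congr rfl fun s _ => ?_
  rw [Matrix.diag_apply, Matrix.mul_diagonal]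
  rfl

end Vale.Agent.Lib.P361
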