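import Vale.Agent.Lib.P361.Quad

namespace Vale.Agent.Lib.P361

open Matrix

variable {V : Type} [Fintype V] [DecidableEq V] {I : Type} [DecidableEq I]

theorem fin2_cases (a : Fin 2) : a = 0 ∨ a = 1 := by
  fin_cases a <;> simp

/-- All overturned spins lie in supports of the functions `φ i`, `i ∈ T`, at most one in each. -/
def good (φ : I → V → ℝ) (T : Finset I) (s : V → Fin 2) : Prop :=
  (∀ v, s v = 1 → ∃ i ∈ T, φ i v ≠ 0) ∧
  (∀ i ∈ T, ∀ v w, s v = 1 → s w = 1 → φ i v ≠ 0 → φ i w ≠ 0 → v = w)

/-- The amplitude of `φ i` on the overturned spins of `s`. -/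
noncomputable def amp (φ : I → V → ℝ) (i : I) (s : V → Fin 2) : ℝ :=
  ∑ v : V, if s v = 1 then φ i v else 0

open Classical in
/-- The trial state with one magnon in each cell `i ∈ T`, with wave function `φ i`. -/
noncomputable def psi (φ : I → V → ℝ) (T : Finset I) (s : V → Fin 2) : ℝ :=
  if good φ T s then ∏ i ∈ T, amp φ i s else 0

theorem amp_update (φ : I → V → ℝ) (i : I) (s : V → Fin 2) (x : V) (hx : s x = 1) :
    amp φ i s = amp φ i (Function.update s x 0) + φ i x := by
  unfold amp
  rw [← Finset.add_sum_erase Finset.univ _ (Finset.mem_univ x),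
    ← Finset.add_sum_erase Finset.univ (fun v => if Function.update s x 0 v = 1 then φ i v else 0)
      (Finset.mem_univ x)]
  simp only [hx, if_true, Function.update_self]
  have h01 : ¬ ((0 : Fin 2) = 1) := by decide
  rw [if_neg h01, zero_add, add_comm]
  congr 1
  refine Finset.sum_congr rfl fun v hv => ?_
  have hvx : v ≠ x := Finset.ne_of_mem_erase hv
  rw [Function.update_of_ne hvx]

theorem amp_eq_zero (φ : I → V → ℝ) (i : I) (s : V → Fin 2)
    (h : ∀ v, s v = 1 → φ i v = 0) : amp φ i s = 0 := by
  unfold amp
  apply Finset.sum_eq_zero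
  intro v _
  by_cases hv : s v = 1
  · rw [if_pos hv]; exact h v hv
  · rw [if_neg hv]

theorem exists_of_amp_ne_zero (φ : I → V → ℝ) (i : I) (s : V → Fin 2) (h : amp φ i s ≠ 0) :
    ∃ v, s v = 1 ∧ φ i v ≠ 0 := by
  by_contra hcon
  apply h
  apply amp_eq_zero
  intro v hv
  by_contra hne
  exact hcon ⟨v, hv, hne⟩

/-- Separation hypothesis: supports of different `φ i` are disjoint and not adjacent. -/
def Separated (adj : V → V → Prop) (φ : I → V → ℝ) : Prop :=
  ∀ i j, i ≠ j → ∀ v w, φ i v ≠ 0 → φ j w ≠ 0 → v ≠ w ∧ ¬ adj v w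

theorem good_iff_erase (adj : V → V → Prop) (φ : I → V → ℝ) (hsep : Separated adj φ)
    (T : Finset I) (i : I) (hi : i ∈ T) (s : V → Fin 2) (x : V) (hx : s x = 1)
    (hix : φ i x ≠ 0) : good φ T s ↔ good φ (T.erase i) (Function.update s x 0) := by
  have hρ : ∀ v, Function.update s x 0 v = 1 → v ≠ x ∧ s v = 1 := by
    intro v hv
    have hvx : v ≠ x := by
      rintro rfl
      rw [Function.update_self] at hv
      exact absurd hv (by decide)
    rw [Function.update_of_ne hvx] at hv
    exact ⟨hvx, hv⟩
  constructor
  · rintro ⟨ha, hb⟩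
    refine ⟨?_, ?_⟩
    · intro v hv
      obtain ⟨hvx, hsv⟩ := hρ v hv
      obtain ⟨j, hj, hjv⟩ := ha v hsv
      refine ⟨j, Finset.mem_erase.2 ⟨?_, hj⟩, hjv⟩
      rintro rfl
      exact hvx (hb j hi v x hsv hx hjv hix)
    · intro j hj v w hv hw hjv hjw
      obtain ⟨_, hsv⟩ := hρ v hv
      obtain ⟨_, hsw⟩ := hρ w hw
      exact hb j (Finset.mem_of_mem_erase hj) v w hsv hsw hjv hjw
  · rintro ⟨ha, hb⟩
    have key : ∀ v, s v = 1 → φ i v ≠ 0 → v = x := by
      intro v hsv hiv
      by_contra hvx
      have hv : Function.update s x 0 v = 1 := by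
        rw [Function.update_of_ne hvx]; exact hsv
      obtain ⟨j, hj, hjv⟩ := ha v hv
      have hji : j ≠ i := Finset.ne_of_mem_erase hj
      exact (hsep j i hji v v hjv hiv).1 rfl
    refine ⟨?_, ?_⟩
    · intro v hsv
      by_cases hvx : v = x
      · subst hvx
        exact ⟨i, hi, hix⟩
      · have hv : Function.update s x 0 v = 1 := by
          rw [Function.update_of_ne hvx]; exact hsv
        obtain ⟨j, hj, hjv⟩ := ha v hv
        exact ⟨j, Finset.mem_of_mem_erase hj, hjv⟩
    · intro j hj v w hsv hsw hjv hjw
      by_cases hji : j = i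
      · subst hji
        rw [key v hsv hjv, key w hsw hjw]
      · have hvx : v ≠ x := by
          rintro rfl
          exact (hsep j i hji v v hjv hix).1 rfl
        have hwx : w ≠ x := by
          rintro rfl
          exact (hsep j i hji w w hjw hix).1 rfl
        have hv : Function.update s x 0 v = 1 := by
          rw [Function.update_of_ne hvx]; exact hsv
        have hw : Function.update s x 0 w = 1 := by
          rw [Function.update_of_ne hwx]; exact hsw
        exact hb j (Finset.mem_erase.2 ⟨hji, hj⟩) v w hv hw hjv hjw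

/-- Creation identity: removing the overturned spin at `x`. -/
theorem psi_create (adj : V → V → Prop) (φ : I → V → ℝ) (hsep : Separated adj φ)
    (T : Finset I) (s : V → Fin 2) (x : V) (hx : s x = 1) :
    psi φ T s = ∑ i ∈ T, φ i x * psi φ (T.erase i) (Function.update s x 0) := by
  classical
  by_cases hex : ∃ i ∈ T, φ i x ≠ 0
  · obtain ⟨i, hi, hix⟩ := hex
    have hother : ∀ j, j ≠ i → φ j x = 0 := by
      intro j hji
      by_contra hjx
      exact (hsep j i hji x x hjx hix).1 rfl
    rw [Finset.sum_eq_single i]
    · unfold psi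
      by_cases hg : good φ T s
      · have hg' := (good_iff_erase adj φ hsep T i hi s x hx hix).1 hg
        rw [if_pos hg, if_pos hg']
        rw [← Finset.mul_prod_erase T _ hi]
        have h1 : amp φ i s = φ i x := by
          rw [amp_update φ i s x hx]
          have : amp φ i (Function.update s x 0) = 0 := by
            apply amp_eq_zero
            intro v hv
            obtain ⟨j, hj, hjv⟩ := hg'.1 v hv
            have hji : j ≠ i := Finset.ne_of_mem_erase hj
            by_contra hiv
            exact (hsep j i hji v v hjv hiv).1 rfl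
          rw [this, zero_add]
        rw [h1]
        congr 1
        refine Finset.prod_congr rfl fun j hj => ?_
        have hji : j ≠ i := Finset.ne_of_mem_erase hj
        rw [amp_update φ j s x hx, hother j hji, add_zero]
      · have hg' : ¬ good φ (T.erase i) (Function.update s x 0) := fun h =>
          hg ((good_iff_erase adj φ hsep T i hi s x hx hix).2 h)
        rw [if_neg hg, if_neg hg', mul_zero]
    · intro j _ hji
      rw [hother j hji, zero_mul]
    · intro h
      exact absurd hi h
  · have hzero : ∀ i ∈ T, φ i x = 0 := by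
      intro i hi
      by_contra h
      exact hex ⟨i, hi, h⟩
    have hg : ¬ good φ T s := by
      rintro ⟨ha, _⟩
      obtain ⟨i, hi, hix⟩ := ha x hx
      exact hix (hzero i hi)
    unfold psi
    rw [if_neg hg]
    symm
    apply Finset.sum_eq_zero
    intro i hi
    rw [hzero i hi, zero_mul]

end Vale.Agent.Lib.P361
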