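import Vale.Agent.Lib.P361.Trial

namespace Vale.Agent.Lib.P361

open Matrix

variable {V : Type} [Fintype V] [DecidableEq V] {I : Type} [DecidableEq I]

/-- Flipping the spin at `x`, as an equivalence of configurations. -/
def flipEquiv (x : V) : (V → Fin 2) ≃ (V → Fin 2) where
  toFun s := Function.update s x (Fin.rev (s x))
  invFun s := Function.update s x (Fin.rev (s x))
  left_inv s := by simp
  right_inv s := by simp

theorem sum_flip (x : V) (g : (V → Fin 2) → ℝ) :
    ∑ s : V → Fin 2, (if s x = 1 then g (Function.update s x 0) else 0) =
      ∑ r : V → Fin 2, (if r x = 0 then g r else 0) := by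
  rw [← Equiv.sum_comp (flipEquiv x) (fun r => if r x = 0 then g r else 0)]
  refine Finset.sum_congr rfl fun s _ => ?_
  simp only [flipEquiv, Equiv.coe_fn_mk, Function.update_self]
  rcases fin2_cases (s x) with h | h
  · rw [h]
    have h1 : Fin.rev (0 : Fin 2) = 1 := by decide
    rw [h1]
    simp
  · rw [h]
    have h1 : Fin.rev (1 : Fin 2) = 0 := by decide
    rw [h1]
    simp

theorem psi_orth (adj : V → V → Prop) (φ : I → V → ℝ) (hsep : Separated adj φ)
    (T T' : Finset I) (hTT : T ≠ T') (s : V → Fin 2) : psi φ T s * psi φ T' s = 0 := by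
  classical
  by_contra hne
  have h1 : psi φ T s ≠ 0 := left_ne_zero_of_mul hne
  have h2 : psi φ T' s ≠ 0 := right_ne_zero_of_mul hne
  have sub : ∀ A B : Finset I, psi φ A s ≠ 0 → psi φ B s ≠ 0 → A ⊆ B := by
    intro A B hA hB i hi
    unfold psi at hA hB
    have gA : good φ A s := by
      by_contra h
      rw [if_neg h] at hA
      exact hA rfl
    have gB : good φ B s := by
      by_contra h
      rw [if_neg h] at hB
      exact hB rfl
    rw [if_pos gA] at hA
    have hamp : amp φ i s ≠ 0 := by
      intro h0
      exact hA (Finset.prod_eq_zero hi h0)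
    obtain ⟨v, hv, hiv⟩ := exists_of_amp_ne_zero φ i s hamp
    obtain ⟨j, hj, hjv⟩ := gB.1 v hv
    by_cases hji : j = i
    · rw [← hji]; exact hj
    · exact absurd rfl (hsep j i hji v v hjv hiv).1
  exact hTT (Finset.Subset.antisymm (sub T T' h1 h2) (sub T' T h2 h1))

theorem psi_empty (φ : I → V → ℝ) (s : V → Fin 2) :
    psi φ ∅ s = if s = (fun _ => 0) then 1 else 0 := by
  classical
  unfold psi
  have : good φ (∅ : Finset I) s ↔ s = (fun _ => 0) := by
    constructor
    · rintro ⟨ha, _⟩
      funext v
      rcases fin2_cases (s v) with h | h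
      · exact h
      · obtain ⟨i, hi, _⟩ := ha v h
        exact absurd hi (Finset.notMem_empty i)
    · rintro rfl
      refine ⟨?_, ?_⟩
      · intro v hv
        have h01 : ¬ ((0 : Fin 2) = 1) := by decide
        exact absurd hv h01
      · intro i hi
        exact absurd hi (Finset.notMem_empty i)
  by_cases h : s = (fun _ => 0)
  · rw [if_pos (this.2 h), if_pos h, Finset.prod_empty]
  · rw [if_neg (fun hg => h (this.1 hg)), if_neg h]

theorem psi_norm (adj : V → V → Prop) (φ : I → V → ℝ) (hsep : Separated adj φ)
    (hnorm : ∀ i, ∑ v : V, (φ i v) ^ 2 = 1) (T : Finset I) :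
    ∑ s : V → Fin 2, (psi φ T s) ^ 2 = 1 := by
  classical
  induction T using Finset.induction_on with
  | empty =>
    simp only [psi_empty]
    rw [Finset.sum_eq_single (fun _ => (0 : Fin 2))]
    · simp
    · intro s _ hs
      rw [if_neg hs]
      simp
    · intro h
      exact absurd (Finset.mem_univ _) h
  | insert i T hiT ih =>
    have step1 : ∀ s : V → Fin 2, (psi φ (insert i T) s) ^ 2 =
        ∑ x : V, if s x = 1 ∧ φ i x ≠ 0 then (psi φ (insert i T) s) ^ 2 else 0 := by
      intro s
      by_cases h0 : psi φ (insert i T) s = 0
      · rw [h0]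
        simp
      · have hg : good φ (insert i T) s := by
          by_contra h
          unfold psi at h0
          rw [if_neg h] at h0
          exact h0 rfl
        have hamp : amp φ i s ≠ 0 := by
          intro hz
          apply h0
          unfold psi
          rw [if_pos hg]
          exact Finset.prod_eq_zero (Finset.mem_insert_self i T) hz
        obtain ⟨x₀, hx₀, hix₀⟩ := exists_of_amp_ne_zero φ i s hamp
        rw [Finset.sum_eq_single x₀]
        · rw [if_pos ⟨hx₀, hix₀⟩]
        · intro x _ hxx
          have : ¬ (s x = 1 ∧ φ i x ≠ 0) := by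
            rintro ⟨h1, h2⟩
            exact hxx (hg.2 i (Finset.mem_insert_self i T) x x₀ h1 hx₀ h2 hix₀)
          rw [if_neg this]
        · intro h
          exact absurd (Finset.mem_univ _) h
    have step2 : ∀ x : V, ∑ s : V → Fin 2,
        (if s x = 1 ∧ φ i x ≠ 0 then (psi φ (insert i T) s) ^ 2 else 0) = (φ i x) ^ 2 := by
      intro x
      by_cases hix : φ i x = 0
      · rw [hix]
        simp
      · have hother : ∀ j, j ≠ i → φ j x = 0 := by
          intro j hji
          by_contra hjx
          exact (hsep j i hji x x hjx hix).1 rfl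
        have h1 : ∀ s : V → Fin 2,
            (if s x = 1 ∧ φ i x ≠ 0 then (psi φ (insert i T) s) ^ 2 else 0) =
            (φ i x) ^ 2 * (if s x = 1 then (psi φ T (Function.update s x 0)) ^ 2 else 0) := by
          intro s
          by_cases hsx : s x = 1
          · rw [if_pos ⟨hsx, hix⟩, if_pos hsx]
            rw [psi_create adj φ hsep (insert i T) s x hsx]
            rw [Finset.sum_eq_single i]
            · rw [Finset.erase_insert hiT]
              ring
            · intro j _ hji
              rw [hother j hji, zero_mul]
            · intro h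
              exact absurd (Finset.mem_insert_self i T) h
          · have : ¬ (s x = 1 ∧ φ i x ≠ 0) := fun h => hsx h.1
            rw [if_neg this, if_neg hsx, mul_zero]
        simp only [h1]
        rw [← Finset.mul_sum, sum_flip x (fun r => (psi φ T r) ^ 2)]
        have h2 : ∀ r : V → Fin 2, (if r x = 0 then (psi φ T r) ^ 2 else 0) = (psi φ T r) ^ 2 := by
          intro r
          by_cases hr : r x = 0
          · rw [if_pos hr]
          · rw [if_neg hr]
            have hr1 : r x = 1 := by
              rcases fin2_cases (r x) with h | h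
              · exact absurd h hr
              · exact h
            have : psi φ T r = 0 := by
              unfold psi
              have hg : ¬ good φ T r := by
                rintro ⟨ha, _⟩
                obtain ⟨j, hj, hjx⟩ := ha x hr1
                have hji : j ≠ i := by
                  rintro rfl
                  exact hiT hj
                exact hjx (hother j hji)
              rw [if_neg hg]
            rw [this]
            simp
        simp only [h2]
        rw [ih, mul_one]
    calc ∑ s : V → Fin 2, (psi φ (insert i T) s) ^ 2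
        = ∑ s : V → Fin 2, ∑ x : V,
            if s x = 1 ∧ φ i x ≠ 0 then (psi φ (insert i T) s) ^ 2 else 0 :=
          Finset.sum_congr rfl fun s _ => step1 s
      _ = ∑ x : V, ∑ s : V → Fin 2,
            if s x = 1 ∧ φ i x ≠ 0 then (psi φ (insert i T) s) ^ 2 else 0 := Finset.sum_comm
      _ = ∑ x : V, (φ i x) ^ 2 := Finset.sum_congr rfl fun x _ => step2 x
      _ = 1 := hnorm i

end Vale.Agent.Lib.P361
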