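import Vale.Agent.Lib.P361.Trial2

namespace Vale.Agent.Lib.P361

open Matrix

variable {V : Type} [Fintype V] [DecidableEq V] {I : Type} [DecidableEq I]

/-- The (Dirichlet) energy of the one-magnon wave function `φ i`. -/
noncomputable def cellEnergy (adj : V → V → Prop) [DecidableRel adj] (φ : I → V → ℝ) (i : I) : ℝ :=
  (1 / 4 : ℝ) * ∑ x : V, ∑ y : V, if adj x y then (φ i x - φ i y) ^ 2 else 0

theorem sq_sum_pairwise_zero (T : Finset I) (a b : I → ℝ)
    (h : ∀ i ∈ T, ∀ j ∈ T, i ≠ j → a i * a j = 0) :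
    (∑ i ∈ T, a i * b i) ^ 2 = ∑ i ∈ T, (a i) ^ 2 * (b i) ^ 2 := by
  rw [sq, Finset.sum_mul_sum]
  refine Finset.sum_congr rfl fun i hi => ?_
  rw [Finset.sum_eq_single i]
  · ring
  · intro j hj hji
    have h0 := h i hi j hj (Ne.symm hji)
    calc a i * b i * (a j * b j) = (a i * a j) * (b i * b j) := by ring
      _ = 0 := by rw [h0, zero_mul]
  · intro h'
    exact absurd hi h'

theorem comp_swap_eq_self (x y : V) (s : V → Fin 2) (h : s x = s y) : s ∘ Equiv.swap x y = s := by
  funext z
  by_cases hzx : z = x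
  · subst hzx; simp [h]
  · by_cases hzy : z = y
    · subst hzy; simp [h]
    · simp [Equiv.swap_apply_of_ne_of_ne hzx hzy]

theorem update_comp_swap (x y : V) (hxy : x ≠ y) (s : V → Fin 2) (hy : s y = 0) :
    Function.update (s ∘ Equiv.swap x y) y 0 = Function.update s x 0 := by
  funext z
  by_cases hzy : z = y
  · subst hzy
    rw [Function.update_self, Function.update_of_ne (Ne.symm hxy), hy]
  · rw [Function.update_of_ne hzy]
    by_cases hzx : z = x
    · subst hzx
      simp [hy]
    · rw [Function.update_of_ne hzx]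
      simp [Equiv.swap_apply_of_ne_of_ne hzx hzy]

theorem pair_zero (adj : V → V → Prop) (φ : I → V → ℝ) (hsep : Separated adj φ) (x y : V)
    (hxy : adj x y) (i j : I) (hij : i ≠ j) : (φ i x - φ i y) * (φ j x - φ j y) = 0 := by
  by_cases hix : φ i x = 0
  · by_cases hiy : φ i y = 0
    · rw [hix, hiy]; ring
    · have hjy : φ j y = 0 := by
        by_contra h
        exact (hsep i j hij y y hiy h).1 rfl
      have hjx : φ j x = 0 := by
        by_contra h
        exact (hsep j i (Ne.symm hij) x y h hiy).2 hxy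
      rw [hjx, hjy]; ring
  · have hjx : φ j x = 0 := by
      by_contra h
      exact (hsep i j hij x x hix h).1 rfl
    have hjy : φ j y = 0 := by
      by_contra h
      exact (hsep i j hij x y hix h).2 hxy
    rw [hjx, hjy]; ring

/-- The weight used in the pointwise energy bound. -/
noncomputable def gw (φ : I → V → ℝ) (T : Finset I) (z : V) (i : I) (s : V → Fin 2) : ℝ :=
  if s z = 1 then (psi φ (T.erase i) (Function.update s z 0)) ^ 2 else 0

theorem gw_nonneg (φ : I → V → ℝ) (T : Finset I) (z : V) (i : I) (s : V → Fin 2) :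
    0 ≤ gw φ T z i s := by
  unfold gw
  split_ifs
  · exact sq_nonneg _
  · exact le_refl _

theorem pair_pointwise (adj : V → V → Prop) (φ : I → V → ℝ) (hsep : Separated adj φ)
    (T : Finset I) (x y : V) (hne : x ≠ y) (hxy : adj x y) (s : V → Fin 2) :
    (psi φ T s - psi φ T (s ∘ Equiv.swap x y)) ^ 2 ≤
      ∑ i ∈ T, (φ i x - φ i y) ^ 2 * (gw φ T x i s + gw φ T y i s) := by
  have hRHS : 0 ≤ ∑ i ∈ T, (φ i x - φ i y) ^ 2 * (gw φ T x i s + gw φ T y i s) :=
    Finset.sum_nonneg fun i _ =>
      mul_nonneg (sq_nonneg _) (add_nonneg (gw_nonneg φ T x i s) (gw_nonneg φ T y i s))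
  have hpz : ∀ i ∈ T, ∀ j ∈ T, i ≠ j → (φ i x - φ i y) * (φ j x - φ j y) = 0 :=
    fun i _ j _ hij => pair_zero adj φ hsep x y hxy i j hij
  have hpz' : ∀ i ∈ T, ∀ j ∈ T, i ≠ j → (φ i y - φ i x) * (φ j y - φ j x) = 0 := by
    intro i hi j hj hij
    have := hpz i hi j hj hij
    calc (φ i y - φ i x) * (φ j y - φ j x) = (φ i x - φ i y) * (φ j x - φ j y) := by ring
      _ = 0 := this
  rcases fin2_cases (s x) with hsx | hsx <;> rcases fin2_cases (s y) with hsy | hsy
  · rw [comp_swap_eq_self x y s (by rw [hsx, hsy])]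
    simpa using hRHS
  · -- s x = 0, s y = 1
    have hswx : (s ∘ Equiv.swap x y) x = 1 := by simp [hsy]
    have e1 := psi_create adj φ hsep T s y hsy
    have e2 := psi_create adj φ hsep T (s ∘ Equiv.swap x y) x hswx
    have hupd : Function.update (s ∘ Equiv.swap x y) x 0 = Function.update s y 0 := by
      have := update_comp_swap y x (Ne.symm hne) s hsx
      rw [Equiv.swap_comm] at this
      exact this
    rw [hupd] at e2
    rw [e1, e2, ← Finset.sum_sub_distrib]
    have : ∀ i ∈ T, φ i y * psi φ (T.erase i) (Function.update s y 0) -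
        φ i x * psi φ (T.erase i) (Function.update s y 0) =
        (φ i y - φ i x) * psi φ (T.erase i) (Function.update s y 0) := by
      intro i _; ring
    rw [Finset.sum_congr rfl this, sq_sum_pairwise_zero T _ _ hpz']
    refine Finset.sum_le_sum fun i _ => ?_
    have h1 : gw φ T y i s = (psi φ (T.erase i) (Function.update s y 0)) ^ 2 := by
      unfold gw; rw [if_pos hsy]
    have h2 : (φ i y - φ i x) ^ 2 = (φ i x - φ i y) ^ 2 := by ring
    rw [h2, ← h1]
    exact mul_le_mul_of_nonneg_left (le_add_of_nonneg_left (gw_nonneg φ T x i s)) (sq_nonneg _)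
  · -- s x = 1, s y = 0
    have hswy : (s ∘ Equiv.swap x y) y = 1 := by simp [hsx]
    have e1 := psi_create adj φ hsep T s x hsx
    have e2 := psi_create adj φ hsep T (s ∘ Equiv.swap x y) y hswy
    rw [update_comp_swap x y hne s hsy] at e2
    rw [e1, e2, ← Finset.sum_sub_distrib]
    have : ∀ i ∈ T, φ i x * psi φ (T.erase i) (Function.update s x 0) -
        φ i y * psi φ (T.erase i) (Function.update s x 0) =
        (φ i x - φ i y) * psi φ (T.erase i) (Function.update s x 0) := by
      intro i _; ring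
    rw [Finset.sum_congr rfl this, sq_sum_pairwise_zero T _ _ hpz]
    refine Finset.sum_le_sum fun i _ => ?_
    have h1 : gw φ T x i s = (psi φ (T.erase i) (Function.update s x 0)) ^ 2 := by
      unfold gw; rw [if_pos hsx]
    rw [← h1]
    exact mul_le_mul_of_nonneg_left (le_add_of_nonneg_right (gw_nonneg φ T y i s)) (sq_nonneg _)
  · rw [comp_swap_eq_self x y s (by rw [hsx, hsy])]
    simpa using hRHS

theorem sum_gw_le (adj : V → V → Prop) (φ : I → V → ℝ) (hsep : Separated adj φ)
    (hnorm : ∀ i, ∑ v : V, (φ i v) ^ 2 = 1) (T : Finset I) (z : V) (i : I) :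
    ∑ s : V → Fin 2, gw φ T z i s ≤ 1 := by
  unfold gw
  rw [sum_flip z (fun r => (psi φ (T.erase i) r) ^ 2)]
  rw [← psi_norm adj φ hsep hnorm (T.erase i)]
  refine Finset.sum_le_sum fun r _ => ?_
  split_ifs
  · exact le_refl _
  · exact sq_nonneg _

theorem Q_psi_le (adj : V → V → Prop) [DecidableRel adj] (hirr : ∀ x, ¬ adj x x)
    (φ : I → V → ℝ) (hsep : Separated adj φ)
    (hnorm : ∀ i, ∑ v : V, (φ i v) ^ 2 = 1) (T : Finset I) :
    Q adj (psi φ T) ≤ ∑ i ∈ T, cellEnergy adj φ i := by
  unfold Q cellEnergy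
  rw [Finset.mul_sum]
  have hterm : ∀ x y : V, (if adj x y then
      ∑ s : V → Fin 2, (psi φ T s - psi φ T (s ∘ Equiv.swap x y)) ^ 2 else 0) ≤
      ∑ i ∈ T, 2 * (if adj x y then (φ i x - φ i y) ^ 2 else 0) := by
    intro x y
    by_cases hxy : adj x y
    · simp only [if_pos hxy]
      have hne : x ≠ y := by
        rintro rfl
        exact hirr x hxy
      calc ∑ s : V → Fin 2, (psi φ T s - psi φ T (s ∘ Equiv.swap x y)) ^ 2
          ≤ ∑ s : V → Fin 2, ∑ i ∈ T, (φ i x - φ i y) ^ 2 * (gw φ T x i s + gw φ T y i s) :=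
            Finset.sum_le_sum fun s _ => pair_pointwise adj φ hsep T x y hne hxy s
        _ = ∑ i ∈ T, (φ i x - φ i y) ^ 2 *
              (∑ s : V → Fin 2, gw φ T x i s + ∑ s : V → Fin 2, gw φ T y i s) := by
            rw [Finset.sum_comm]
            refine Finset.sum_congr rfl fun i _ => ?_
            rw [← Finset.mul_sum, Finset.sum_add_distrib]
        _ ≤ ∑ i ∈ T, 2 * (φ i x - φ i y) ^ 2 := by
            refine Finset.sum_le_sum fun i _ => ?_
            have h1 := sum_gw_le adj φ hsep hnorm T x i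
            have h2 := sum_gw_le adj φ hsep hnorm T y i
            nlinarith [sq_nonneg (φ i x - φ i y)]
    · simp only [if_neg hxy]
      simp
  calc ∑ x : V, 1 / 8 * ∑ y : V, (if adj x y then
        ∑ s : V → Fin 2, (psi φ T s - psi φ T (s ∘ Equiv.swap x y)) ^ 2 else 0)
      ≤ ∑ x : V, 1 / 8 * ∑ y : V, ∑ i ∈ T, 2 * (if adj x y then (φ i x - φ i y) ^ 2 else 0) := by
        refine Finset.sum_le_sum fun x _ => ?_
        refine mul_le_mul_of_nonneg_left ?_ (by norm_num)
        exact Finset.sum_le_sum fun y _ => hterm x y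
    _ = ∑ x : V, ∑ i ∈ T, 1 / 4 * ∑ y : V, (if adj x y then (φ i x - φ i y) ^ 2 else 0) := by
        refine Finset.sum_congr rfl fun x _ => ?_
        have h1 : ∑ y : V, ∑ i ∈ T, 2 * (if adj x y then (φ i x - φ i y) ^ 2 else 0) =
            ∑ i ∈ T, 2 * ∑ y : V, (if adj x y then (φ i x - φ i y) ^ 2 else 0) := by
          rw [Finset.sum_comm]
          exact Finset.sum_congr rfl fun i _ => (Finset.mul_sum _ _ _).symm
        rw [h1, Finset.mul_sum]
        refine Finset.sum_congr rfl fun i _ => ?_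
        ring
    _ = ∑ i ∈ T, ∑ x : V, 1 / 4 * ∑ y : V, (if adj x y then (φ i x - φ i y) ^ 2 else 0) :=
        Finset.sum_comm
    _ = ∑ i ∈ T, 1 / 4 * ∑ x : V, ∑ y : V, if adj x y then (φ i x - φ i y) ^ 2 else 0 := by
        refine Finset.sum_congr rfl fun i _ => ?_
        rw [Finset.mul_sum]

end Vale.Agent.Lib.P361
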